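import Mathlib

-- ▼ part R199/Chase
section

/-!
# Row 199, Part V (end): a finite exact sequence of free modules forces torsion-freeness

* `chase`: the abstract chase for one operator of order `p`.
* `cyc_fixed`, `cyc_norm`: the two cyclic exactness facts from a "partition of unity" `e`.
* `exists_transversal`, `finsupp_pou`: the partition of unity on `X →₀ M` for a free permutation
  of prime order.
* `torsionFree_of_exact`: the final form.
-/

set_option autoImplicit false

namespace Crest.Agent.R199.Chase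

open Finset

variable {A : Type*} [AddCommGroup A]

theorem mulA (f g : AddMonoid.End A) (a : A) : (f * g) a = f (g a) := rfl

theorem oneA (a : A) : (1 : AddMonoid.End A) a = a := rfl

theorem subA (f g : AddMonoid.End A) (a : A) : (f - g) a = f a - g a := rfl

theorem sumA {ι : Type*} (s : Finset ι) (F : ι → AddMonoid.End A) (a : A) :
    (∑ i ∈ s, F i) a = ∑ i ∈ s, F i a := by
  classical
  induction s using Finset.induction_on with
  | empty => rfl
  | insert i s hi ih =>
    rw [sum_insert hi, sum_insert hi, ← ih]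
    rfl

/-- The norm kills `g - 1`. -/
theorem norm_sub (p : ℕ) (g : AddMonoid.End A) (P : g ^ p = 1) (a : A) :
    ∑ i ∈ range p, (g ^ i) (g a - a) = 0 := by
  have : ∀ i ∈ range p, (g ^ i) (g a - a) = (g ^ (i + 1)) a - (g ^ i) a := by
    intro i _
    rw [map_sub, pow_succ, mulA]
  rw [sum_congr rfl this, sum_range_sub (fun i => (g ^ i) a), P]
  simp

/-- The abstract chase. -/
theorem chase {M2 M1 M0 : Type*} [AddCommGroup M2] [AddCommGroup M1] [AddCommGroup M0]
    (p : ℕ) (hp : 1 < p)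
    (g2 : AddMonoid.End M2) (g1 : AddMonoid.End M1) (g0 : AddMonoid.End M0)
    (d2 : M2 →+ M1) (d1 : M1 →+ M0) (ε : M0 →+ ℤ)
    (h2 : ∀ a, d2 (g2 a) = g1 (d2 a)) (h1 : ∀ a, d1 (g1 a) = g0 (d1 a))
    (h0 : ∀ a, ε (g0 a) = ε a)
    (inj : ∀ a, d2 a = 0 → a = 0)
    (dd : ∀ b, d1 (d2 b) = 0) (de : ∀ b, ε (d1 b) = 0)
    (ex1 : ∀ a, d1 a = 0 → ∃ b, d2 b = a)
    (ex0 : ∀ a, ε a = 0 → ∃ b, d1 b = a)
    (surj : ∃ a, ε a = 1)
    (C2 : ∀ a, g2 a = a → ∃ b, ∑ i ∈ range p, (g2 ^ i) b = a)
    (C1 : ∀ a, ∑ i ∈ range p, (g1 ^ i) a = 0 → ∃ b, g1 b - b = a)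
    (C0 : ∀ a, g0 a = a → ∃ b, ∑ i ∈ range p, (g0 ^ i) b = a)
    (P0 : g0 ^ p = 1) (P1 : g1 ^ p = 1) : False := by
  have e2 : ∀ (i : ℕ) a, d2 ((g2 ^ i) a) = (g1 ^ i) (d2 a) := by
    intro i
    induction i with
    | zero => intro a; simp
    | succ i ih =>
      intro a
      rw [pow_succ, pow_succ, mulA, mulA, ih, h2]
  have e1 : ∀ (i : ℕ) a, d1 ((g1 ^ i) a) = (g0 ^ i) (d1 a) := by
    intro i
    induction i with
    | zero => intro a; simp
    | succ i ih =>
      intro a
      rw [pow_succ, pow_succ, mulA, mulA, ih, h1]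
  have e0 : ∀ (i : ℕ) a, ε ((g0 ^ i) a) = ε a := by
    intro i
    induction i with
    | zero => intro a; simp
    | succ i ih =>
      intro a
      rw [pow_succ, mulA, ih, h0]
  obtain ⟨x0, hx0⟩ := surj
  obtain ⟨x1, hx1⟩ := ex0 (g0 x0 - x0) (by rw [map_sub, h0, sub_self])
  have hN1 : d1 (∑ i ∈ range p, (g1 ^ i) x1) = 0 := by
    rw [map_sum]
    have : ∀ i ∈ range p, d1 ((g1 ^ i) x1) = (g0 ^ i) (g0 x0 - x0) := by
      intro i _
      rw [e1, hx1]
    rw [sum_congr rfl this]
    exact norm_sub p g0 P0 x0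
  obtain ⟨x2, hx2⟩ := ex1 _ hN1
  have htx2 : d2 (g2 x2 - x2) = 0 := by
    rw [map_sub, h2, hx2, map_sum, ← sum_sub_distrib]
    have : ∀ i ∈ range p, g1 ((g1 ^ i) x1) - (g1 ^ i) x1 = (g1 ^ i) (g1 x1 - x1) := by
      intro i _
      rw [map_sub, ← mulA, ← mulA, ← pow_succ, ← pow_succ']
    rw [sum_congr rfl this]
    exact norm_sub p g1 P1 x1
  have hfx2 : g2 x2 = x2 := sub_eq_zero.1 (inj _ htx2)
  obtain ⟨y2, hy2⟩ := C2 x2 hfx2
  have hN2 : ∑ i ∈ range p, (g1 ^ i) (x1 - d2 y2) = 0 := by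
    have : ∀ i ∈ range p, (g1 ^ i) (x1 - d2 y2) = (g1 ^ i) x1 - d2 ((g2 ^ i) y2) := by
      intro i _
      rw [map_sub, e2]
    rw [sum_congr rfl this, sum_sub_distrib, ← map_sum, hy2, hx2, sub_self]
  obtain ⟨y1, hy1⟩ := C1 _ hN2
  have h3 : g0 (x0 - d1 y1) = x0 - d1 y1 := by
    have e : d1 (g1 y1 - y1) = g0 x0 - x0 := by
      rw [hy1, map_sub, dd, hx1, sub_zero]
    rw [map_sub, h1] at e
    rw [map_sub, sub_eq_sub_iff_add_eq_add]
    rw [sub_eq_sub_iff_add_eq_add] at e
    rw [← e, add_comm]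
  obtain ⟨y0, hy0⟩ := C0 _ h3
  have h5 : ε (x0 - d1 y1) = p * ε y0 := by
    rw [← hy0, map_sum, sum_congr rfl (fun i _ => e0 i y0)]
    simp
  have h6 : ε (d1 y1) = 0 := de y1
  rw [map_sub, hx0, h6, sub_zero] at h5
  have h7 : (p : ℤ) ∣ 1 := ⟨_, h5⟩
  have h8 : (p : ℤ) ≤ 1 := Int.le_of_dvd one_pos h7
  have : (1 : ℤ) < p := by exact_mod_cast hp
  omega

/-- Fixed elements are norms, given a partition of unity `e`. -/
theorem cyc_fixed (p : ℕ) (g e : AddMonoid.End A)
    (he : ∑ i ∈ range p, g ^ i * e * g ^ (p - i) = 1) (a : A) (ha : g a = a) :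
    ∃ b, ∑ i ∈ range p, (g ^ i) b = a := by
  have hpow : ∀ i : ℕ, (g ^ i) a = a := by
    intro i
    induction i with
    | zero => simp
    | succ i ih => rw [pow_succ, mulA, ha, ih]
  refine ⟨e a, ?_⟩
  have h := congrArg (fun f : AddMonoid.End A => f a) he
  simp only [sumA, mulA, oneA, hpow] at h
  exact h

/-- Norm-zero elements are differences, given a partition of unity `e`. -/
theorem cyc_norm (p : ℕ) (g e : AddMonoid.End A)
    (P : g ^ p = 1)
    (he : ∑ i ∈ range p, g ^ i * e * g ^ (p - i) = 1) (a : A)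
    (ha : ∑ i ∈ range p, (g ^ i) a = 0) :
    ∃ b, g b - b = a := by
  have h := congrArg (fun f : AddMonoid.End A => f a) he
  simp only [sumA, mulA, oneA] at h
  have hs : ∑ i ∈ range p, e ((g ^ (p - i)) a) = 0 := by
    rw [← map_sum]
    have : ∑ i ∈ range p, (g ^ (p - i)) a = ∑ i ∈ range p, (g ^ i) a := by
      have h1 : ∑ i ∈ range p, (g ^ (p - i)) a = ∑ i ∈ range p, (g ^ (i + 1)) a := by
        rw [← sum_range_reflect (fun i => (g ^ (i + 1)) a) p]
        refine sum_congr rfl fun i hi => ?_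
        have := mem_range.1 hi
        congr 2
        omega
      rw [h1]
      have h2 := sum_range_succ (fun i => (g ^ i) a) p
      have h3 := sum_range_succ' (fun i => (g ^ i) a) p
      rw [h2, P] at h3
      simpa using h3.symm
    rw [this, ha, map_zero]
  refine ⟨∑ i ∈ range p, (∑ j ∈ range i, g ^ j : AddMonoid.End A) (e ((g ^ (p - i)) a)), ?_⟩
  rw [map_sum, ← sum_sub_distrib]
  have h2 : ∀ i ∈ range p, g ((∑ j ∈ range i, g ^ j : AddMonoid.End A) (e ((g ^ (p - i)) a))) -
      (∑ j ∈ range i, g ^ j : AddMonoid.End A) (e ((g ^ (p - i)) a)) =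
      (g ^ i) (e ((g ^ (p - i)) a)) - e ((g ^ (p - i)) a) := by
    intro i _
    have := mul_geom_sum g i
    rw [sub_mul, one_mul] at this
    have h3 := congrArg (fun f : AddMonoid.End A => f (e ((g ^ (p - i)) a))) this
    simp only [subA, mulA, oneA] at h3
    exact h3
  rw [sum_congr rfl h2, sum_sub_distrib, hs, sub_zero]
  exact h

/-! ### The partition of unity on `X →₀ M` -/

/-- The operator on `X →₀ M` induced by a permutation. -/
noncomputable def act {X : Type*} (M : Type*) [AddCommGroup M] (σ : Equiv.Perm X) :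
    AddMonoid.End (X →₀ M) :=
  Finsupp.mapDomain.addMonoidHom σ

theorem act_apply {X M : Type*} [AddCommGroup M] (σ : Equiv.Perm X) (f : X →₀ M) (x : X) :
    act M σ f x = f (σ.symm x) := by
  have : x = σ (σ.symm x) := (σ.apply_symm_apply x).symm
  conv_lhs => rw [this]
  exact Finsupp.mapDomain_apply σ.injective f _

theorem act_mul {X M : Type*} [AddCommGroup M] (σ τ : Equiv.Perm X) :
    act M (σ * τ) = act M σ * act M τ := by
  ext f x
  rw [mulA, act_apply, act_apply, act_apply]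
  rfl

theorem act_one {X M : Type*} [AddCommGroup M] :
    act M (1 : Equiv.Perm X) = 1 := by
  ext f x
  rw [act_apply]
  rfl

theorem act_pow {X M : Type*} [AddCommGroup M] (σ : Equiv.Perm X) (n : ℕ) :
    act M σ ^ n = act M (σ ^ n) := by
  induction n with
  | zero => rw [pow_zero, pow_zero, act_one]
  | succ n ih => rw [pow_succ, pow_succ, ih, act_mul]

/-- A transversal for the orbits of a free permutation of prime order. -/
theorem exists_transversal {X : Type*} (σ : Equiv.Perm X) (p : ℕ) (hp : p.Prime)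
    (P : σ ^ p = 1) (free : ∀ x, σ x ≠ x) :
    ∃ T : Set X, ∀ x, ∃ i ∈ range p, (σ ^ i).symm x ∈ T ∧
      ∀ j ∈ range p, (σ ^ j).symm x ∈ T → j = i := by
  classical
  let S : Setoid X := Equiv.Perm.SameCycle.setoid σ
  let rep : X → X := fun x => Quotient.out (Quotient.mk S x)
  have hrep : ∀ x, σ.SameCycle (rep x) x := fun x => Quotient.mk_out (s := S) x
  have hrep' : ∀ x y, σ.SameCycle x y → rep x = rep y := by
    intro x y h
    show Quotient.out (Quotient.mk S x) = Quotient.out (Quotient.mk S y)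
    rw [Quotient.sound (s := S) h]
  have key : ∀ (k : ℤ) (x : X), (σ ^ k) x = x → (p : ℤ) ∣ k := by
    intro k x hk
    by_contra hnd
    have hcop : IsCoprime (p : ℤ) k := by
      rw [Int.isCoprime_iff_gcd_eq_one]
      have := (Nat.Prime.coprime_iff_not_dvd hp (n := k.natAbs)).2
        (fun h => hnd (Int.natCast_dvd.2 h))
      simpa [Int.gcd] using this
    obtain ⟨u, v, huv⟩ := hcop
    have h1 : (σ ^ (v * k)) x = x := by
      rw [mul_comm, zpow_mul]
      exact Equiv.Perm.zpow_apply_eq_self_of_apply_eq_self hk v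
    have h2 : σ ^ (u * p : ℤ) = 1 := by
      rw [mul_comm, zpow_mul, zpow_natCast, P, one_zpow]
    have h3 : σ ^ (1 : ℤ) = σ ^ (v * k) := by
      rw [← huv, zpow_add, h2, one_mul]
    apply free x
    rw [← h3, zpow_one] at h1
    exact h1
  refine ⟨{x | rep x = x}, fun x => ?_⟩
  obtain ⟨k, hk⟩ := hrep x
  -- (σ ^ k) (rep x) = x
  have hp0 : (p : ℤ) ≠ 0 := by exact_mod_cast hp.ne_zero
  have hk' : (σ ^ (k % p).toNat) (rep x) = x := by
    have h1 : σ ^ ((k % p).toNat : ℤ) = σ ^ k := by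
      rw [Int.toNat_of_nonneg (Int.emod_nonneg _ hp0)]
      conv_rhs => rw [← Int.emod_add_mul_ediv k p, zpow_add, zpow_mul, zpow_natCast, P, one_zpow,
        mul_one]
    rw [← zpow_natCast, h1]
    exact hk
  have hlt : (k % p).toNat < p := by
    have := Int.emod_lt_of_pos k (by exact_mod_cast hp.pos : (0:ℤ) < p)
    have h0 := Int.emod_nonneg k hp0
    omega
  have hsc : ∀ j : ℕ, rep ((σ ^ j).symm x) = rep x := by
    intro j
    apply hrep'
    exact ⟨j, by rw [zpow_natCast]; exact (σ ^ j).apply_symm_apply x⟩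
  have hsymm : (σ ^ (k % p).toNat).symm x = rep x := by
    rw [Equiv.symm_apply_eq]
    exact hk'.symm
  refine ⟨(k % p).toNat, mem_range.2 hlt, ?_, ?_⟩
  · show rep ((σ ^ (k % p).toNat).symm x) = (σ ^ (k % p).toNat).symm x
    rw [hsc, hsymm]
  · intro j hj hjT
    have h1 : rep ((σ ^ j).symm x) = (σ ^ j).symm x := hjT
    rw [hsc] at h1
    have h2 : (σ ^ j) (rep x) = x := by
      rw [h1]
      exact (σ ^ j).apply_symm_apply x
    have h3 : (σ ^ ((j : ℤ) - ((k % p).toNat : ℤ))) (rep x) = rep x := by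
      rw [sub_eq_neg_add, zpow_add, Equiv.Perm.mul_apply, zpow_natCast, h2, zpow_neg, zpow_natCast]
      rw [← hsymm]
      rfl
    have h4 := key _ _ h3
    have hj' := mem_range.1 hj
    have h5 : ((j : ℤ) - ((k % p).toNat : ℤ)) = 0 := by
      apply Int.eq_zero_of_abs_lt_dvd h4
      rw [abs_lt]
      constructor <;> omega
    omega

/-- The partition of unity on `X →₀ M`. -/
theorem finsupp_pou {X M : Type*} [AddCommGroup M] (σ : Equiv.Perm X) (p : ℕ) (hp : p.Prime)
    (P : σ ^ p = 1) (free : ∀ x, σ x ≠ x) :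
    ∃ e : AddMonoid.End (X →₀ M), ∑ i ∈ range p, act M σ ^ i * e * act M σ ^ (p - i) = 1 := by
  classical
  obtain ⟨T, hT⟩ := exists_transversal σ p hp P free
  set e : AddMonoid.End (X →₀ M) := Finsupp.filterAddHom (fun x => x ∈ T) with hedef
  refine ⟨e, ?_⟩
  ext f x
  rw [sumA, Finsupp.finsetSum_apply, oneA]
  obtain ⟨i, hi, hiT, huniq⟩ := hT x
  have hterm : ∀ j ∈ range p, ((act M σ ^ j * e *
      act M σ ^ (p - j)) f) x = if (σ ^ j).symm x ∈ T then f x else 0 := by
    intro j hj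
    have hjp := mem_range.1 hj
    rw [mulA, mulA, act_pow, act_pow, act_apply]
    show (Finsupp.filter (fun x => x ∈ T) ((act M (σ ^ (p - j))) f)) ((σ ^ j).symm x) = _
    rw [Finsupp.filter_apply]
    split_ifs with h
    · rw [act_apply]
      congr 1
      rw [Equiv.symm_apply_eq, Equiv.symm_apply_eq, ← Equiv.Perm.mul_apply, ← pow_add,
        show j + (p - j) = p by omega, P]
      rfl
    · rfl
  rw [sum_congr rfl hterm, sum_eq_single i]
  · rw [if_pos hiT]
  · intro j hj hji
    rw [if_neg]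
    intro hjT
    exact hji (huniq j hj hjT)
  · intro h
    exact absurd hi h

/-- The operator on `X →₀ M` induced by a group element. -/
noncomputable abbrev gact {G X : Type*} [Group G] [MulAction G X] (M : Type*) [AddCommGroup M]
    (g : G) : AddMonoid.End (X →₀ M) :=
  act M (MulAction.toPerm g)

theorem gact_single {G X M : Type*} [Group G] [MulAction G X] [AddCommGroup M]
    (g : G) (x : X) (m : M) :
    gact M g (Finsupp.single x m) = Finsupp.single (g • x) m :=
  Finsupp.mapDomain_single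

theorem gact_apply {G X M : Type*} [Group G] [MulAction G X] [AddCommGroup M]
    (g : G) (f : X →₀ M) (x : X) :
    gact M g f x = f (g⁻¹ • x) :=
  act_apply _ f x

/-- **Torsion-freeness from a finite exact sequence of free modules.**
`X2, X1, X0` are free `G`-sets, `M2, M1, M0` arbitrary abelian groups. -/
theorem torsionFree_of_exact {G : Type*} [Group G]
    {X2 X1 X0 : Type*} [MulAction G X2] [MulAction G X1] [MulAction G X0]
    {M2 M1 M0 : Type*} [AddCommGroup M2] [AddCommGroup M1] [AddCommGroup M0]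
    (f2 : ∀ (g : G) (x : X2), g • x = x → g = 1)
    (f1 : ∀ (g : G) (x : X1), g • x = x → g = 1)
    (f0 : ∀ (g : G) (x : X0), g • x = x → g = 1)
    (d2 : (X2 →₀ M2) →+ (X1 →₀ M1)) (d1 : (X1 →₀ M1) →+ (X0 →₀ M0)) (ε : (X0 →₀ M0) →+ ℤ)
    (h2 : ∀ (g : G) a, d2 (gact M2 g a) = gact M1 g (d2 a))
    (h1 : ∀ (g : G) a, d1 (gact M1 g a) = gact M0 g (d1 a))
    (h0 : ∀ (g : G) a, ε (gact M0 g a) = ε a)
    (inj : ∀ a, d2 a = 0 → a = 0)
    (dd : ∀ b, d1 (d2 b) = 0) (de : ∀ b, ε (d1 b) = 0)
    (ex1 : ∀ a, d1 a = 0 → ∃ b, d2 b = a)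
    (ex0 : ∀ a, ε a = 0 → ∃ b, d1 b = a)
    (surj : ∃ a, ε a = 1) :
    ∀ g : G, IsOfFinOrder g → g = 1 := by
  intro g hg
  by_contra hne
  have hn0 : orderOf g ≠ 0 := hg.orderOf_pos.ne'
  have hn1 : orderOf g ≠ 1 := fun h => hne (orderOf_eq_one_iff.1 h)
  set p := (orderOf g).minFac with hpdef
  have hp : p.Prime := Nat.minFac_prime hn1
  have hdvd : p ∣ orderOf g := Nat.minFac_dvd _
  set h : G := g ^ (orderOf g / p) with hh
  have hordh : orderOf h = p := orderOf_pow_orderOf_div hn0 hdvd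
  have hhp : h ^ p = 1 := by rw [← hordh]; exact pow_orderOf_eq_one h
  have hh1 : h ≠ 1 := by
    intro h1
    rw [h1, orderOf_one] at hordh
    exact hp.one_lt.ne hordh
  have permpow1 : (MulAction.toPerm h : Equiv.Perm X1) ^ p = 1 := by
    have : (MulAction.toPermHom G X1 h) ^ p = 1 := by rw [← map_pow, hhp, map_one]
    exact this
  have permpow0 : (MulAction.toPerm h : Equiv.Perm X0) ^ p = 1 := by
    have : (MulAction.toPermHom G X0 h) ^ p = 1 := by rw [← map_pow, hhp, map_one]
    exact this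
  have permpow2 : (MulAction.toPerm h : Equiv.Perm X2) ^ p = 1 := by
    have : (MulAction.toPermHom G X2 h) ^ p = 1 := by rw [← map_pow, hhp, map_one]
    exact this
  obtain ⟨e2, he2⟩ := finsupp_pou (M := M2) (MulAction.toPerm h : Equiv.Perm X2) p hp permpow2
    (fun x hx => hh1 (f2 h x hx))
  obtain ⟨e1, he1⟩ := finsupp_pou (M := M1) (MulAction.toPerm h : Equiv.Perm X1) p hp permpow1
    (fun x hx => hh1 (f1 h x hx))
  obtain ⟨e0, he0⟩ := finsupp_pou (M := M0) (MulAction.toPerm h : Equiv.Perm X0) p hp permpow0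
    (fun x hx => hh1 (f0 h x hx))
  have P1 : act M1 (MulAction.toPerm h : Equiv.Perm X1) ^ p = 1 := by
    rw [act_pow, permpow1, act_one]
  have P0 : act M0 (MulAction.toPerm h : Equiv.Perm X0) ^ p = 1 := by
    rw [act_pow, permpow0, act_one]
  exact chase p hp.one_lt (gact M2 h) (gact M1 h) (gact M0 h) d2 d1 ε (h2 h) (h1 h) (h0 h)
    inj dd de ex1 ex0 surj
    (fun a ha => cyc_fixed p _ e2 he2 a ha)
    (fun a ha => cyc_norm p _ e1 P1 he1 a ha)
    (fun a ha => cyc_fixed p _ e0 he0 a ha) P0 P1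

end Crest.Agent.R199.Chase
end

-- ▼ part R199/Exact

/-!
# Row 199, Part V (middle): the cellular complex of a graphical presentation

Data: a labelled graph `Pos` (`src tgt : Ed → P`, `lab : Ed → S`), relators = words of closed
walks, `π : FreeGroup S →* G` surjective with kernel inside the normal closure of the relators,
developing map `γ : P → G`.

* `exact1`: `(G →₀ Z₁(Pos)) → (G →₀ (S →₀ ℤ)) → (G →₀ ℤ)` is exact in the middle.
* `exact0`: exactness at `G →₀ ℤ`.
* `inj2`: injectivity of `d2` from a top-cell hypothesis.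
* `torsionFree`: conclusion.
-/

set_option autoImplicit false

namespace Crest.Agent.R199.Exact

open Crest.Agent.R199.Chase

universe u

/-- A labelled directed graph. -/
structure LG (S : Type*) where
  P : Type*
  Ed : Type*
  src : Ed → P
  tgt : Ed → P
  lab : Ed → S

variable {S : Type*} (Γ : LG S)

namespace LG

variable {Γ}

/-- source of an oriented edge -/
def ds (Γ : LG S) (d : Γ.Ed × Bool) : Γ.P := if d.2 then Γ.src d.1 else Γ.tgt d.1

/-- target of an oriented edge -/
def dt (Γ : LG S) (d : Γ.Ed × Bool) : Γ.P := if d.2 then Γ.tgt d.1 else Γ.src d.1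

/-- `IsWalk p l q`: the list `l` of oriented edges is a walk from `p` to `q`. -/
def IsWalk (Γ : LG S) : Γ.P → List (Γ.Ed × Bool) → Γ.P → Prop
  | p, [], q => p = q
  | p, d :: l, q => Γ.ds d = p ∧ IsWalk Γ (Γ.dt d) l q

/-- the word read along a list of oriented edges -/
def word (Γ : LG S) (l : List (Γ.Ed × Bool)) : List (S × Bool) :=
  l.map fun d => (Γ.lab d.1, d.2)

/-- relators: words of closed walks -/
def rels (Γ : LG S) : Set (FreeGroup S) :=
  {r | ∃ p l, Γ.IsWalk p l p ∧ r = FreeGroup.mk (Γ.word l)}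

/-- sign of an orientation -/
def sgn (b : Bool) : ℤ := if b then 1 else -1

/-- the chain of a list of oriented edges -/
noncomputable def chain (Γ : LG S) (l : List (Γ.Ed × Bool)) : Γ.Ed →₀ ℤ :=
  (l.map fun d => Finsupp.single d.1 (sgn d.2)).sum

/-- boundary -/
noncomputable def bdry (Γ : LG S) : (Γ.Ed →₀ ℤ) →+ (Γ.P →₀ ℤ) :=
  Finsupp.liftAddHom fun e =>
    Finsupp.singleAddHom (Γ.tgt e) - Finsupp.singleAddHom (Γ.src e)

/-- cycles -/
noncomputable abbrev Z1 (Γ : LG S) : AddSubgroup (Γ.Ed →₀ ℤ) := Γ.bdry.ker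

theorem bdry_single (e : Γ.Ed) (n : ℤ) :
    Γ.bdry (Finsupp.single e n) = Finsupp.single (Γ.tgt e) n - Finsupp.single (Γ.src e) n := by
  simp [bdry]

theorem bdry_chain (l : List (Γ.Ed × Bool)) : ∀ p q, Γ.IsWalk p l q →
    Γ.bdry (Γ.chain l) = Finsupp.single q 1 - Finsupp.single p 1 := by
  induction l with
  | nil =>
    intro p q h
    have : p = q := h
    subst this
    simp [chain]
  | cons d l ih =>
    intro p q h
    obtain ⟨h1, h2⟩ := h
    have h3 := ih _ _ h2
    have h4 : Γ.chain (d :: l) = Finsupp.single d.1 (sgn d.2) + Γ.chain l := by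
      simp [chain]
    rw [h4, map_add, h3, bdry_single, ← h1]
    obtain ⟨e, b⟩ := d
    cases b with
    | true => simp [sgn, ds, dt]
    | false =>
      simp only [sgn, ds, dt, Bool.false_eq_true, if_false, Finsupp.single_neg]
      abel

theorem chain_mem {l : List (Γ.Ed × Bool)} {p : Γ.P} (h : Γ.IsWalk p l p) :
    Γ.chain l ∈ Γ.Z1 := by
  rw [AddMonoidHom.mem_ker, bdry_chain l p p h, sub_self]

end LG

variable {Γ} {G : Type*} [Group G] (π : FreeGroup S →* G) (γ : Γ.P → G)

/-- the basic `1`-chain: the edge `s` at `g` with coefficient `n` -/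
noncomputable def E (g : G) (s : S) (n : ℤ) : G →₀ (S →₀ ℤ) :=
  Finsupp.single g (Finsupp.single s n)

/-- the chain of an edge family of the cell at `g` -/
noncomputable def d2' (g : G) : (Γ.Ed →₀ ℤ) →+ (G →₀ (S →₀ ℤ)) :=
  Finsupp.liftAddHom fun e =>
    (Finsupp.singleAddHom (g * γ (Γ.src e))).comp (Finsupp.singleAddHom (Γ.lab e))

theorem d2'_single (g : G) (e : Γ.Ed) (n : ℤ) :
    d2' γ g (Finsupp.single e n) = E (g * γ (Γ.src e)) (Γ.lab e) n := by
  simp [d2', E]

/-- second boundary -/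
noncomputable def d2 : (G →₀ Γ.Z1) →+ (G →₀ (S →₀ ℤ)) :=
  Finsupp.liftAddHom fun g => (d2' γ g).comp Γ.Z1.subtype

theorem d2_single (g : G) (z : Γ.Z1) :
    d2 γ (Finsupp.single g z) = d2' γ g (z : Γ.Ed →₀ ℤ) := by
  simp [d2]

/-- first boundary -/
noncomputable def d1 : (G →₀ (S →₀ ℤ)) →+ (G →₀ ℤ) :=
  Finsupp.liftAddHom fun g => Finsupp.liftAddHom fun s =>
    Finsupp.singleAddHom (g * π (FreeGroup.of s)) - Finsupp.singleAddHom g

theorem d1_E (g : G) (s : S) (n : ℤ) :
    d1 π (E g s n) = Finsupp.single (g * π (FreeGroup.of s)) n - Finsupp.single g n := by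
  simp [d1, E]

/-- augmentation -/
noncomputable def eps : (G →₀ ℤ) →+ ℤ := Finsupp.liftAddHom fun _ => AddMonoidHom.id ℤ

theorem eps_single (g : G) (n : ℤ) : eps (Finsupp.single g n) = n := by
  simp [eps]

theorem gact_E (h g : G) (s : S) (n : ℤ) : gact (S →₀ ℤ) h (E g s n) = E (h * g) s n := by
  simp only [E, gact_single, smul_eq_mul]

theorem gact_mul {M : Type*} [AddCommGroup M] (g h : G) (a : G →₀ M) :
    gact M (g * h) a = gact M g (gact M h a) := by
  ext x
  simp only [gact_apply, mul_inv_rev, mul_smul]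

theorem gact_one {M : Type*} [AddCommGroup M] (a : G →₀ M) :
    gact M (1 : G) a = a := by
  ext x
  simp only [gact_apply, inv_one, one_smul]

theorem gact_inv_gact {M : Type*} [AddCommGroup M] (g : G) (a : G →₀ M) :
    gact M g⁻¹ (gact M g a) = a := by
  rw [← gact_mul, inv_mul_cancel, gact_one]

theorem gact_gact_inv {M : Type*} [AddCommGroup M] (g : G) (a : G →₀ M) :
    gact M g (gact M g⁻¹ a) = a := by
  rw [← gact_mul, mul_inv_cancel, gact_one]

theorem d2'_gact (h g : G) (z : Γ.Ed →₀ ℤ) :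
    d2' γ (h * g) z = gact (S →₀ ℤ) h (d2' γ g z) := by
  induction z using Finsupp.induction_linear with
  | zero => simp
  | add a b ha hb => rw [map_add, map_add, ha, hb, map_add]
  | single e n => rw [d2'_single, d2'_single, gact_E, mul_assoc]

theorem d2_gact (h : G) (a : G →₀ Γ.Z1) :
    d2 γ (gact Γ.Z1 h a) = gact (S →₀ ℤ) h (d2 γ a) := by
  induction a using Finsupp.induction_linear with
  | zero => simp
  | add a b ha hb => rw [map_add, map_add, ha, hb, map_add, map_add]
  | single g z => rw [gact_single, d2_single, d2_single, smul_eq_mul, d2'_gact]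

theorem d1_gact (h : G) (a : G →₀ (S →₀ ℤ)) :
    d1 π (gact (S →₀ ℤ) h a) = gact ℤ h (d1 π a) := by
  induction a using Finsupp.induction_linear with
  | zero => simp
  | add a b ha hb => rw [map_add, map_add, ha, hb, map_add, map_add]
  | single g z =>
    induction z using Finsupp.induction_linear with
    | zero => simp
    | add a b ha hb => rw [Finsupp.single_add, map_add, map_add, ha, hb, map_add, map_add]
    | single s n =>
      have := gact_E h g s n
      unfold E at this
      rw [this]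
      have h1 := d1_E π (h * g) s n
      have h2 := d1_E π g s n
      unfold E at h1 h2
      rw [h1, h2, map_sub, gact_single, gact_single, smul_eq_mul, smul_eq_mul, mul_assoc]

theorem eps_gact (h : G) (a : G →₀ ℤ) : eps (gact ℤ h a) = eps a := by
  induction a using Finsupp.induction_linear with
  | zero => simp
  | add a b ha hb => rw [map_add, map_add, ha, hb, map_add]
  | single g z => rw [gact_single, eps_single, eps_single]

theorem d1_d2' (hγ : ∀ e, γ (Γ.tgt e) = γ (Γ.src e) * π (FreeGroup.of (Γ.lab e)))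
    (g : G) (z : Γ.Ed →₀ ℤ) :
    d1 π (d2' γ g z) = Finsupp.mapDomain (fun p => g * γ p) (Γ.bdry z) := by
  induction z using Finsupp.induction_linear with
  | zero => simp
  | add a b ha hb => rw [map_add, map_add, map_add, Finsupp.mapDomain_add, ha, hb]
  | single e n =>
    rw [d2'_single, d1_E, LG.bdry_single]
    have : ∀ a b : Γ.P →₀ ℤ, Finsupp.mapDomain (fun p => g * γ p) (a - b) =
        Finsupp.mapDomain (fun p => g * γ p) a - Finsupp.mapDomain (fun p => g * γ p) b := by
      intro a b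
      exact map_sub (Finsupp.mapDomain.addMonoidHom (M := ℤ) (fun p => g * γ p)) a b
    rw [this, Finsupp.mapDomain_single, Finsupp.mapDomain_single, hγ, mul_assoc]

theorem dd (hγ : ∀ e, γ (Γ.tgt e) = γ (Γ.src e) * π (FreeGroup.of (Γ.lab e)))
    (b : G →₀ Γ.Z1) : d1 π (d2 γ b) = 0 := by
  induction b using Finsupp.induction_linear with
  | zero => simp
  | add a b ha hb => rw [map_add, map_add, ha, hb, add_zero]
  | single g z =>
    have hz : Γ.bdry (z : Γ.Ed →₀ ℤ) = 0 := z.2
    rw [d2_single, d1_d2' π γ hγ, hz, Finsupp.mapDomain_zero]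

theorem de (b : G →₀ (S →₀ ℤ)) : eps (d1 π b) = 0 := by
  induction b using Finsupp.induction_linear with
  | zero => simp
  | add a b ha hb => rw [map_add, map_add, ha, hb, add_zero]
  | single g z =>
    induction z using Finsupp.induction_linear with
    | zero => simp
    | add a b ha hb => rw [Finsupp.single_add, map_add, map_add, ha, hb, add_zero]
    | single s n =>
      have h1 := d1_E π g s n
      unfold E at h1
      rw [h1, map_sub, eps_single, eps_single, sub_self]

/-! ### Fox calculus -/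

/-- the affine permutation attached to a letter -/
noncomputable def tau (s : S) : Equiv.Perm ((G →₀ (S →₀ ℤ)) × G) where
  toFun x := (gact (S →₀ ℤ) (π (FreeGroup.of s)) x.1 + E 1 s 1, π (FreeGroup.of s) * x.2)
  invFun x := (gact (S →₀ ℤ) (π (FreeGroup.of s))⁻¹ (x.1 - E 1 s 1), (π (FreeGroup.of s))⁻¹ * x.2)
  left_inv x := by
    simp only [add_sub_cancel_right, gact_inv_gact, inv_mul_cancel_left]
  right_inv x := by
    simp only [gact_gact_inv, sub_add_cancel, mul_inv_cancel_left]

/-- the Fox homomorphism -/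
noncomputable def Psi : FreeGroup S →* Equiv.Perm ((G →₀ (S →₀ ℤ)) × G) :=
  FreeGroup.lift (tau π)

/-- the Fox derivative -/
noncomputable def D (w : FreeGroup S) : G →₀ (S →₀ ℤ) := (Psi π w (0, 1)).1

theorem Psi_apply (w : FreeGroup S) : ∀ x : (G →₀ (S →₀ ℤ)) × G,
    Psi π w x = (gact (S →₀ ℤ) (π w) x.1 + D π w, π w * x.2) := by
  have key : ∀ w : FreeGroup S, ∃ c : G →₀ (S →₀ ℤ), ∀ x : (G →₀ (S →₀ ℤ)) × G,
      Psi π w x = (gact (S →₀ ℤ) (π w) x.1 + c, π w * x.2) := by
    intro w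
    refine FreeGroup.induction_on w ?_ ?_ ?_ ?_
    · refine ⟨0, fun x => ?_⟩
      rw [map_one, map_one, gact_one, add_zero, one_mul]
      rfl
    · intro s
      refine ⟨E 1 s 1, fun x => ?_⟩
      rw [Psi, FreeGroup.lift_apply_of]
      rfl
    · intro s _
      refine ⟨-gact (S →₀ ℤ) (π (FreeGroup.of s))⁻¹ (E 1 s 1), fun x => ?_⟩
      rw [map_inv, Psi, FreeGroup.lift_apply_of, map_inv]
      show (gact (S →₀ ℤ) (π (FreeGroup.of s))⁻¹ (x.1 - E 1 s 1), _) = _
      rw [map_sub, sub_eq_add_neg]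
    · intro a b ha hb
      obtain ⟨ca, ha⟩ := ha
      obtain ⟨cb, hb⟩ := hb
      refine ⟨gact (S →₀ ℤ) (π a) cb + ca, fun x => ?_⟩
      rw [map_mul, Equiv.Perm.mul_apply, hb, ha, map_mul, gact_mul, map_add, add_assoc, mul_assoc]
  intro x
  obtain ⟨c, hc⟩ := key w
  have : D π w = c := by
    unfold D
    rw [hc, map_zero, zero_add]
  rw [this, hc]

theorem D_mul (a b : FreeGroup S) : D π (a * b) = D π a + gact (S →₀ ℤ) (π a) (D π b) := by
  have h : D π (a * b) = (Psi π a (Psi π b (0, 1))).1 := by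
    unfold D
    rw [map_mul, Equiv.Perm.mul_apply]
  rw [h, Psi_apply π b, Psi_apply π a, map_zero, zero_add, add_comm]

theorem D_of (s : S) : D π (FreeGroup.of s) = E 1 s 1 := by
  unfold D
  rw [Psi, FreeGroup.lift_apply_of]
  show gact (S →₀ ℤ) (π (FreeGroup.of s)) (0 : G →₀ (S →₀ ℤ)) + E 1 s 1 = _
  rw [map_zero, zero_add]

theorem D_one : D π 1 = 0 := by
  unfold D
  rw [map_one]
  rfl

theorem D_inv (a : FreeGroup S) : D π a⁻¹ = -gact (S →₀ ℤ) (π a)⁻¹ (D π a) := by
  have h := D_mul π a⁻¹ a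
  rw [inv_mul_cancel, D_one, map_inv] at h
  exact (neg_eq_of_add_eq_zero_left h.symm).symm ▸ rfl

theorem d1_D (w : FreeGroup S) :
    d1 π (D π w) = Finsupp.single (π w) 1 - Finsupp.single 1 1 := by
  refine FreeGroup.induction_on w ?_ ?_ ?_ ?_
  · rw [D_one, map_zero, map_one, sub_self]
  · intro s
    rw [D_of, d1_E, one_mul]
  · intro s ih
    rw [D_inv, map_neg, d1_gact, ih, map_sub, gact_single, gact_single, smul_eq_mul, smul_eq_mul,
      inv_mul_cancel, mul_one, map_inv, neg_sub]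
  · intro a b ha hb
    rw [D_mul, map_add, d1_gact, ha, hb, map_sub, gact_single, gact_single, smul_eq_mul,
      smul_eq_mul, mul_one, map_mul]
    abel

/-- the Fox derivative of the word of a walk is the image of its chain -/
theorem D_walk (hγ : ∀ e, γ (Γ.tgt e) = γ (Γ.src e) * π (FreeGroup.of (Γ.lab e)))
    (l : List (Γ.Ed × Bool)) : ∀ p q, Γ.IsWalk p l q →
      gact (S →₀ ℤ) (γ p) (D π (FreeGroup.mk (Γ.word l))) = d2' γ 1 (Γ.chain l) ∧
      γ p * π (FreeGroup.mk (Γ.word l)) = γ q := by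
  induction l with
  | nil =>
    intro p q h
    have : p = q := h
    subst this
    refine ⟨?_, ?_⟩
    · have h1 : FreeGroup.mk (Γ.word []) = (1 : FreeGroup S) := rfl
      rw [h1, D_one, map_zero]
      simp [LG.chain]
    · have h1 : FreeGroup.mk (Γ.word []) = (1 : FreeGroup S) := rfl
      rw [h1, map_one, mul_one]
  | cons d l ih =>
    intro p q h
    obtain ⟨h1, h2⟩ := h
    obtain ⟨h3, h4⟩ := ih _ _ h2
    have hc : Γ.chain (d :: l) = Finsupp.single d.1 (LG.sgn d.2) + Γ.chain l := by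
      simp [LG.chain]
    have hw : FreeGroup.mk (Γ.word (d :: l)) =
        FreeGroup.mk [(Γ.lab d.1, d.2)] * FreeGroup.mk (Γ.word l) := by
      rw [FreeGroup.mul_mk]
      rfl
    rw [hw, hc, D_mul, map_add, map_add, map_mul]
    obtain ⟨e, b⟩ := d
    cases b with
    | true =>
      have hm : FreeGroup.mk [(Γ.lab e, true)] = FreeGroup.of (Γ.lab e) := rfl
      have hp : p = Γ.src e := h1.symm
      have hq : Γ.dt (e, true) = Γ.tgt e := rfl
      rw [hq] at h3 h4
      subst hp
      constructor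
      · rw [hm, D_of, gact_E, mul_one, ← gact_mul, ← hγ, h3, d2'_single, one_mul]
        rfl
      · rw [hm, ← mul_assoc, ← hγ, h4]
    | false =>
      have hm : FreeGroup.mk [(Γ.lab e, false)] = (FreeGroup.of (Γ.lab e))⁻¹ := rfl
      have hp : p = Γ.tgt e := h1.symm
      have hq : Γ.dt (e, false) = Γ.src e := rfl
      rw [hq] at h3 h4
      subst hp
      have hg : γ (Γ.tgt e) * (π (FreeGroup.of (Γ.lab e)))⁻¹ = γ (Γ.src e) := by
        rw [hγ, mul_inv_cancel_right]
      constructor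
      · have e1 : gact (S →₀ ℤ) (γ (Γ.tgt e)) (D π (FreeGroup.of (Γ.lab e))⁻¹) =
            d2' γ 1 (Finsupp.single e (-1)) := by
          rw [D_inv, map_neg, ← gact_mul, hg, D_of, gact_E, d2'_single, mul_one, one_mul]
          simp [E, Finsupp.single_neg]
        have e2 : gact (S →₀ ℤ) (γ (Γ.tgt e)) (gact (S →₀ ℤ) (π (FreeGroup.of (Γ.lab e))⁻¹)
            (D π (FreeGroup.mk (Γ.word l)))) = d2' γ 1 (Γ.chain l) := by
          rw [← gact_mul, map_inv, hg, h3]
        rw [hm, e1, e2]
        rfl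
      · rw [hm, map_inv, ← mul_assoc, hg, h4]

theorem D_mem (hγ : ∀ e, γ (Γ.tgt e) = γ (Γ.src e) * π (FreeGroup.of (Γ.lab e)))
    (hker : π.ker ≤ Subgroup.normalClosure Γ.rels) (w : FreeGroup S) (hw : π w = 1) :
    D π w ∈ (d2 γ).range := by
  have hinv : ∀ (g : G) a, a ∈ (d2 γ).range → gact (S →₀ ℤ) g a ∈ (d2 γ).range := by
    rintro g a ⟨b, rfl⟩
    exact ⟨gact Γ.Z1 g b, d2_gact γ g b⟩
  let N : Subgroup (FreeGroup S) :=
    { carrier := {w | π w = 1 ∧ D π w ∈ (d2 γ).range}
      one_mem' := ⟨map_one π, by rw [D_one]; exact zero_mem _⟩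
      mul_mem' := by
        rintro a b ⟨ha, ha'⟩ ⟨hb, hb'⟩
        refine ⟨by rw [map_mul, ha, hb, one_mul], ?_⟩
        rw [D_mul]
        exact add_mem ha' (hinv _ _ hb')
      inv_mem' := by
        rintro a ⟨ha, ha'⟩
        refine ⟨by rw [map_inv, ha, inv_one], ?_⟩
        rw [D_inv]
        exact neg_mem (hinv _ _ ha') }
  have hN : N.Normal := by
    refine ⟨fun n hn g => ?_⟩
    obtain ⟨h1, h2⟩ := hn
    refine ⟨by rw [map_mul, map_mul, h1, mul_one, map_inv, mul_inv_cancel], ?_⟩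
    rw [D_mul, D_mul, D_inv, map_mul, h1, mul_one, map_neg, gact_gact_inv]
    have : D π g + gact (S →₀ ℤ) (π g) (D π n) + -D π g = gact (S →₀ ℤ) (π g) (D π n) := by abel
    rw [this]
    exact hinv _ _ h2
  have hR : Γ.rels ⊆ N := by
    rintro r ⟨p, l, hl, rfl⟩
    obtain ⟨h1, h2⟩ := D_walk π γ hγ l p p hl
    refine ⟨?_, ?_⟩
    · exact mul_eq_left.1 h2
    · have h3 : D π (FreeGroup.mk (Γ.word l)) =
          gact (S →₀ ℤ) (γ p)⁻¹ (d2' γ 1 (Γ.chain l)) := by
        rw [← h1, gact_inv_gact]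
      rw [h3]
      apply hinv
      exact ⟨Finsupp.single 1 ⟨Γ.chain l, LG.chain_mem hl⟩, by rw [d2_single]⟩
  have : π.ker ≤ N := hker.trans (Subgroup.normalClosure_le_normal hR)
  exact (this hw).2

/-- **Exactness in the middle.** -/
theorem exact1 (hπ : Function.Surjective π)
    (hγ : ∀ e, γ (Γ.tgt e) = γ (Γ.src e) * π (FreeGroup.of (Γ.lab e)))
    (hker : π.ker ≤ Subgroup.normalClosure Γ.rels) (a : G →₀ (S →₀ ℤ)) (ha : d1 π a = 0) :
    ∃ b, d2 γ b = a := by
  classical
  choose σ hσ using hπ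
  letI inst : AddCommGroup ((G →₀ (S →₀ ℤ)) ⧸ (d2 γ).range) :=
    QuotientAddGroup.Quotient.addCommGroup _
  let mk : (G →₀ (S →₀ ℤ)) →+ (G →₀ (S →₀ ℤ)) ⧸ (d2 γ).range := QuotientAddGroup.mk' _
  have hD : ∀ w w' : FreeGroup S, π w = π w' → mk (D π w) = mk (D π w') := by
    intro w w' h
    have h1 : D π (w * w'⁻¹) ∈ (d2 γ).range :=
      D_mem π γ hγ hker _ (by rw [map_mul, map_inv, h, mul_inv_cancel])
    rw [D_mul, D_inv, map_neg, h, gact_gact_inv] at h1
    rw [← sub_eq_zero, ← map_sub]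
    exact (QuotientAddGroup.eq_zero_iff _).2 (by rwa [sub_eq_add_neg])
  let h : (G →₀ ℤ) →+ (G →₀ (S →₀ ℤ)) ⧸ (d2 γ).range :=
    Finsupp.liftAddHom fun g => (zmultiplesHom _ (mk (D π (σ g))))
  have hs : ∀ g n, h (Finsupp.single g n) = n • mk (D π (σ g)) := by
    intro g n
    simp [h]
  have key : ∀ a, h (d1 π a) = mk a := by
    intro a
    induction a using Finsupp.induction_linear with
    | zero => simp
    | add a b ha hb => rw [map_add, map_add, ha, hb, map_add]
    | single g z =>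
      induction z using Finsupp.induction_linear with
      | zero => simp
      | add a b ha hb => rw [Finsupp.single_add, map_add, map_add, ha, hb, map_add]
      | single s n =>
        have h1 := d1_E π g s n
        unfold E at h1
        rw [h1, map_sub, hs, hs]
        have h2 : mk (D π (σ (g * π (FreeGroup.of s)))) = mk (D π (σ g)) + mk (E g s 1) := by
          rw [hD (σ (g * π (FreeGroup.of s))) (σ g * FreeGroup.of s)
            (by rw [hσ, map_mul, hσ]), D_mul, D_of, gact_E, mul_one, hσ, map_add]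
        rw [h2, smul_add, add_sub_cancel_left, ← map_zsmul]
        congr 1
        simp [E]
  have h0 : mk a = 0 := by rw [← key, ha, map_zero]
  have := (QuotientAddGroup.eq_zero_iff a).1 h0
  obtain ⟨b, hb⟩ := this
  exact ⟨b, hb⟩

/-- **Exactness at `G →₀ ℤ`.** -/
theorem exact0 (hπ : Function.Surjective π) (a : G →₀ ℤ) (ha : eps a = 0) :
    ∃ b, d1 π b = a := by
  classical
  have key : ∀ a : G →₀ ℤ, ∃ b, d1 π b = a - Finsupp.single 1 (eps a) := by
    intro a
    induction a using Finsupp.induction_linear with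
    | zero => exact ⟨0, by simp⟩
    | add a b ha hb =>
      obtain ⟨x, hx⟩ := ha
      obtain ⟨y, hy⟩ := hb
      refine ⟨x + y, ?_⟩
      rw [map_add, hx, hy, map_add, Finsupp.single_add]
      abel
    | single g n =>
      obtain ⟨w, hw⟩ := hπ g
      refine ⟨n • D π w, ?_⟩
      rw [map_zsmul, d1_D, hw, eps_single, smul_sub]
      simp
  obtain ⟨b, hb⟩ := key a
  exact ⟨b, by rw [hb, ha]; simp⟩

/-! ### Injectivity from a top cell -/

section top

variable {X : Type*} (comp : Γ.P → X)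

open Classical in
/-- the part of a chain in a component -/
noncomputable def restr (x : X) : (Γ.Ed →₀ ℤ) →+ (Γ.Ed →₀ ℤ) :=
  Finsupp.filterAddHom fun e => comp (Γ.src e) = x

open Classical in
theorem restr_apply (x : X) (z : Γ.Ed →₀ ℤ) (e : Γ.Ed) :
    restr comp x z e = if comp (Γ.src e) = x then z e else 0 := by
  unfold restr
  show (Finsupp.filter (fun e => comp (Γ.src e) = x) z) e = _
  rw [Finsupp.filter_apply]

open Classical in
/-- the part of a cycle in a component is a cycle -/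
theorem restr_mem (hcomp : ∀ e, comp (Γ.src e) = comp (Γ.tgt e)) (x : X) (z : Γ.Ed →₀ ℤ)
    (hz : z ∈ Γ.Z1) : restr comp x z ∈ Γ.Z1 := by
  have key : ∀ z : Γ.Ed →₀ ℤ, Γ.bdry (restr comp x z) =
      Finsupp.filter (fun p => comp p = x) (Γ.bdry z) := by
    intro z
    have hpos : ∀ (p : Γ.P) (n : ℤ), comp p = x →
        Finsupp.filter (fun p => comp p = x) (Finsupp.single p n) = Finsupp.single p n :=
      fun p n h => Finsupp.filter_single_of_pos (fun p => comp p = x) h
    have hneg : ∀ (p : Γ.P) (n : ℤ), comp p ≠ x →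
        Finsupp.filter (fun p => comp p = x) (Finsupp.single p n) = 0 :=
      fun p n h => Finsupp.filter_single_of_neg (fun p => comp p = x) h
    induction z using Finsupp.induction_linear with
    | zero => simp [Finsupp.filter_zero]
    | add a b ha hb => rw [map_add, map_add, ha, hb, map_add, Finsupp.filter_add]
    | single e n =>
      by_cases h : comp (Γ.src e) = x
      · have h1 : restr comp x (Finsupp.single e n) = Finsupp.single e n :=
          Finsupp.filter_single_of_pos (fun e => comp (Γ.src e) = x) h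
        rw [h1, LG.bdry_single, Finsupp.filter_sub, hpos _ n h,
          hpos _ n ((hcomp e).symm.trans h)]
      · have h1 : restr comp x (Finsupp.single e n) = 0 :=
          Finsupp.filter_single_of_neg (fun e => comp (Γ.src e) = x) h
        rw [h1, LG.bdry_single, Finsupp.filter_sub, hneg _ n h,
          hneg _ n (fun h' => h ((hcomp e).trans h')), map_zero, sub_self]
  have h0 : Γ.bdry z = 0 := hz
  show Γ.bdry (restr comp x z) = 0
  rw [key, h0, Finsupp.filter_zero]

open Classical in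
theorem d2'_apply (g : G) (z : Γ.Ed →₀ ℤ) (h : G) (s : S) :
    d2' γ g z h s = ∑ e ∈ z.support, if g * γ (Γ.src e) = h ∧ Γ.lab e = s then z e else 0 := by
  have h1 : d2' γ g z = ∑ e ∈ z.support, E (g * γ (Γ.src e)) (Γ.lab e) (z e) := by
    conv_lhs => rw [← Finsupp.sum_single z]
    rw [Finsupp.sum, map_sum]
    exact Finset.sum_congr rfl fun e _ => d2'_single γ g e _
  rw [h1, Finsupp.finsetSum_apply, Finsupp.finsetSum_apply]
  refine Finset.sum_congr rfl fun e _ => ?_
  unfold E
  by_cases hg : g * γ (Γ.src e) = h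
  · rw [hg, Finsupp.single_eq_same]
    by_cases hs : Γ.lab e = s
    · rw [hs, Finsupp.single_eq_same, if_pos ⟨rfl, rfl⟩]
    · rw [Finsupp.single_eq_of_ne (fun h' => hs h'.symm), if_neg (fun h' => hs h'.2)]
  · rw [Finsupp.single_eq_of_ne (fun h' => hg h'.symm), if_neg (fun h' => hg h'.1)]
    rfl

open Classical in
theorem d2_apply (f : G →₀ Γ.Z1) (h : G) (s : S) :
    d2 γ f h s = ∑ g ∈ f.support, ∑ e ∈ (f g : Γ.Ed →₀ ℤ).support,
      if g * γ (Γ.src e) = h ∧ Γ.lab e = s then (f g : Γ.Ed →₀ ℤ) e else 0 := by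
  have h1 : d2 γ f = ∑ g ∈ f.support, d2' γ g (f g : Γ.Ed →₀ ℤ) := by
    conv_lhs => rw [← Finsupp.sum_single f]
    rw [Finsupp.sum, map_sum]
    exact Finset.sum_congr rfl fun g _ => d2_single γ g _
  rw [h1, Finsupp.finsetSum_apply, Finsupp.finsetSum_apply]
  exact Finset.sum_congr rfl fun g _ => d2'_apply γ g _ h s

/-- **Injectivity of `d2`.** `lev` = level of the cell `(g, x)`; `hemb`: cells embed; `htop`: no
nonzero cycle of a cell is supported on edges lying in other cells of at most the same level. -/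
theorem inj2 (hcomp : ∀ e, comp (Γ.src e) = comp (Γ.tgt e))
    (hemb : ∀ e e', comp (Γ.src e) = comp (Γ.src e') → γ (Γ.src e) = γ (Γ.src e') →
      Γ.lab e = Γ.lab e' → e = e')
    (lev : G → X → ℕ)
    (htop : ∀ (g : G) (x : X) (z : Γ.Ed →₀ ℤ), z ∈ Γ.Z1 →
      (∀ e, z e ≠ 0 → comp (Γ.src e) = x ∧ ∃ g' e', (g', comp (Γ.src e')) ≠ (g, x) ∧
        lev g' (comp (Γ.src e')) ≤ lev g x ∧ g' * γ (Γ.src e') = g * γ (Γ.src e) ∧
        Γ.lab e' = Γ.lab e) → z = 0)
    (f : G →₀ Γ.Z1) (hf : d2 γ f = 0) : f = 0 := by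
  classical
  by_contra hne
  -- the finite set of cells carrying a nonzero cycle
  let cells : Finset (G × X) := f.support.biUnion fun g =>
    ((f g : Γ.Ed →₀ ℤ).support.image fun e => (g, comp (Γ.src e)))
  have hcells : ∀ g e, (f g : Γ.Ed →₀ ℤ) e ≠ 0 → (g, comp (Γ.src e)) ∈ cells := by
    intro g e he
    refine Finset.mem_biUnion.2 ⟨g, ?_, Finset.mem_image.2 ⟨e, Finsupp.mem_support_iff.2 he, rfl⟩⟩
    rw [Finsupp.mem_support_iff]
    intro h
    apply he
    rw [h]
    rfl
  have hcne : cells.Nonempty := by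
    obtain ⟨g, hg⟩ := Finsupp.support_nonempty_iff.2 hne
    have h1 : (f g : Γ.Ed →₀ ℤ) ≠ 0 := by
      intro h
      exact (Finsupp.mem_support_iff.1 hg) (Subtype.ext h)
    obtain ⟨e, he⟩ := Finsupp.support_nonempty_iff.2 h1
    exact ⟨_, hcells g e (Finsupp.mem_support_iff.1 he)⟩
  obtain ⟨c, hc, hmax⟩ := Finset.exists_max_image cells (fun c => lev c.1 c.2) hcne
  obtain ⟨g, x⟩ := c
  -- the cycle of the top cell
  have hz : restr comp x (f g : Γ.Ed →₀ ℤ) ∈ Γ.Z1 := restr_mem comp hcomp x _ (f g).2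
  have h0 := htop g x (restr comp x (f g : Γ.Ed →₀ ℤ)) hz ?_
  · -- but it is nonzero
    obtain ⟨g1, hg1, hx1⟩ := Finset.mem_biUnion.1 hc
    obtain ⟨e, he, hge⟩ := Finset.mem_image.1 hx1
    have hgg : g1 = g := congrArg Prod.fst hge
    have hxx : comp (Γ.src e) = x := congrArg Prod.snd hge
    subst hgg
    have h1 := congrArg (fun z : Γ.Ed →₀ ℤ => z e) h0
    simp only [restr_apply, hxx, if_true, Finsupp.coe_zero, Pi.zero_apply] at h1
    exact (Finsupp.mem_support_iff.1 he) h1
  · intro e he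
    rw [restr_apply] at he
    have hxe : comp (Γ.src e) = x := by
      by_contra h
      rw [if_neg h] at he
      exact he rfl
    rw [if_pos hxe] at he
    refine ⟨hxe, ?_⟩
    by_contra hno
    push Not at hno
    -- the coefficient of `d2 f` at the location of `e`
    have h1 : d2 γ f (g * γ (Γ.src e)) (Γ.lab e) = 0 := by rw [hf]; rfl
    rw [d2_apply] at h1
    have huniq : ∀ g' e', (f g' : Γ.Ed →₀ ℤ) e' ≠ 0 → g' * γ (Γ.src e') = g * γ (Γ.src e) →
        Γ.lab e' = Γ.lab e → g' = g ∧ e' = e := by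
      intro g' e' hne' h2 h3
      by_cases hcell : (g', comp (Γ.src e')) = (g, x)
      · have hgg : g' = g := congrArg Prod.fst hcell
        have hxx : comp (Γ.src e') = x := congrArg Prod.snd hcell
        subst hgg
        refine ⟨rfl, hemb e' e (hxx.trans hxe.symm) (mul_left_cancel h2) h3⟩
      · exact absurd h3 (hno g' e' hcell (hmax _ (hcells g' e' hne')) h2)
    have hgs : g ∈ f.support := by
      rw [Finsupp.mem_support_iff]
      intro h
      apply he
      rw [h]
      rfl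
    rw [Finset.sum_eq_single g, Finset.sum_eq_single e, if_pos ⟨rfl, rfl⟩] at h1
    · exact he h1
    · intro e' he' hee
      rw [if_neg]
      rintro ⟨h2, h3⟩
      exact hee (huniq g e' (Finsupp.mem_support_iff.1 he') h2 h3).2
    · intro h
      exact absurd (Finsupp.mem_support_iff.2 he) h
    · intro g' _ hgg
      refine Finset.sum_eq_zero fun e' he' => ?_
      rw [if_neg]
      rintro ⟨h2, h3⟩
      exact hgg (huniq g' e' (Finsupp.mem_support_iff.1 he') h2 h3).1
    · intro h
      exact absurd hgs h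

/-- **Torsion-freeness of a graphical presentation with top cells.** -/
theorem torsionFree (hπ : Function.Surjective π)
    (hγ : ∀ e, γ (Γ.tgt e) = γ (Γ.src e) * π (FreeGroup.of (Γ.lab e)))
    (hker : π.ker ≤ Subgroup.normalClosure Γ.rels)
    (hcomp : ∀ e, comp (Γ.src e) = comp (Γ.tgt e))
    (hemb : ∀ e e', comp (Γ.src e) = comp (Γ.src e') → γ (Γ.src e) = γ (Γ.src e') →
      Γ.lab e = Γ.lab e' → e = e')
    (lev : G → X → ℕ)
    (htop : ∀ (g : G) (x : X) (z : Γ.Ed →₀ ℤ), z ∈ Γ.Z1 →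
      (∀ e, z e ≠ 0 → comp (Γ.src e) = x ∧ ∃ g' e', (g', comp (Γ.src e')) ≠ (g, x) ∧
        lev g' (comp (Γ.src e')) ≤ lev g x ∧ g' * γ (Γ.src e') = g * γ (Γ.src e) ∧
        Γ.lab e' = Γ.lab e) → z = 0) :
    ∀ g : G, IsOfFinOrder g → g = 1 := by
  have free : ∀ (g x : G), g • x = x → g = 1 := by
    intro g x h
    exact mul_eq_right.1 h
  exact torsionFree_of_exact free free free (d2 γ) (d1 π) eps
    (d2_gact γ) (d1_gact π) eps_gact
    (inj2 γ comp hcomp hemb lev htop) (dd π γ hγ) (de π) (exact1 π γ hπ hγ hker)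
    (exact0 π hπ) ⟨Finsupp.single 1 1, eps_single 1 1⟩

end top

end Crest.Agent.R199.Exact
private theorem rz_a10432b59a : type_of% @_root_.Crest.Agent.R199.Exact.LG.IsWalk.eq_def := @_root_.Crest.Agent.R199.Exact.LG.IsWalk.eq_def -- L45
private theorem rz_1640716868 : type_of% @_root_.Crest.Agent.R199.Exact.LG.IsWalk.eq_1 := @_root_.Crest.Agent.R199.Exact.LG.IsWalk.eq_1 -- L45
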