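import Crest.Agent.R199.Defs

-- ▼ part R199/StageDefs
section

/-!
Part II, internal: stages of the BFS model.

A stage of level `n` is a partial complex: a type `V` of vertices (group elements found so far) with a
partial action of the letters, a level function with values `≤ n`, and the relation
`dec v x` ("position `x` at `v` is declared": the cell of `(v,x)` is completely present).
-/

set_option autoImplicit false

namespace Crest.Agent.R199

open FreeGroup (IsReduced)

variable {S : Type}

/-- raw stage data -/
structure Stage (D : SCData S) where
  V : Type
  A : PAct S V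
  lev : V → ℕ
  n : ℕ
  dec : V → D.Pos → Prop
  O : V

namespace Stage

variable {D : SCData S}

/-- all proper and improper prefixes (of length between 1 and `w.length`) of `w` read from `v` end at
vertices of level `k`, and `w` is readable from `v`. -/
def ReadLev (T : Stage D) (v : T.V) (w : List (S × Bool)) (k : ℕ) : Prop :=
  ∀ i, 1 ≤ i → i ≤ w.length → ∃ v', T.A.read (w.take i) v = some v' ∧ T.lev v' = k

/-- The invariants of a stage. -/
structure Inv (T : Stage D) : Prop where
  /-- the origin -/
  lev_O : T.lev T.O = 0
  eq_O : ∀ v, T.lev v = 0 → v = T.O
  lev_le : ∀ v, T.lev v ≤ T.n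
  /-- connectedness -/
  conn : ∀ v, ∃ w, T.A.read w T.O = some v
  /-- declared cells are closed under the letters readable in `Pos` -/
  dec_step : ∀ v x a y, T.dec v x → D.A.st a x = some y → ∃ v', T.A.st a v = some v' ∧ T.dec v' y
  /-- a declared cell is a copy of the component of `Pos` (not a proper cover) -/
  dec_closed : ∀ v x w, T.dec v x → D.A.read w x = some x → T.A.read w v = some v
  /-- declared cells are embedded in `V` -/
  dec_inj : ∀ v x w y, T.dec v x → D.A.read w x = some y → T.A.read w v = some v → y = x
  /-- interior vertices are complete -/
  interior_st : ∀ v a, T.lev v < T.n → (T.A.st a v).isSome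
  interior_dec : ∀ v x, T.lev v < T.n → T.dec v x
  /-- every edge lies in a declared cell -/
  edge_dec : ∀ v a v', T.A.st a v = some v' → ∃ x, T.dec v x ∧ (D.A.st a x).isSome
  /-- every boundary vertex of a stage of positive level is in a declared cell -/
  bd_dec : ∀ v, T.lev v = T.n → 0 < T.n → ∃ x, T.dec v x
  /-- near structure: if two distinct positions are declared at the boundary vertex `v`, then `v`
  hangs off a unique vertex `b` of the previous level contained in all declared cells at `v` -/
  near : ∀ v x y, T.lev v = T.n → T.dec v x → T.dec v y → x ≠ y →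
    ∃ (b : T.V) (u : List (S × Bool)), T.lev b + 1 = T.n ∧ IsReduced u ∧ u ≠ [] ∧
      u.length + 1 ≤ D.m ∧ T.A.read u b = some v ∧ T.ReadLev b u T.n ∧
      ∀ z, T.dec v z → (D.A.read (FreeGroup.invRev u) z).isSome
  /-- a declared cell containing a boundary vertex only contains vertices of level `n-1` and `n` -/
  top_lev : ∀ v x w y v', T.lev v = T.n → T.dec v x → D.A.read w x = some y →
    T.A.read w v = some v' → T.lev v' = T.n ∨ T.lev v' + 1 = T.n
  /-- ... and it contains a base vertex (level `n-1`) -/
  top_base : ∀ v x, T.lev v = T.n → T.dec v x → ∃ w y v', D.A.read w x = some y ∧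
    T.A.read w v = some v' ∧ T.lev v' + 1 = T.n
  /-- ... and any two base positions are joined by a short reduced word through base vertices -/
  base_conn : ∀ v x w₁ y₁ v₁ w₂ y₂ v₂, T.lev v = T.n → T.dec v x →
    D.A.read w₁ x = some y₁ → T.A.read w₁ v = some v₁ → T.lev v₁ + 1 = T.n →
    D.A.read w₂ x = some y₂ → T.A.read w₂ v = some v₂ → T.lev v₂ + 1 = T.n →
    ∃ w : List (S × Bool), IsReduced w ∧ w.length ≤ 4 * (D.m - 1) ∧ D.A.read w y₁ = some y₂ ∧
      T.A.read w v₁ = some v₂ ∧ ∀ i, i ≤ w.length → ∃ v', T.A.read (w.take i) v₁ = some v' ∧
        T.lev v' + 1 = T.n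


end Stage

end Crest.Agent.R199
end

-- ▼ part R199/Words

/-!
Part II-a: basic lemmas about reading words under a partial action.
-/

set_option autoImplicit false

namespace Crest.Agent.R199

open FreeGroup (IsReduced invRev)

namespace PAct

variable {S X : Type} (A : PAct S X)

@[simp] theorem read_nil (x : X) : A.read [] x = some x := rfl

theorem read_cons (a : S × Bool) (w : List (S × Bool)) (x : X) :
    A.read (a :: w) x = (A.st a x).bind (A.read w) := rfl

theorem read_append (w₁ w₂ : List (S × Bool)) (x : X) :
    A.read (w₁ ++ w₂) x = (A.read w₁ x).bind (A.read w₂) := by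
  induction w₁ generalizing x with
  | nil => rfl
  | cons a w ih =>
    simp only [List.cons_append, read_cons]
    cases h : A.st a x with
    | none => rfl
    | some y => simpa using ih y

theorem read_append_some {w₁ w₂ : List (S × Bool)} {x z : X} :
    A.read (w₁ ++ w₂) x = some z ↔ ∃ y, A.read w₁ x = some y ∧ A.read w₂ y = some z := by
  rw [read_append]
  cases h : A.read w₁ x <;> simp

theorem read_singleton (a : S × Bool) (x : X) : A.read [a] x = A.st a x := by
  rw [read_cons]; cases A.st a x <;> rfl


theorem read_invRev {w : List (S × Bool)} {x y : X} (h : A.read w x = some y) :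
    A.read (invRev w) y = some x := by
  induction w generalizing x with
  | nil => simpa [invRev] using h.symm
  | cons a w ih =>
    rw [read_cons] at h
    cases h' : A.st a x with
    | none => rw [h'] at h; simp at h
    | some z =>
      rw [h'] at h
      have h1 := ih (by simpa using h)
      have h2 := A.symm a x z h'
      have : invRev (a :: w) = invRev w ++ [(a.1, !a.2)] := by
        simp [invRev]
      rw [this, read_append, h1]
      simpa [read_singleton] using h2



/-- one reduction step preserves the end point of a readable word -/
theorem read_step {w w' : List (S × Bool)} (h : FreeGroup.Red.Step w w') {x y : X}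
    (hr : A.read w x = some y) : A.read w' x = some y := by
  cases h with
  | @not L₁ L₂ a b =>
    rw [read_append_some] at hr ⊢
    obtain ⟨z, h1, h2⟩ := hr
    refine ⟨z, h1, ?_⟩
    rw [read_cons] at h2
    cases h3 : A.st (a, b) z with
    | none => rw [h3] at h2; simp at h2
    | some t =>
      rw [h3] at h2
      simp only [Option.bind_some] at h2
      rw [read_cons] at h2
      have := A.symm _ _ _ h3
      simp only at this
      rw [this] at h2
      simpa using h2

theorem read_red {w w' : List (S × Bool)} (h : FreeGroup.Red w w') {x y : X}
    (hr : A.read w x = some y) : A.read w' x = some y := by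
  induction h with
  | refl => exact hr
  | tail _ h2 ih => exact A.read_step h2 ih

/-- reducing a readable word -/
theorem exists_reduced {w : List (S × Bool)} {x y : X} (hr : A.read w x = some y) :
    ∃ w', IsReduced w' ∧ FreeGroup.Red w w' ∧ FreeGroup.mk w' = FreeGroup.mk w ∧
      w'.length ≤ w.length ∧ A.read w' x = some y := by
  classical
  refine ⟨FreeGroup.reduce w, ?_, FreeGroup.reduce.red, ?_, ?_, A.read_red FreeGroup.reduce.red hr⟩
  · exact FreeGroup.isReduced_iff_reduce_eq.mpr (by simp)
  · exact FreeGroup.reduce.self
  · exact (FreeGroup.Red.sublist FreeGroup.reduce.red).length_le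

/-- two reduced words representing the same free group element are equal -/
theorem reduced_eq {w w' : List (S × Bool)} (h : IsReduced w) (h' : IsReduced w')
    (he : FreeGroup.mk w = FreeGroup.mk w') : w = w' := by
  classical
  rw [← h.reduce_eq, ← h'.reduce_eq]
  exact FreeGroup.reduce.sound he


end PAct




end Crest.Agent.R199
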