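import Crest.Agent.R199.SC
import Crest.Agent.R199.Exact
import Crest.Agent.R199.Words

-- ▼ part R199/TorsionPG
section

/-!
# Row 199, Part V (end): torsion-freeness from cell levels

`torsionFree_of_levels`: relational form (helper962's `PG`).
-/

set_option autoImplicit false

namespace Crest.Agent.R199.Tor

open FreeGroup (IsReduced invRev reduce)
open Crest.Agent.R199.SC Crest.Agent.R199.Exact

variable {S : Type}

/-- the labelled directed graph of a `PG` -/
abbrev lg (P : PG S) : LG S where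
  P := P.V
  Ed := {e : P.V × S × P.V // P.E e.1 (e.2.1, true) e.2.2}
  src e := e.1.1
  tgt e := e.1.2.2
  lab e := e.1.2.1

/-- distance in a `PG` (words) -/
noncomputable def dist (P : PG S) (x v : P.V) : ℕ :=
  sInf {n | ∃ w, P.W x w v ∧ w.length = n}

theorem dist_le {P : PG S} {x v : P.V} {w : List (S × Bool)} (h : P.W x w v) :
    dist P x v ≤ w.length := Nat.sInf_le ⟨w, h, rfl⟩

theorem exists_geod {P : PG S} {x v : P.V} {w : List (S × Bool)} (h : P.W x w v) :
    ∃ u, IsReduced u ∧ P.W x u v ∧ u.length = dist P x v := by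
  classical
  obtain ⟨u, h1, h2⟩ := Nat.sInf_mem (s := {n | ∃ w, P.W x w v ∧ w.length = n}) ⟨_, w, h, rfl⟩
  refine ⟨reduce u, IsReduced.of_reduce_eq FreeGroup.reduce.idem, P.W_reduce h1, ?_⟩
  apply le_antisymm
  · exact (reduce_length_le u).trans h2.le
  · exact dist_le (P.W_reduce h1)

/-- the last letter of a geodesic, extended away from the centre -/
theorem reduced_concat {P : PG S} {x v y : P.V} {a : S × Bool} {w : List (S × Bool)}
    (hw : IsReduced w) (h : P.W x w y) (hl : w.length = dist P x y)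
    (ha : P.E v a y) (hd : dist P x y ≤ dist P x v) : IsReduced (w ++ [bar a]) := by
  unfold FreeGroup.IsReduced at *
  rw [List.isChain_append]
  refine ⟨hw, by simp, ?_⟩
  intro c hc b hb hcb
  simp only [List.head?_cons, Option.mem_def, Option.some.injEq] at hb
  subst hb
  by_contra hne
  have hca : c = a := by
    rcases c with ⟨c1, c2⟩
    rcases a with ⟨a1, a2⟩
    simp only [bar] at *
    subst hcb
    cases c2 <;> cases a2 <;> simp_all
  subst hca
  obtain ⟨l, rfl⟩ : ∃ l, w = l ++ [c] := by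
    rcases List.eq_nil_or_concat w with h' | ⟨l, b, h'⟩
    · subst h'; simp at hc
    · subst h'
      simp at hc
      subst hc
      exact ⟨l, by simp⟩
  rw [PG.W_concat] at h
  obtain ⟨u, h1, h2⟩ := h
  have : u = v := P.E_backdet h2 ha
  subst this
  have := dist_le h1
  simp at hl
  omega

/-- the letter of an edge at one of its endpoints -/
def OutL (P : PG S) (e : (lg P).Ed) (v : P.V) (a : S × Bool) (y : P.V) : Prop :=
  (v = (lg P).src e ∧ a = ((lg P).lab e, true) ∧ y = (lg P).tgt e) ∨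
  (v = (lg P).tgt e ∧ a = ((lg P).lab e, false) ∧ y = (lg P).src e)

theorem OutL.edge {P : PG S} {e : (lg P).Ed} {v : P.V} {a : S × Bool} {y : P.V}
    (h : OutL P e v a y) : P.E v a y := by
  rcases h with ⟨rfl, rfl, rfl⟩ | ⟨rfl, rfl, rfl⟩
  · exact e.2
  · exact P.symm e.2

theorem OutL.inj {P : PG S} {e e' : (lg P).Ed} {v : P.V} {a : S × Bool} {y y' : P.V}
    (h : OutL P e v a y) (h' : OutL P e' v a y') : e = e' := by
  have hy : y = y' := P.det h.edge h'.edge
  subst hy
  rcases e with ⟨⟨p, s, q⟩, he⟩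
  rcases e' with ⟨⟨p', s', q'⟩, he'⟩
  rcases h with ⟨h1, h2, h3⟩ | ⟨h1, h2, h3⟩ <;> rcases h' with ⟨h1', h2', h3'⟩ | ⟨h1', h2', h3'⟩
  · simp only at h1 h2 h3 h1' h2' h3'
    subst h1 h3
    subst h1' h3'
    have : s = s' := by
      have := h2.symm.trans h2'
      exact (Prod.ext_iff.1 this).1
    subst this
    rfl
  · have := h2.symm.trans h2'
    simp at this
  · have := h2.symm.trans h2'
    simp at this
  · simp only at h1 h2 h3 h1' h2' h3'
    subst h1 h3
    subst h1' h3'
    have : s = s' := by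
      have := h2.symm.trans h2'
      exact (Prod.ext_iff.1 this).1
    subst this
    rfl

open Classical in
theorem bdry_apply (P : PG S) (z : (lg P).Ed →₀ ℤ) (v : P.V) :
    (lg P).bdry z v = ∑ e ∈ z.support,
      ((if (lg P).tgt e = v then z e else 0) - (if (lg P).src e = v then z e else 0)) := by
  have h1 : (lg P).bdry z = ∑ e ∈ z.support,
      (Finsupp.single ((lg P).tgt e) (z e) - Finsupp.single ((lg P).src e) (z e)) := by
    conv_lhs => rw [← Finsupp.sum_single z]
    rw [Finsupp.sum, map_sum]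
    exact Finset.sum_congr rfl fun e _ => LG.bdry_single e _
  rw [h1, Finsupp.finsetSum_apply]
  refine Finset.sum_congr rfl fun e _ => ?_
  rw [Finsupp.sub_apply, Finsupp.single_apply, Finsupp.single_apply]

/-- **No cycle in a small ball.** -/
theorem ball_cycle_zero (P : PG S) (N : ℕ)
    (girth : ∀ p w, IsReduced w → P.W p w p → w.length ≤ 2 * N + 2 → w = [])
    (x₀ : P.V) (z : (lg P).Ed →₀ ℤ) (hz : z ∈ (lg P).Z1)
    (hball : ∀ e, z e ≠ 0 → (∃ w, w.length ≤ N ∧ P.W x₀ w ((lg P).src e)) ∧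
      (∃ w, w.length ≤ N ∧ P.W x₀ w ((lg P).tgt e))) : z = 0 := by
  classical
  by_contra hne
  obtain ⟨e0, he0⟩ := Finsupp.support_nonempty_iff.2 hne
  set Vs : Finset P.V := z.support.image (fun e => (lg P).src e) ∪
    z.support.image (fun e => (lg P).tgt e) with hVs
  have hVne : Vs.Nonempty :=
    ⟨(lg P).src e0, Finset.mem_union_left _ (Finset.mem_image.2 ⟨e0, he0, rfl⟩)⟩
  obtain ⟨v, hv, hmax⟩ := Finset.exists_max_image Vs (fun v => dist P x₀ v) hVne
  have hVball : ∀ y ∈ Vs, ∃ w, w.length ≤ N ∧ P.W x₀ w y := by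
    intro y hy
    rcases Finset.mem_union.1 hy with h | h
    · obtain ⟨e, he, rfl⟩ := Finset.mem_image.1 h
      exact (hball e (Finsupp.mem_support_iff.1 he)).1
    · obtain ⟨e, he, rfl⟩ := Finset.mem_image.1 h
      exact (hball e (Finsupp.mem_support_iff.1 he)).2
  have hout : ∀ e ∈ z.support, ∀ u, (u = (lg P).src e ∨ u = (lg P).tgt e) →
      ∃ a y, OutL P e u a y ∧ y ∈ Vs := by
    intro e he u hu
    rcases hu with h | h
    · exact ⟨_, _, Or.inl ⟨h, rfl, rfl⟩,
        Finset.mem_union_right _ (Finset.mem_image.2 ⟨e, he, rfl⟩)⟩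
    · exact ⟨_, _, Or.inr ⟨h, rfl, rfl⟩,
        Finset.mem_union_left _ (Finset.mem_image.2 ⟨e, he, rfl⟩)⟩
  obtain ⟨e1, he1, hv1⟩ : ∃ e1 ∈ z.support, v = (lg P).src e1 ∨ v = (lg P).tgt e1 := by
    rcases Finset.mem_union.1 hv with h | h
    · obtain ⟨e, he, h⟩ := Finset.mem_image.1 h
      exact ⟨e, he, Or.inl h.symm⟩
    · obtain ⟨e, he, h⟩ := Finset.mem_image.1 h
      exact ⟨e, he, Or.inr h.symm⟩
  have hloop : (lg P).src e1 ≠ (lg P).tgt e1 := by
    intro h
    have h1 : P.E ((lg P).src e1) ((lg P).lab e1, true) ((lg P).tgt e1) := e1.2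
    rw [← h] at h1
    have h2 := girth ((lg P).src e1) [((lg P).lab e1, true)] IsReduced.singleton
      ((P.W_single).2 h1) (by simp)
    simp at h2
  obtain ⟨e2, he2, he12, hv2⟩ : ∃ e2 ∈ z.support, e2 ≠ e1 ∧
      (v = (lg P).src e2 ∨ v = (lg P).tgt e2) := by
    by_contra hno
    push Not at hno
    have hb : (lg P).bdry z v = 0 := by
      have : (lg P).bdry z = 0 := hz
      rw [this]; rfl
    rw [bdry_apply, Finset.sum_eq_single e1] at hb
    · have hz1 : z e1 ≠ 0 := Finsupp.mem_support_iff.1 he1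
      rcases hv1 with h | h
      · rw [if_neg (fun h' => hloop (h.symm.trans h'.symm)), if_pos h.symm] at hb
        omega
      · rw [if_pos h.symm, if_neg (fun h' => hloop (h'.trans h))] at hb
        omega
    · intro e he hee
      obtain ⟨h1, h2⟩ := hno e he hee
      rw [if_neg (fun h => h2 h.symm), if_neg (fun h => h1 h.symm), sub_zero]
    · intro h
      exact absurd he1 h
  obtain ⟨a1, y1, ho1, hy1⟩ := hout e1 he1 v hv1
  obtain ⟨a2, y2, ho2, hy2⟩ := hout e2 he2 v hv2
  have ha : a1 ≠ a2 := by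
    intro h
    subst h
    exact he12 (ho2.inj ho1)
  obtain ⟨u1, hu1, hW1⟩ := hVball y1 hy1
  obtain ⟨u2, hu2, hW2⟩ := hVball y2 hy2
  obtain ⟨w1, hr1, hw1, hl1⟩ := exists_geod hW1
  obtain ⟨w2, hr2, hw2, hl2⟩ := exists_geod hW2
  have hR1 := reduced_concat hr1 hw1 hl1 ho1.edge (hmax y1 hy1)
  have hR2 := reduced_concat hr2 hw2 hl2 ho2.edge (hmax y2 hy2)
  have hd1 : dist P x₀ y1 ≤ N := (dist_le hW1).trans hu1
  have hd2 : dist P x₀ y2 ≤ N := (dist_le hW2).trans hu2
  have hc1 : P.W x₀ (w1 ++ [bar a1]) v := (P.W_concat).2 ⟨_, hw1, P.symm ho1.edge⟩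
  have hc2 : P.W x₀ (w2 ++ [bar a2]) v := (P.W_concat).2 ⟨_, hw2, P.symm ho2.edge⟩
  have hc : P.W x₀ ((w1 ++ [bar a1]) ++ invRev (w2 ++ [bar a2])) x₀ :=
    (P.W_append).2 ⟨_, hc1, P.W_inv hc2⟩
  have hlen : ((w1 ++ [bar a1]) ++ invRev (w2 ++ [bar a2])).length ≤ 2 * N + 2 := by
    simp [FreeGroup.invRev_length]
    omega
  have hred := girth x₀ (reduce ((w1 ++ [bar a1]) ++ invRev (w2 ++ [bar a2])))
    (IsReduced.of_reduce_eq FreeGroup.reduce.idem) (P.W_reduce hc)
    ((reduce_length_le _).trans hlen)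
  have hmk : FreeGroup.mk ((w1 ++ [bar a1]) ++ invRev (w2 ++ [bar a2])) = 1 := by
    rw [← FreeGroup.reduce.self, hred]; rfl
  have hmk2 : FreeGroup.mk (w1 ++ [bar a1]) = FreeGroup.mk (w2 ++ [bar a2]) := by
    rw [← FreeGroup.mul_mk, ← FreeGroup.inv_mk, mul_inv_eq_one] at hmk
    exact hmk
  have heq := eq_of_mk_eq hR1 hR2 hmk2
  have := (List.append_inj' heq rfl).2
  simp only [List.cons.injEq, and_true] at this
  apply ha
  have h2 := congrArg bar this
  simpa using h2

/-! ### The developing map -/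

section dev

variable (P : PG S) {G : Type*} [Group G] (π : FreeGroup S →* G)

/-- reachability -/
def reach : Setoid P.V where
  r p q := ∃ w, P.W p w q
  iseqv :=
    { refl := fun p => ⟨[], rfl⟩
      symm := fun ⟨w, h⟩ => ⟨invRev w, P.W_inv h⟩
      trans := fun ⟨w, h⟩ ⟨w', h'⟩ => ⟨w ++ w', (P.W_append).2 ⟨_, h, h'⟩⟩ }

/-- component -/
def comp (p : P.V) : Quotient (reach P) := Quotient.mk _ p

/-- base point of a component -/
noncomputable def bp (x : Quotient (reach P)) : P.V := Quotient.out x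

theorem exists_wd (p : P.V) : ∃ w, P.W (bp P (comp P p)) w p :=
  Quotient.mk_out (s := reach P) p

/-- a word from the base point -/
noncomputable def wd (p : P.V) : List (S × Bool) := (exists_wd P p).choose

theorem wd_spec (p : P.V) : P.W (bp P (comp P p)) (wd P p) p := (exists_wd P p).choose_spec

/-- developing map -/
noncomputable def dev (p : P.V) : G := π (FreeGroup.mk (wd P p))

theorem comp_eq {p q : P.V} {w : List (S × Bool)} (h : P.W p w q) : comp P p = comp P q :=
  Quotient.sound (s := reach P) ⟨w, h⟩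

theorem dev_W (hrel : ∀ p w, P.W p w p → π (FreeGroup.mk w) = 1) {p q : P.V}
    {w : List (S × Bool)} (h : P.W p w q) :
    dev P π q = dev P π p * π (FreeGroup.mk w) := by
  have h1 := wd_spec P p
  have h2 := wd_spec P q
  rw [← comp_eq P h] at h2
  have h3 : P.W (bp P (comp P p)) ((wd P p ++ w) ++ invRev (wd P q)) (bp P (comp P p)) :=
    (P.W_append).2 ⟨_, (P.W_append).2 ⟨_, h1, h⟩, P.W_inv h2⟩
  have h4 := hrel _ _ h3
  rw [← FreeGroup.mul_mk, ← FreeGroup.mul_mk, ← FreeGroup.inv_mk, map_mul, map_mul, map_inv,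
    mul_inv_eq_one] at h4
  exact h4.symm

/-- walks of `P` as walks of the directed graph -/
theorem exists_isWalk {p q : P.V} {w : List (S × Bool)} (h : P.W p w q) :
    ∃ l, (lg P).IsWalk p l q ∧ (lg P).word l = w := by
  induction w generalizing p with
  | nil => exact ⟨[], h, rfl⟩
  | cons a w ih =>
    obtain ⟨u, h1, h2⟩ := h
    obtain ⟨l, h3, h4⟩ := ih h2
    obtain ⟨s, b⟩ := a
    cases b with
    | true =>
      refine ⟨(⟨(p, s, u), h1⟩, true) :: l, ⟨rfl, h3⟩, ?_⟩
      show (s, true) :: (lg P).word l = _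
      rw [h4]
    | false =>
      have h5 : P.E u (s, true) p := P.symm h1
      refine ⟨(⟨(u, s, p), h5⟩, false) :: l, ⟨rfl, h3⟩, ?_⟩
      show (s, false) :: (lg P).word l = _
      rw [h4]

/-- **Torsion-freeness from levels.** -/
theorem torsionFree_of_levels (hπ : Function.Surjective π)
    (hker : π.ker ≤ Subgroup.normalClosure {r | ∃ p w, P.W p w p ∧ r = FreeGroup.mk w})
    (hrel : ∀ p w, P.W p w p → π (FreeGroup.mk w) = 1)
    (hemb : ∀ w p q, P.W p w q → π (FreeGroup.mk w) = 1 → q = p)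
    (lev : G → P.V → ℕ)
    (hlev : ∀ g p w q, P.W p w q → lev (g * π (FreeGroup.mk w)) q = lev g p)
    (N : ℕ)
    (girth : ∀ p w, IsReduced w → P.W p w p → w.length ≤ 2 * N + 2 → w = [])
    (near : ∀ g p, ∃ x₀, ∀ w y y', P.W p w y → y' ≠ y →
      lev (g * π (FreeGroup.mk w)) y' ≤ lev (g * π (FreeGroup.mk w)) y →
      ∃ u, u.length ≤ N ∧ P.W x₀ u y) :
    ∀ g : G, IsOfFinOrder g → g = 1 := by
  have hdev : ∀ {p q : P.V} {w}, P.W p w q → dev P π q = dev P π p * π (FreeGroup.mk w) :=
    fun h => dev_W P π hrel h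
  have hlevc : ∀ (g : G) (p : P.V), lev (g * dev P π p) p =
      lev (g * dev P π (bp P (comp P p))) (bp P (comp P p)) := by
    intro g p
    have h := wd_spec P p
    rw [hdev h, ← mul_assoc]
    exact hlev _ _ _ _ h
  refine Exact.torsionFree (Γ := lg P) π (dev P π) (comp P) hπ ?_ ?_ ?_ ?_
    (fun g x => lev (g * dev P π (bp P x)) (bp P x)) ?_
  · intro e
    have h : P.W ((lg P).src e) [((lg P).lab e, true)] ((lg P).tgt e) := (P.W_single).2 e.2
    exact hdev h
  · refine hker.trans (Subgroup.normalClosure_mono ?_)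
    rintro r ⟨p, w, h, rfl⟩
    obtain ⟨l, h1, h2⟩ := exists_isWalk P h
    exact ⟨p, l, h1, by rw [h2]⟩
  · intro e
    have h : P.W ((lg P).src e) [((lg P).lab e, true)] ((lg P).tgt e) := (P.W_single).2 e.2
    exact comp_eq P h
  · intro e e' hc hd hl
    obtain ⟨w, hw⟩ : ∃ w, P.W ((lg P).src e) w ((lg P).src e') :=
      Quotient.exact (s := reach P) hc
    have h1 := hdev hw
    rw [hd] at h1
    have h2 : π (FreeGroup.mk w) = 1 := mul_eq_left.1 h1.symm
    have h3 := hemb _ _ _ hw h2
    have h4 : OutL P e ((lg P).src e) ((lg P).lab e, true) ((lg P).tgt e) := Or.inl ⟨rfl, rfl, rfl⟩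
    have h5 : OutL P e' ((lg P).src e) ((lg P).lab e, true) ((lg P).tgt e') :=
      Or.inl ⟨h3.symm, by rw [hl], rfl⟩
    exact h4.inj h5
  · intro g x z hz hsup
    set p := bp P x with hp
    have hpx : comp P p = x := Quotient.out_eq x
    obtain ⟨x₀, hx₀⟩ := near (g * dev P π p) p
    apply ball_cycle_zero P N girth x₀ z hz
    intro e he
    obtain ⟨hxe, g', e', hne, hle, hg, hlab⟩ := hsup e he
    -- words to the end points of `e`
    obtain ⟨w, hw⟩ : ∃ w, P.W p w ((lg P).src e) := by
      have : comp P p = comp P ((lg P).src e) := hpx.trans hxe.symm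
      exact Quotient.exact (s := reach P) this
    have hw2 : P.W p (w ++ [((lg P).lab e, true)]) ((lg P).tgt e) := (P.W_concat).2 ⟨_, hw, e.2⟩
    have hE' : P.E ((lg P).src e') ((lg P).lab e, true) ((lg P).tgt e') := by
      rw [← hlab]; exact e'.2
    have hsrc : (lg P).src e' ≠ (lg P).src e := by
      intro h
      rw [h] at hg hne
      apply hne
      rw [mul_right_cancel hg, hxe]
    have htgt : (lg P).tgt e' ≠ (lg P).tgt e := by
      intro h
      apply hsrc
      rw [h] at hE'
      exact P.E_backdet hE' e.2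
    have hgw : g * dev P π p * π (FreeGroup.mk w) = g * dev P π ((lg P).src e) := by
      rw [hdev hw, mul_assoc]
    have hlow : lev (g * dev P π ((lg P).src e)) ((lg P).src e') ≤
        lev (g * dev P π ((lg P).src e)) ((lg P).src e) := by
      have h1 := hlevc g' ((lg P).src e')
      have h2 := hlevc g ((lg P).src e)
      rw [hg] at h1
      rw [h1, h2, hxe]
      exact hle
    constructor
    · apply hx₀ w _ ((lg P).src e') hw hsrc
      rw [hgw]
      exact hlow
    · apply hx₀ _ _ ((lg P).tgt e') hw2 htgt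
      have h1 : g * dev P π p * π (FreeGroup.mk (w ++ [((lg P).lab e, true)])) =
          g * dev P π ((lg P).src e) * π (FreeGroup.mk [((lg P).lab e, true)]) := by
        rw [← FreeGroup.mul_mk, map_mul, ← mul_assoc, hgw]
      rw [h1, hlev _ _ _ _ ((P.W_single).2 hE'),
        hlev _ _ _ _ ((P.W_single).2 e.2)]
      exact hlow

end dev

end Crest.Agent.R199.Tor
end

-- ▼ part R199/Torsion

/-! Part V: the group is torsion-free. -/

set_option autoImplicit false

namespace Crest.Agent.R199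

variable {S : Type}

namespace Tor

/-- the relational graph of a partial action -/
def ofPAct {X : Type} (A : PAct S X) : SC.PG S where
  V := X
  E x a y := A.st a x = some y
  det := by
    intro v a v1 v2 h1 h2
    rw [h1] at h2
    exact Option.some.inj h2
  symm := by
    intro v a v' h
    exact A.symm a v v' h

theorem ofPAct_W {X : Type} (A : PAct S X) {x y : X} {w : List (S × Bool)} :
    (ofPAct A).W x w y ↔ A.read w x = some y := by
  induction w generalizing x with
  | nil =>
    show x = y ↔ some x = some y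
    exact (Option.some_inj).symm
  | cons a w ih =>
    show (∃ v1 : X, A.st a x = some v1 ∧ (ofPAct A).W v1 w y) ↔ (A.st a x).bind (A.read w) = some y
    simp only [ih]
    cases h : A.st a x with
    | none => simp
    | some z => simp

end Tor

theorem torsionFree (D : SCData S) (M : D.Model) (g : D.Grp) (hg : IsOfFinOrder g) : g = 1 := by
  have hW : ∀ {p q : D.Pos} {w : List (S × Bool)},
      (Tor.ofPAct D.A).W p w q ↔ D.A.read w p = some q := Tor.ofPAct_W D.A
  refine Tor.torsionFree_of_levels (Tor.ofPAct D.A) (G := D.Grp)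
    (PresentedGroup.mk D.rels) (PresentedGroup.mk_surjective D.rels) ?_ ?_ ?_
    (fun g p => M.cl g p) ?_ (6 * D.m) ?_ ?_ g hg
  · intro x hx
    have h1 : x ∈ Subgroup.normalClosure D.rels := by
      have : (PresentedGroup.mk D.rels x) = 1 := hx
      exact (QuotientGroup.eq_one_iff x).1 this
    refine Subgroup.normalClosure_mono ?_ h1
    rintro r ⟨x, w, h, rfl⟩
    exact ⟨x, w, hW.2 h, rfl⟩
  · intro p w h
    apply (QuotientGroup.eq_one_iff (FreeGroup.mk w)).2
    exact Subgroup.subset_normalClosure ⟨p, w, hW.1 h, rfl⟩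
  · intro w p q h h1
    exact M.embed w p q (hW.1 h) h1
  · intro g p w q h
    exact M.cl_same g p _ q ⟨w, hW.1 h, rfl⟩
  · intro p w hr h hl
    by_contra hne
    have := D.two_le_m
    exact D.girth p w hr hne (by omega) (hW.1 h)
  · intro g p
    obtain ⟨x₀, hx⟩ := M.near g p
    refine ⟨x₀, ?_⟩
    intro w y y' h hne hle
    obtain ⟨u, h1, h2⟩ := hx _ y y' ⟨w, hW.1 h, rfl⟩ hne hle
    exact ⟨u, h1, hW.2 h2⟩

end Crest.Agent.R199
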