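import Mathlib
import Crest.Agent.R199.SC
import Crest.Agent.R199.Defs

-- ▼ part R199/SCLimit
section

/-!
# Row 199, Part II (limit): a tower of labelled partial graphs and the presented group

A tower `V 0 → V 1 → ...` of labelled graphs (partial actions of the letters) with injective
label preserving maps, such that every letter is readable one level up and every relator read at a
vertex of level `n` is closed one level up.  Given compatible developing maps into the presented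
group, these maps are injective and jointly surjective.
-/

set_option autoImplicit false

namespace Crest.Agent.R199.Lim

variable {S : Type*}

/-- Walks in a labelled relation. -/
def Wk {V : Type*} (E : V → S × Bool → V → Prop) : V → List (S × Bool) → V → Prop
  | v, [], v' => v = v'
  | v, a :: w, v' => ∃ u, E v a u ∧ Wk E u w v'

theorem Wk_append {V : Type*} {E : V → S × Bool → V → Prop} {v v' : V} {w w' : List (S × Bool)} :
    Wk E v (w ++ w') v' ↔ ∃ u, Wk E v w u ∧ Wk E u w' v' := by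
  induction w generalizing v with
  | nil => simp [Wk]
  | cons a w ih =>
    simp only [List.cons_append, Wk, ih]
    constructor
    · rintro ⟨u, h, t, h1, h2⟩; exact ⟨t, ⟨u, h, h1⟩, h2⟩
    · rintro ⟨t, ⟨u, h, h1⟩, h2⟩; exact ⟨u, h, t, h1, h2⟩

theorem Wk_map {V V' : Type*} {E : V → S × Bool → V → Prop} {E' : V' → S × Bool → V' → Prop}
    (f : V → V') (hf : ∀ v a w, E v a w → E' (f v) a (f w)) {v v' : V} {w : List (S × Bool)}
    (h : Wk E v w v') : Wk E' (f v) w (f v') := by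
  induction w generalizing v with
  | nil => exact congrArg f h
  | cons a w ih =>
    obtain ⟨u, h1, h2⟩ := h
    exact ⟨f u, hf _ _ _ h1, ih h2⟩

theorem Wk_det {V : Type*} {E : V → S × Bool → V → Prop}
    (det : ∀ v a w w', E v a w → E v a w' → w = w') {v x y : V} {w : List (S × Bool)}
    (h : Wk E v w x) (h' : Wk E v w y) : x = y := by
  induction w generalizing v with
  | nil => exact h.symm.trans h'
  | cons a w ih =>
    obtain ⟨u, h1, h2⟩ := h
    obtain ⟨u', h1', h2'⟩ := h'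
    obtain rfl := det _ _ _ _ h1 h1'
    exact ih h2 h2'

/-- A tower of labelled graphs. -/
structure Tower (S : Type*) where
  V : ℕ → Type*
  E : ∀ n, V n → S × Bool → V n → Prop
  det : ∀ n v a w w', E n v a w → E n v a w' → w = w'
  symm : ∀ n v a w, E n v a w → E n w (a.1, !a.2) v
  ι : ∀ n, V n → V (n + 1)
  inj : ∀ n, Function.Injective (ι n)
  map : ∀ n v a w, E n v a w → E (n + 1) (ι n v) a (ι n w)
  total : ∀ n v a, ∃ w, E (n + 1) (ι n v) a w
  o : V 0

namespace Tower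

variable (T : Tower S)

/-- The base point at level `n`. -/
def base (T : Tower S) : ∀ n, T.V n
  | 0 => T.o
  | n + 1 => T.ι n (base T n)


theorem walk_succ {n : ℕ} {w : List (S × Bool)} {v v' : T.V n} (h : Wk (T.E n) v w v') :
    Wk (T.E (n + 1)) (T.ι n v) w (T.ι n v') := Wk_map (T.ι n) (T.map n) h

/-- Words `w w'` from the base point ending at the same vertex. -/
def EqAt (n : ℕ) (w w' : List (S × Bool)) : Prop :=
  ∃ v, Wk (T.E n) (T.base n) w v ∧ Wk (T.E n) (T.base n) w' v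

theorem EqAt.succ {n : ℕ} {w w' : List (S × Bool)} (h : T.EqAt n w w') : T.EqAt (n + 1) w w' := by
  obtain ⟨v, h1, h2⟩ := h
  exact ⟨T.ι n v, T.walk_succ h1, T.walk_succ h2⟩

theorem EqAt.mono {n m : ℕ} {w w' : List (S × Bool)} (h : T.EqAt n w w') (hnm : n ≤ m) :
    T.EqAt m w w' := by
  induction hnm with
  | refl => exact h
  | step _ ih => exact EqAt.succ T ih

theorem EqAt.symm' {n : ℕ} {w w' : List (S × Bool)} (h : T.EqAt n w w') : T.EqAt n w' w := by
  obtain ⟨v, h1, h2⟩ := h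
  exact ⟨v, h2, h1⟩

/-- Eventually equal endpoints. -/
def Eqv (w w' : List (S × Bool)) : Prop := ∃ n, T.EqAt n w w'

theorem Eqv.symm {w w' : List (S × Bool)} (h : T.Eqv w w') : T.Eqv w' w := by
  obtain ⟨n, h⟩ := h
  exact ⟨n, EqAt.symm' T h⟩

theorem EqAt.trans' {n : ℕ} {w w' w'' : List (S × Bool)} (h : T.EqAt n w w')
    (h' : T.EqAt n w' w'') : T.EqAt n w w'' := by
  obtain ⟨v, h1, h2⟩ := h
  obtain ⟨v', h1', h2'⟩ := h'
  obtain rfl := Wk_det (T.det n) h2 h1'
  exact ⟨v, h1, h2'⟩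

theorem Eqv.trans {w w' w'' : List (S × Bool)} (h : T.Eqv w w') (h' : T.Eqv w' w'') :
    T.Eqv w w'' := by
  obtain ⟨n, h⟩ := h
  obtain ⟨m, h'⟩ := h'
  exact ⟨max n m, EqAt.trans' T (EqAt.mono T h (le_max_left _ _))
    (EqAt.mono T h' (le_max_right _ _))⟩


theorem eq_of_eqv {n : ℕ} {w w' : List (S × Bool)} {v v' : T.V n}
    (h : Wk (T.E n) (T.base n) w v) (h' : Wk (T.E n) (T.base n) w' v')
    (he : T.Eqv w w') : v = v' := by
  obtain ⟨m, he⟩ := he
  have key : ∀ k (n : ℕ) (v v' : T.V n), Wk (T.E n) (T.base n) w v →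
      Wk (T.E n) (T.base n) w' v' → T.EqAt (n + k) w w' → v = v' := by
    intro k
    induction k with
    | zero =>
      intro n v v' h h' he
      obtain ⟨u, h1, h2⟩ := he
      exact (Wk_det (T.det n) h h1).trans (Wk_det (T.det n) h2 h')
    | succ k ih =>
      intro n v v' h h' he
      apply T.inj n
      apply ih (n + 1) _ _ (T.walk_succ h) (T.walk_succ h')
      have : n + 1 + k = n + (k + 1) := by omega
      rw [this]
      exact he
  exact key m n v v' h h' (EqAt.mono T he (by omega))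

/-- Every word can be read from every vertex at some later level. -/
theorem exists_walk (n : ℕ) (w u : List (S × Bool)) {v : T.V n}
    (h : Wk (T.E n) (T.base n) w v) :
    ∃ m, n ≤ m ∧ ∃ x y, Wk (T.E m) (T.base m) w x ∧ Wk (T.E m) x u y := by
  induction u generalizing n w with
  | nil => exact ⟨n, le_rfl, v, v, h, rfl⟩
  | cons a u ih =>
    obtain ⟨z, hz⟩ := T.total n v a
    have h1 : Wk (T.E (n + 1)) (T.base (n + 1)) (w ++ [a]) z :=
      Wk_append.2 ⟨T.ι n v, T.walk_succ h, z, hz, rfl⟩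
    obtain ⟨m, hm, x, y, hx, hy⟩ := ih (n + 1) (w ++ [a]) h1
    obtain ⟨t, ht1, ht2⟩ := Wk_append.1 hx
    obtain ⟨x', hx1, hx2⟩ := ht2
    refine ⟨m, by omega, t, y, ht1, x', hx1, ?_⟩
    have : x' = x := hx2
    rw [this]; exact hy

theorem exists_read (w : List (S × Bool)) : ∃ n v, Wk (T.E n) (T.base n) w v := by
  obtain ⟨m, _, x, y, hx, hy⟩ := T.exists_walk 0 [] w (v := T.base 0) rfl
  refine ⟨m, y, ?_⟩
  have : T.base m = x := hx
  rw [this]; exact hy

theorem Eqv.refl (w : List (S × Bool)) : T.Eqv w w := by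
  obtain ⟨n, v, h⟩ := T.exists_read w
  exact ⟨n, v, h, h⟩

theorem Eqv.append {w w' : List (S × Bool)} (h : T.Eqv w w') (u : List (S × Bool)) :
    T.Eqv (w ++ u) (w' ++ u) := by
  obtain ⟨n, v, h1, h2⟩ := h
  obtain ⟨m, hm, x, y, hx, hy⟩ := T.exists_walk n w u h1
  obtain ⟨x', hx', hx''⟩ := EqAt.mono T (⟨v, h1, h2⟩ : T.EqAt n w w') hm
  obtain rfl := Wk_det (T.det m) hx hx'
  exact ⟨m, y, Wk_append.2 ⟨x, hx, hy⟩, Wk_append.2 ⟨x, hx'', hy⟩⟩

theorem Eqv.step {w w' : List (S × Bool)} (h : FreeGroup.Red.Step w w') : T.Eqv w w' := by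
  cases h with
  | @not L₁ L₂ s b =>
    have h1 : T.Eqv (L₁ ++ (s, b) :: (s, !b) :: []) L₁ := by
      obtain ⟨n, v, hv⟩ := T.exists_read (L₁ ++ (s, b) :: (s, !b) :: [])
      obtain ⟨u, hu1, x, hx1, y, hy1, hy2⟩ := Wk_append.1 hv
      have hy2' : y = v := hy2
      subst hy2'
      obtain rfl : y = u := T.det n _ _ _ _ hy1 (T.symm n _ _ _ hx1)
      exact ⟨n, y, hv, hu1⟩
    have h2 := h1.append T L₂
    simpa using h2

theorem Eqv.red {w w' : List (S × Bool)} (h : FreeGroup.Red w w') : T.Eqv w w' := by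
  induction h with
  | refl => exact Eqv.refl T _
  | tail _ h2 ih => exact ih.trans T (Eqv.step T h2)

theorem Eqv.of_mk_eq {w w' : List (S × Bool)} (h : FreeGroup.mk w = FreeGroup.mk w') :
    T.Eqv w w' := by
  obtain ⟨c, h1, h2⟩ := FreeGroup.Red.exact.1 h
  exact (Eqv.red T h1).trans T (Eqv.red T h2).symm

/-- Relators fix every vertex one level up. -/
def Closed (R : Set (List (S × Bool))) : Prop :=
  ∀ n (v : T.V n), ∀ r ∈ R, Wk (T.E (n + 1)) (T.ι n v) r (T.ι n v)

variable {T}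

theorem Closed.eqv {R : Set (List (S × Bool))} (hR : T.Closed R) (w r : List (S × Bool))
    (hr : r ∈ R) : T.Eqv (w ++ r) w := by
  obtain ⟨n, v, hv⟩ := T.exists_read w
  exact ⟨n + 1, T.ι n v, Wk_append.2 ⟨_, T.walk_succ hv, hR n v r hr⟩, T.walk_succ hv⟩

/-- The normal subgroup of elements fixing all vertices. -/
def fixer (T : Tower S) : Subgroup (FreeGroup S) where
  carrier := {g | ∀ w u : List (S × Bool), FreeGroup.mk u = g → T.Eqv (w ++ u) w}
  one_mem' := by
    intro w u hu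
    apply Eqv.of_mk_eq
    rw [← FreeGroup.mul_mk, hu, mul_one]
  mul_mem' := by
    intro a b ha hb w u hu
    obtain ⟨x, rfl⟩ := Quot.exists_rep a
    obtain ⟨y, rfl⟩ := Quot.exists_rep b
    have h1 : T.Eqv (w ++ u) (w ++ x ++ y) := by
      apply Eqv.of_mk_eq
      rw [← FreeGroup.mul_mk, hu, ← FreeGroup.mul_mk, ← FreeGroup.mul_mk, mul_assoc]
      rfl
    exact h1.trans T ((hb _ y rfl).trans T (ha _ x rfl))
  inv_mem' := by
    intro a ha w u hu
    obtain ⟨x, rfl⟩ := Quot.exists_rep a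
    have h1 := ha (w ++ u) x rfl
    have h2 : T.Eqv (w ++ u ++ x) w := by
      apply Eqv.of_mk_eq
      rw [← FreeGroup.mul_mk, ← FreeGroup.mul_mk, hu, mul_assoc]
      exact (congrArg _ (inv_mul_cancel _)).trans (mul_one _)
    exact h1.symm.trans T h2

instance fixer_normal (T : Tower S) : T.fixer.Normal := by
  constructor
  intro a ha g w u hu
  have hrep : ∀ g : FreeGroup S, ∃ y, FreeGroup.mk y = g := fun g => Quot.exists_rep g
  obtain ⟨x, hx⟩ := hrep a
  obtain ⟨y, hy'⟩ := hrep g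
  obtain ⟨z, hz'⟩ := hrep g⁻¹
  have h1 : T.Eqv (w ++ u) (w ++ y ++ x ++ z) := by
    apply Eqv.of_mk_eq
    simp only [← FreeGroup.mul_mk]
    rw [hu, hy', hz', hx]
    simp only [mul_assoc]
  have h2 := (ha (w ++ y) x hx).append T z
  have h3 : T.Eqv (w ++ y ++ z) w := by
    apply Eqv.of_mk_eq
    simp only [← FreeGroup.mul_mk]
    rw [hy', hz', mul_assoc, mul_inv_cancel, mul_one]
  exact h1.trans T (h2.trans T h3)

/-- The set of relators as elements of the free group. -/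
def relSet (R : Set (List (S × Bool))) : Set (FreeGroup S) := FreeGroup.mk '' R

theorem Closed.le_fixer {R : Set (List (S × Bool))} (hR : T.Closed R) :
    Subgroup.normalClosure (relSet R) ≤ T.fixer := by
  apply Subgroup.normalClosure_le_normal
  rintro _ ⟨r, hr, rfl⟩ w u hu
  have h1 : T.Eqv (w ++ u) (w ++ r) := by
    apply Eqv.of_mk_eq
    rw [← FreeGroup.mul_mk, ← FreeGroup.mul_mk, hu]
  exact h1.trans T (hR.eqv w r hr)

/-- The image of a letter in the presented group. -/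
def lt (R : Set (List (S × Bool))) (a : S × Bool) : PresentedGroup (relSet R) :=
  PresentedGroup.mk (relSet R) (FreeGroup.mk [a])

theorem dev_walk {R : Set (List (S × Bool))} {n : ℕ} (dev : T.V n → PresentedGroup (relSet R))
    (hdev : ∀ v a v', T.E n v a v' → dev v' = dev v * lt R a) {v v' : T.V n}
    {w : List (S × Bool)} (h : Wk (T.E n) v w v') :
    dev v' = dev v * PresentedGroup.mk (relSet R) (FreeGroup.mk w) := by
  induction w generalizing v with
  | nil =>
    have : v = v' := h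
    rw [this, show (FreeGroup.mk ([] : List (S × Bool))) = 1 from rfl, map_one, mul_one]
  | cons a w ih =>
    obtain ⟨u, h1, h2⟩ := h
    rw [ih h2, hdev _ _ _ h1, lt, mul_assoc, ← map_mul, FreeGroup.mul_mk]
    rfl

/-- **Main limit theorem.** -/
theorem Closed.dev_injective {R : Set (List (S × Bool))} (hR : T.Closed R)
    (dev : ∀ n, T.V n → PresentedGroup (relSet R))
    (hdev : ∀ n v a v', T.E n v a v' → dev n v' = dev n v * lt R a)
    (reach : ∀ n (v : T.V n), ∃ w, Wk (T.E n) (T.base n) w v) (n : ℕ) :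
    Function.Injective (dev n) := by
  intro v v' h
  obtain ⟨w, hw⟩ := reach n v
  obtain ⟨w', hw'⟩ := reach n v'
  have e1 := dev_walk (dev n) (hdev n) hw
  have e2 := dev_walk (dev n) (hdev n) hw'
  rw [h, e2] at e1
  have e3 := mul_left_cancel e1
  have e4 : (FreeGroup.mk w)⁻¹ * FreeGroup.mk w' ∈ Subgroup.normalClosure (relSet R) :=
    QuotientGroup.eq.1 e3.symm
  obtain ⟨u, hu⟩ := Quot.exists_rep ((FreeGroup.mk w)⁻¹ * FreeGroup.mk w')
  have hu' : FreeGroup.mk u = (FreeGroup.mk w)⁻¹ * FreeGroup.mk w' := hu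
  have e5 := hR.le_fixer e4 w u hu'
  have e6 : T.Eqv w' (w ++ u) := by
    apply Eqv.of_mk_eq
    rw [← FreeGroup.mul_mk, hu', mul_inv_cancel_left]
  exact (T.eq_of_eqv hw' hw (e6.trans T e5)).symm

theorem Closed.dev_surjective {R : Set (List (S × Bool))}
    (dev : ∀ n, T.V n → PresentedGroup (relSet R))
    (hdev : ∀ n v a v', T.E n v a v' → dev n v' = dev n v * lt R a)
    (hbase : ∀ n, dev n (T.base n) = 1) (g : PresentedGroup (relSet R)) :
    ∃ n v, dev n v = g := by
  obtain ⟨x, rfl⟩ := PresentedGroup.mk_surjective (relSet R) g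
  obtain ⟨u, rfl⟩ := Quot.exists_rep x
  obtain ⟨n, v, hv⟩ := T.exists_read u
  refine ⟨n, v, ?_⟩
  rw [dev_walk (dev n) (hdev n) hv, hbase, one_mul]
  rfl

end Tower

end Crest.Agent.R199.Lim
private theorem rz_ecbaa74935 : type_of% @_root_.Crest.Agent.R199.Lim.Wk.eq_def := @_root_.Crest.Agent.R199.Lim.Wk.eq_def -- L19
private theorem rz_f6951f91eb : type_of% @_root_.Crest.Agent.R199.Lim.Wk.eq_1 := @_root_.Crest.Agent.R199.Lim.Wk.eq_1 -- L19
end

-- ▼ part R199/SCGroup
section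

/-!
# Row 199, Part II: the levels of the model inside the presented group

`Grp P` is the group presented by the closed words of `P`.  The levels `lv n` (iterated `NG`) embed
in `Grp P` by the developing maps; `Y n` is the image of level `n`.
-/

set_option autoImplicit false

open FreeGroup

namespace Crest.Agent.R199.SC

variable {S : Type}

/-! ### The group -/

/-- closed words of the positions graph -/
def clw (P : PG S) : Set (List (S × Bool)) := {w | ∃ p, P.W p w p}

/-- the relators -/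
def rels (P : PG S) : Set (FreeGroup S) := Lim.Tower.relSet (clw P)

theorem mem_rels {P : PG S} {r : FreeGroup S} :
    r ∈ rels P ↔ ∃ p w, P.W p w p ∧ FreeGroup.mk w = r := by
  constructor
  · rintro ⟨w, ⟨p, h⟩, rfl⟩; exact ⟨p, w, h, rfl⟩
  · rintro ⟨p, w, h, rfl⟩; exact ⟨w, ⟨p, h⟩, rfl⟩

/-- the group presented by the closed words -/
abbrev Grp (P : PG S) : Type := PresentedGroup (rels P)

/-- the group element of a word -/
def gw (P : PG S) (w : List (S × Bool)) : Grp P := PresentedGroup.mk (rels P) (FreeGroup.mk w)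

section gw
variable {P : PG S}

@[simp] theorem gw_nil : gw P [] = 1 := _root_.map_one _

theorem gw_append (w w' : List (S × Bool)) : gw P (w ++ w') = gw P w * gw P w' := by
  rw [gw, gw, gw, ← _root_.map_mul, FreeGroup.mul_mk]

theorem gw_invRev (w : List (S × Bool)) : gw P (invRev w) = (gw P w)⁻¹ := by
  rw [gw, gw, ← FreeGroup.inv_mk, _root_.map_inv]

theorem gw_closed {p : P.V} {w} (h : P.W p w p) : gw P w = 1 :=
  (QuotientGroup.eq_one_iff _).2 (Subgroup.subset_normalClosure ⟨w, ⟨p, h⟩, rfl⟩)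

theorem gw_eq {p q : P.V} {w w'} (h : P.W p w q) (h' : P.W p w' q) : gw P w = gw P w' := by
  have h1 : gw P (w ++ invRev w') = 1 := gw_closed ((P.W_append).2 ⟨q, h, P.W_inv h'⟩)
  rw [gw_append, gw_invRev] at h1
  exact mul_inv_eq_one.1 h1


end gw

theorem Wk_iff {Γ : PG S} {v v' : Γ.V} {w} : Lim.Wk Γ.E v w v' ↔ Γ.W v w v' := by
  induction w generalizing v with
  | nil => exact Iff.rfl
  | cons a w ih =>
    show (∃ u, Γ.E v a u ∧ Lim.Wk Γ.E u w v') ↔ ∃ u, Γ.E v a u ∧ Γ.W u w v'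
    simp only [ih]

/-! ### Developing one step -/

/-- label preserving maps into the group -/
def IsDev (P : PG S) (Γ : PG S) (d : Γ.V → Grp P) : Prop :=
  ∀ v a v', Γ.E v a v' → d v' = d v * gw P [a]

theorem IsDev.walk {P Γ : PG S} {d : Γ.V → Grp P} (hd : IsDev P Γ d) {v v' : Γ.V} {w}
    (h : Γ.W v w v') : d v' = d v * gw P w := by
  induction w generalizing v with
  | nil =>
    have : v = v' := h
    rw [this, gw_nil, mul_one]
  | cons a w ih =>
    obtain ⟨u, h1, h2⟩ := h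
    rw [ih h2, hd _ _ _ h1, mul_assoc, ← gw_append]
    rfl

section Step

variable {P : PG S} {m : ℕ} (hP : Small P m) (M : Mod P m)

variable {M}

/-- the value of a point of a cell -/
noncomputable def zval (d : M.Γ.V → Grp P) (z : Z M) : Grp P := d z.b * gw P z.reach.choose

theorem zval_eq (d : M.Γ.V → Grp P) {z : Z M} {w} (h : P.W z.p w z.q) :
    zval d z = d z.b * gw P w := by
  rw [zval, gw_eq z.reach.choose_spec h]

theorem dev_cell {Γ : PG S} {d : Γ.V → Grp P} (hd : IsDev P Γ d) {v v' : Γ.V} {p p' q : P.V} {w w'}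
    (hc : Cell Γ P v p v' p') (h : P.W p w q) (h' : P.W p' w' q) :
    d v * gw P w = d v' * gw P w' := by
  obtain ⟨t, h1, h2⟩ := hc
  rw [hd.walk h1, mul_assoc, ← gw_append, gw_eq h ((P.W_append).2 ⟨_, h2, h'⟩)]

theorem zval_cell {d : M.Γ.V → Grp P} (hd : IsDev P M.Γ d) {z : Z M} {v : M.Γ.V} {p : P.V} {w}
    (hc : Cell M.Γ P z.b z.p v p) (h : P.W p w z.q) : zval d z = d v * gw P w :=
  dev_cell hd hc z.reach.choose_spec h

theorem zval_rel {d : M.Γ.V → Grp P} (hd : IsDev P M.Γ d) {z z' : Z M} (h : Rel z z') :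
    zval d z = zval d z' := by
  obtain ⟨b0, p0, p0', u, h1, h2, h3, h4⟩ := h
  rw [zval_cell hd h1 h3, zval_cell hd h2 h4]

theorem zval_at {d : M.Γ.V → Grp P} (hd : IsDev P M.Γ d) {z : Z M} {y : M.Γ.V} (h : At z y) :
    zval d z = d y := by
  rw [zval_cell hd (w := []) h rfl, gw_nil, mul_one]

/-- the developing map of the next level -/
noncomputable def ndev (d : M.Γ.V → Grp P) (hd : IsDev P M.Γ d) : (NG hP M).V → Grp P :=
  Quotient.lift (zval d) (fun _ _ h => zval_rel hd h)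

theorem ndev_cls {d : M.Γ.V → Grp P} (hd : IsDev P M.Γ d) (z : Z M) :
    ndev hP d hd (cls hP z) = zval d z := rfl

theorem isDev_ndev {d : M.Γ.V → Grp P} (hd : IsDev P M.Γ d) : IsDev P (NG hP M) (ndev hP d hd) := by
  rintro x a x' (⟨z, z', rfl, rfl, h3, h4⟩ | ⟨z, z', y, y', rfl, rfl, h3, h4, h5⟩)
  · rw [ndev_cls, ndev_cls]
    obtain ⟨w, hw⟩ := z.reach
    rw [zval_cell hd (z := z') h3.symm ((P.W_append).2 ⟨_, hw, (P.W_single).2 h4⟩), zval_eq d hw,
      gw_append, mul_assoc]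
  · rw [ndev_cls, ndev_cls, zval_at hd h3, zval_at hd h4]
    exact hd _ _ _ h5

variable [Nonempty P.V]

/-- old vertices in the next level -/
noncomputable def emb (M : Mod P m) (y : M.Γ.V) : (NG hP M).V :=
  cls hP (zpt M y (Classical.arbitrary P.V))

theorem emb_eq (y : M.Γ.V) (p : P.V) : emb hP M y = cls hP (zpt M y p) :=
  cls_eq.2 (rel_of_at (zpt_at y _) (zpt_at y p))

theorem old_emb (y : M.Γ.V) : Old hP M (emb hP M y) y := ⟨_, rfl, zpt_at y _⟩

theorem emb_inj : Function.Injective (emb hP M) := by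
  intro y y' h
  exact (old_emb hP y).unique (h ▸ old_emb hP y')


theorem emb_map {y y' : M.Γ.V} {a} (h : M.Γ.E y a y') : (NG hP M).E (emb hP M y) a (emb hP M y') :=
  Or.inr ⟨_, _, y, y', rfl, rfl, zpt_at y _, zpt_at y' _, h⟩

theorem emb_walk {y y' : M.Γ.V} {w} (h : M.Γ.W y w y') :
    (NG hP M).W (emb hP M y) w (emb hP M y') := by
  rw [← Wk_iff] at h ⊢
  exact Lim.Wk_map (emb hP M) (fun _ _ _ h => emb_map hP h) h

theorem emb_closed (y : M.Γ.V) {p : P.V} {w} (h : P.W p w p) :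
    (NG hP M).W (emb hP M y) w (emb hP M y) := by
  rw [emb_eq hP y p]
  exact NW_cell (Cell.refl _ _) h

theorem emb_total (y : M.Γ.V) {p q : P.V} {a} (h : P.E p a q) :
    ∃ x, (NG hP M).E (emb hP M y) a x :=
  ⟨cls hP ((zpt M y p).mv (w := [a]) ((P.W_single).2 h)),
    Or.inl ⟨zpt M y p, _, emb_eq hP y p, rfl, Cell.refl _ _, h⟩⟩

theorem ndev_emb {d : M.Γ.V → Grp P} (hd : IsDev P M.Γ d) (y : M.Γ.V) :
    ndev hP d hd (emb hP M y) = d y := by
  rw [emb, ndev_cls, zval_at hd (zpt_at y _)]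

end Step

/-! ### The levels -/

/-- the one point level -/
def start (P : PG S) (m : ℕ) : Mod P m where
  Γ := ⟨PUnit, fun _ _ _ => False, fun h _ => h.elim, fun h => h⟩
  F := fun _ _ => False
  filled := fun h => h.elim
  cell := fun h _ => h.elim
  girth := by
    intro v w _ h _
    rcases w with _ | ⟨a, w⟩
    · rfl
    · obtain ⟨_, h, _⟩ := h; exact h.elim
  small := by
    intro v p w v' p' _ _ h _
    rcases w with _ | ⟨a, w⟩
    · simp
    · obtain ⟨_, h, _⟩ := h; exact h.elim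

/-- the two facts about the next level (proved by the small cancellation analysis) -/
structure NextOK {P : PG S} {m : ℕ} (hP : Small P m) : Prop where
  girth : ∀ (M : Mod P m) {v : (NG hP M).V} {w}, IsReduced w → (NG hP M).W v w v →
    w.length ≤ 2 * m → w = []
  small : ∀ (M : Mod P m) {v : (NG hP M).V} {p w v' p'}, ¬ NF hP M v p → IsReduced w →
    (NG hP M).W v w v' → P.W p w p' → w.length ≤ 2 * m


section Levels

variable {P : PG S} {m : ℕ} {hP : Small P m} (hN : NextOK hP)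

/-- the next level -/
def next (M : Mod P m) : Mod P m where
  Γ := NG hP M
  F := NF hP M
  filled := NF.filled
  cell := NF.cell
  girth := hN.girth M
  small := hN.small M

/-- the levels -/
def lv : ℕ → Mod P m
  | 0 => start P m
  | n + 1 => next hN (lv n)

/-- the developing maps -/
noncomputable def devs : ∀ n, {d : (lv hN n).Γ.V → Grp P // IsDev P (lv hN n).Γ d}
  | 0 => ⟨fun _ => 1, fun _ _ _ h => h.elim⟩
  | n + 1 => ⟨ndev hP (devs n).1 (devs n).2, isDev_ndev hP (devs n).2⟩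

/-- the developing map of level `n` -/
noncomputable def dev (n : ℕ) : (lv hN n).Γ.V → Grp P := (devs hN n).1

theorem isDev_dev (n : ℕ) : IsDev P (lv hN n).Γ (dev hN n) := (devs hN n).2

theorem dev_succ_cls (n : ℕ) (z : Z (lv hN n)) : dev hN (n + 1) (cls hP z) = zval (dev hN n) z := rfl

variable [Nonempty P.V]

theorem dev_emb (n : ℕ) (v : (lv hN n).Γ.V) : dev hN (n + 1) (emb hP (lv hN n) v) = dev hN n v :=
  ndev_emb hP (isDev_dev hN n) v

/-- the tower of levels -/
noncomputable def tow (hlet : ∀ a, ∃ p q, P.E p a q) : Lim.Tower S where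
  V := fun n => (lv hN n).Γ.V
  E := fun n => (lv hN n).Γ.E
  det := fun n _ _ _ _ h h' => (lv hN n).Γ.det h h'
  symm := fun n _ _ _ h => (lv hN n).Γ.symm h
  ι := fun n => emb hP (lv hN n)
  inj := fun n => emb_inj hP
  map := fun n _ _ _ h => emb_map hP h
  total := by
    intro n v a
    obtain ⟨p, q, h⟩ := hlet a
    exact emb_total hP v h
  o := PUnit.unit

theorem tow_closed (hlet : ∀ a, ∃ p q, P.E p a q) : (tow hN hlet).Closed (clw P) := by
  rintro n v r ⟨p, hr⟩
  exact Wk_iff.2 (emb_closed hP v hr)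

theorem dev_base (hlet : ∀ a, ∃ p q, P.E p a q) (n : ℕ) : dev hN n ((tow hN hlet).base n) = 1 := by
  induction n with
  | zero => rfl
  | succ n ih =>
    rw [← ih]
    exact dev_emb hN n _

theorem reach_base (hlet : ∀ a, ∃ p q, P.E p a q) (n : ℕ) (v : (lv hN n).Γ.V) :
    ∃ w, (lv hN n).Γ.W ((tow hN hlet).base n) w v := by
  induction n with
  | zero => exact ⟨[], Subsingleton.elim (α := PUnit) _ _⟩
  | succ n ih =>
    obtain ⟨z, rfl⟩ := exists_cls (hP := hP) v
    obtain ⟨w, hw⟩ := ih z.b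
    obtain ⟨w', hw'⟩ := z.reach
    refine ⟨w ++ w', (PG.W_append _).2 ⟨emb hP (lv hN n) z.b, emb_walk hP hw, ?_⟩⟩
    rw [emb_eq hP z.b z.p]
    exact NW_cell (z := zpt (lv hN n) z.b z.p) (z' := z) (Cell.refl _ _) hw'

theorem dev_inj (hlet : ∀ a, ∃ p q, P.E p a q) (n : ℕ) : Function.Injective (dev hN n) := by
  refine (tow_closed hN hlet).dev_injective (dev hN) ?_ ?_ n
  · intro n v a v' h
    exact isDev_dev hN n v a v' h
  · intro n v
    obtain ⟨w, hw⟩ := reach_base hN hlet n v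
    exact ⟨w, Wk_iff.2 hw⟩

theorem dev_surj (hlet : ∀ a, ∃ p q, P.E p a q) (g : Grp P) : ∃ n v, dev hN n v = g :=
  Lim.Tower.Closed.dev_surjective (T := tow hN hlet) (R := clw P) (dev hN)
    (fun n v a v' h => isDev_dev hN n v a v' h) (dev_base hN hlet) g

end Levels

/-! ### The levels in the group -/

/-- position `q` at `h` is in the cell of position `p` at `g` -/
def Same (P : PG S) (g : Grp P) (p : P.V) (h : Grp P) (q : P.V) : Prop :=
  ∃ w, P.W p w q ∧ h = g * gw P w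

section Same
variable {P : PG S}

theorem Same.refl (g : Grp P) (p : P.V) : Same P g p g p := ⟨[], rfl, by simp⟩

theorem Same.symm {g h : Grp P} {p q : P.V} (hs : Same P g p h q) : Same P h q g p := by
  obtain ⟨w, h1, rfl⟩ := hs
  exact ⟨invRev w, P.W_inv h1, by rw [gw_invRev, mul_inv_cancel_right]⟩

theorem Same.trans {g h k : Grp P} {p q r : P.V} (hs : Same P g p h q) (hs' : Same P h q k r) :
    Same P g p k r := by
  obtain ⟨w, h1, rfl⟩ := hs
  obtain ⟨w', h1', rfl⟩ := hs'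
  exact ⟨w ++ w', (P.W_append).2 ⟨_, h1, h1'⟩, by rw [gw_append, mul_assoc]⟩

end Same

/-- the edge `(x, a)` lies in a cell over the set `A` -/
def EdgeOver (P : PG S) (A : Set (Grp P)) (x : Grp P) (a : S × Bool) : Prop :=
  ∃ b ∈ A, ∃ p q q', Same P b p x q ∧ P.E q a q'

/-- Levels of the group, seen from `1`. -/
structure Levels (P : PG S) (m : ℕ) where
  Y : ℕ → Set (Grp P)
  zero : Y 0 = {1}
  succ : ∀ n x, x ∈ Y (n + 1) ↔ ∃ b ∈ Y n, ∃ p q, Same P b p x q
  cover : ∀ x, ∃ n, x ∈ Y n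
  /-- cells embed -/
  inj : ∀ {p q q' w w'}, P.W p w q → P.W p w' q' → gw P w = gw P w' → q = q'
  /-- gluing -/
  glue : ∀ {n g p g' p' b q b' q' x r r'}, b ∈ Y n → b' ∈ Y n → Same P g p b q → Same P g' p' b' q' →
    Same P g p x r → Same P g' p' x r' →
    ∃ c ∈ Y n, ∃ s s' u, Same P g p c s ∧ Same P g' p' c s' ∧ P.W s u r ∧ P.W s' u r' ∧
      x = c * gw P u
  /-- the part of a new cell of level `n + 1` in `Y n` is connected in `Y n` by short words -/
  short : ∀ {n g p x q}, g ∈ Y n → x ∈ Y n → Same P g p x q →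
    (∀ k, n = k + 1 → ∀ b r, Same P g p b r → b ∉ Y k) →
    ∃ w, IsReduced w ∧ w.length ≤ 2 * m ∧ P.W p w q ∧ x = g * gw P w ∧
      (n = 0 → w = []) ∧
      (∀ k, n = k + 1 → ∀ t a t', w = t ++ a :: t' → EdgeOver P (Y k) (g * gw P t) a)

section Final

variable {P : PG S} {m : ℕ} {hP : Small P m} (hN : NextOK hP) [Nonempty P.V]

omit [Nonempty P.V] in
theorem lv_edge (hlet : ∀ a, ∃ p q, P.E p a q) {k : ℕ} {v v' : (lv hN (k + 1)).Γ.V} {a}
    (h : (lv hN (k + 1)).Γ.E v a v') :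
    EdgeOver P (Set.range (dev hN k)) (dev hN (k + 1) v) a := by
  rcases h with ⟨z, z', rfl, rfl, h3, h4⟩ | ⟨z, z', y, y', rfl, rfl, h3, h4, h5⟩
  · obtain ⟨w, hw⟩ := z.reach
    refine ⟨dev hN k z.b, ⟨_, rfl⟩, z.p, z.q, z'.q, ⟨w, hw, ?_⟩, h4⟩
    rw [dev_succ_cls, zval_eq _ hw]
  · obtain ⟨p, q, hpq⟩ := hlet a
    refine ⟨dev hN k y, ⟨_, rfl⟩, p, p, q, ?_, hpq⟩
    rw [dev_succ_cls, zval_at (isDev_dev hN k) h3]
    exact Same.refl _ _

omit [Nonempty P.V] in
theorem lv_walk_edges (hlet : ∀ a, ∃ p q, P.E p a q) {k : ℕ} {v v' : (lv hN (k + 1)).Γ.V} {w}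
    (h : (lv hN (k + 1)).Γ.W v w v') {t a t'} (hw : w = t ++ a :: t') :
    EdgeOver P (Set.range (dev hN k)) (dev hN (k + 1) v * gw P t) a := by
  subst hw
  obtain ⟨u, h1, u', h2, _⟩ := (PG.W_append _).1 h
  rw [← (isDev_dev hN (k + 1)).walk h1]
  exact lv_edge hN hlet h2

/-- **The levels in the group.** -/
noncomputable def levels (hlet : ∀ a, ∃ p q, P.E p a q) : Levels P m where
  Y := fun n => Set.range (dev hN n)
  zero := by
    ext x
    constructor
    · rintro ⟨_, rfl⟩; rfl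
    · rintro rfl; exact ⟨PUnit.unit, rfl⟩
  succ := by
    intro n x
    constructor
    · rintro ⟨v, rfl⟩
      obtain ⟨z, rfl⟩ := exists_cls (hP := hP) v
      obtain ⟨w, hw⟩ := z.reach
      exact ⟨_, ⟨z.b, rfl⟩, z.p, z.q, w, hw, by rw [dev_succ_cls, zval_eq _ hw]⟩
    · rintro ⟨_, ⟨b, rfl⟩, p, q, w, hw, rfl⟩
      refine ⟨cls hP ⟨b, p, q, w, hw⟩, ?_⟩
      rw [dev_succ_cls, zval_eq _ (z := ⟨b, p, q, w, hw⟩) hw]
  cover := by
    intro x
    obtain ⟨n, v, h⟩ := dev_surj hN hlet x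
    exact ⟨n, v, h⟩
  inj := by
    intro p q q' w w' h h' he
    have h1 : dev hN 1 (cls hP (⟨PUnit.unit, p, q, w, h⟩ : Z (lv hN 0))) =
        dev hN 1 (cls hP (⟨PUnit.unit, p, q', w', h'⟩ : Z (lv hN 0))) := by
      rw [dev_succ_cls, dev_succ_cls,
        zval_eq _ (z := (⟨PUnit.unit, p, q, w, h⟩ : Z (lv hN 0))) h,
        zval_eq _ (z := (⟨PUnit.unit, p, q', w', h'⟩ : Z (lv hN 0))) h', he]
    have h2 := cls_eq.1 (dev_inj hN hlet 1 h1)
    exact rel_same hP h2 (Cell.refl _ _)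
  glue := by
    rintro n g p g' p' _ q _ q' x r r' ⟨b, rfl⟩ ⟨b', rfl⟩ hb hb' hx hx'
    obtain ⟨w, hw, hxw⟩ := hb.symm.trans hx
    obtain ⟨w', hw', hxw'⟩ := hb'.symm.trans hx'
    have h1 : dev hN (n + 1) (cls hP (⟨b, q, r, w, hw⟩ : Z (lv hN n))) =
        dev hN (n + 1) (cls hP (⟨b', q', r', w', hw'⟩ : Z (lv hN n))) := by
      rw [dev_succ_cls, dev_succ_cls, zval_eq _ (z := (⟨b, q, r, w, hw⟩ : Z (lv hN n))) hw,
        zval_eq _ (z := (⟨b', q', r', w', hw'⟩ : Z (lv hN n))) hw', ← hxw, ← hxw']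
    obtain ⟨c, s, s', u, k1, k2, k3, k4⟩ := cls_eq.1 (dev_inj hN hlet (n + 1) h1)
    obtain ⟨t, t1, t2⟩ := k1
    obtain ⟨t', t1', t2'⟩ := k2
    have e1 : Same P g p (dev hN n c) s :=
      hb.trans ⟨t, t2, (isDev_dev hN n).walk t1⟩
    have e2 : Same P g' p' (dev hN n c) s' :=
      hb'.trans ⟨t', t2', (isDev_dev hN n).walk t1'⟩
    refine ⟨dev hN n c, ⟨c, rfl⟩, s, s', u, e1, e2, k3, k4, ?_⟩
    rw [hxw, (isDev_dev hN n).walk t1, mul_assoc, ← gw_append]
    congr 1
    exact gw_eq hw ((P.W_append).2 ⟨_, t2, k3⟩)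
  short := by
    rintro n _ p _ q ⟨v, rfl⟩ ⟨v', rfl⟩ ⟨w, hw, hx⟩ hnew
    have hF : ¬ (lv hN n).F v p := by
      cases n with
      | zero => exact fun h => h
      | succ k =>
        rintro ⟨z, rfl, hz⟩
        obtain ⟨w0, h0⟩ := z.reach
        refine hnew k rfl (dev hN k z.b) z.p ?_ ⟨_, rfl⟩
        refine Same.symm ⟨w0, hz ▸ h0, ?_⟩
        rw [dev_succ_cls, zval_eq _ h0]
    have h1 : dev hN (n + 1) (cls hP (⟨v, p, q, w, hw⟩ : Z (lv hN n))) =
        dev hN (n + 1) (cls hP (zpt (lv hN n) v' q)) := by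
      rw [dev_succ_cls, dev_succ_cls, zval_eq _ (z := (⟨v, p, q, w, hw⟩ : Z (lv hN n))) hw,
        zval_at (isDev_dev hN n) (zpt_at v' q), hx]
    have h2 := (cls_eq.1 (dev_inj hN hlet (n + 1) h1)).symm.at hP (zpt_at v' q)
    have h3 : Cell (lv hN n).Γ P v p v' q := h2
    obtain ⟨t, rt, ht, ht', hlt⟩ := cell_short hF h3
    refine ⟨t, rt, hlt, ht', (isDev_dev hN n).walk ht, ?_, ?_⟩
    · rintro rfl
      rcases t with _ | ⟨a, t⟩
      · rfl
      · obtain ⟨_, h, _⟩ := ht; exact h.elim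
    · rintro k rfl s a s' hs
      exact lv_walk_edges hN hlet ht hs

end Final

end Crest.Agent.R199.SC
end

-- ▼ part R199/Limit

/-!
Part II-d: the exported model (through SC.lean / SCGroup.lean).
-/

set_option autoImplicit false

open FreeGroup

namespace Crest.Agent.R199.SC

variable {S : Type}

theorem nextOK' {P : PG S} {m : ℕ} (hP : Small P m) : NextOK hP where
  girth := fun _ _ _ h1 h2 h3 => N_girth h1 h2 h3
  small := fun _ _ _ _ _ _ h1 h2 h3 h4 => N_small h1 h2 h3 h4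

/-- the exported facts, for a `PG` -/
structure PModel (P : PG S) (m : ℕ) where
  lev : Grp P → ℕ
  cl : Grp P → P.V → ℕ
  lev_eq_zero : ∀ g, lev g = 0 ↔ g = 1
  cl_same : ∀ g x h y, Same P g x h y → cl h y = cl g x
  cl_le : ∀ g x, cl g x ≤ lev g
  lev_le : ∀ g x, lev g ≤ cl g x + 1
  base : ∀ g x, ∃ h y, Same P g x h y ∧ lev h = cl g x
  down : ∀ g n, lev g = n + 1 → ∃ x, cl g x = n
  share : ∀ g x y, cl g x = cl g y →
    ∃ h x' y', Same P g x h x' ∧ Same P g y h y' ∧ lev h = cl g x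
  clique : ∀ g x x' h y e h' y' e', cl g x = lev g → cl g x' = lev g →
    Same P g x h y → Same P g x' h' y' → lev h = lev g → lev h' = lev g →
    cl h e + 1 = lev g → cl h' e' + 1 = lev g →
    ∃ k q q', Same P h e k q ∧ Same P h' e' k q'
  embed : ∀ (w : List (S × Bool)) (x y : P.V), P.W x w y → gw P w = 1 → y = x
  near : ∀ g x, ∃ x₀ : P.V, ∀ h y y', Same P g x h y → y' ≠ y → cl h y' ≤ cl h y →
    ∃ w : List (S × Bool), w.length ≤ 3 * m ∧ P.W x₀ w y

section

variable {P : PG S} {m : ℕ} {hP : Small P m} (hN : NextOK hP) [Nonempty P.V]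
  (hlet : ∀ a, ∃ p q, P.E p a q)

include hlet in
theorem cell_lift {n : ℕ} {v v' : (lv hN n).Γ.V} {p q : P.V}
    (h : Same P (dev hN n v) p (dev hN n v') q) : Cell (lv hN n).Γ P v p v' q := by
  obtain ⟨w, hw, hx⟩ := h
  have h1 : dev hN (n + 1) (cls hP (⟨v, p, q, w, hw⟩ : Z (lv hN n))) =
      dev hN (n + 1) (cls hP (zpt (lv hN n) v' q)) := by
    rw [dev_succ_cls, dev_succ_cls, zval_eq _ (z := (⟨v, p, q, w, hw⟩ : Z (lv hN n))) hw,
      zval_at (isDev_dev hN n) (zpt_at v' q), hx]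
  exact (cls_eq.1 (dev_inj hN hlet (n + 1) h1)).symm.at hP (zpt_at v' q)

omit [Nonempty P.V] in
theorem cell_same {n : ℕ} {v v' : (lv hN n).Γ.V} {p q : P.V}
    (h : Cell (lv hN n).Γ P v p v' q) : Same P (dev hN n v) p (dev hN n v') q := by
  obtain ⟨t, h1, h2⟩ := h
  exact ⟨t, h2, (isDev_dev hN n).walk h1⟩

include hlet in
theorem F_iff {n : ℕ} {v : (lv hN (n + 1)).Γ.V} {p : P.V} :
    (lv hN (n + 1)).F v p ↔ ∃ b q, Same P (dev hN (n + 1) v) p (dev hN n b) q := by
  constructor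
  · rintro ⟨z, rfl, hz⟩
    obtain ⟨w0, h0⟩ := z.reach
    refine ⟨z.b, z.p, Same.symm ⟨w0, hz ▸ h0, ?_⟩⟩
    rw [dev_succ_cls, zval_eq _ h0]
  · rintro ⟨b, q, h⟩
    obtain ⟨w, hw, hx⟩ := h.symm
    refine ⟨⟨b, q, p, w, hw⟩, dev_inj hN hlet (n + 1) ?_, rfl⟩
    rw [dev_succ_cls, zval_eq _ (z := (⟨b, q, p, w, hw⟩ : Z (lv hN n))) hw, hx]

omit [Nonempty P.V] in
theorem not_F_zero {v : (lv hN 0).Γ.V} {p : P.V} : ¬ (lv hN 0).F v p := fun h => h

theorem dev_mono {n : ℕ} {v : (lv hN n).Γ.V} :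
    ∃ v' : (lv hN (n + 1)).Γ.V, dev hN (n + 1) v' = dev hN n v :=
  ⟨emb hP (lv hN n) v, dev_emb hN n v⟩

theorem dev_mono' {n k : ℕ} (hnk : n ≤ k) (v : (lv hN n).Γ.V) :
    ∃ v' : (lv hN k).Γ.V, dev hN k v' = dev hN n v := by
  induction hnk with
  | refl => exact ⟨v, rfl⟩
  | step _ ih =>
    obtain ⟨v', h⟩ := ih
    obtain ⟨v'', h'⟩ := dev_mono hN (v := v')
    exact ⟨v'', h'.trans h⟩

/-- level of a group element -/
noncomputable def glev (g : Grp P) : ℕ := sInf {n | ∃ v, dev hN n v = g}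

include hlet in
theorem glev_spec (g : Grp P) : ∃ v, dev hN (glev hN g) v = g :=
  Nat.sInf_mem (s := {n | ∃ v, dev hN n v = g}) (dev_surj hN hlet g)

omit [Nonempty P.V] in
theorem glev_le {n : ℕ} (v : (lv hN n).Γ.V) : glev hN (dev hN n v) ≤ n :=
  Nat.sInf_le (s := {k | ∃ v', dev hN k v' = dev hN n v}) ⟨v, rfl⟩

include hlet in
theorem exists_of_glev_le {g : Grp P} {n : ℕ} (h : glev hN g ≤ n) : ∃ v, dev hN n v = g := by
  obtain ⟨v, hv⟩ := glev_spec hN hlet g
  obtain ⟨v', hv'⟩ := dev_mono' hN h v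
  exact ⟨v', hv'.trans hv⟩

/-- level of a cell -/
noncomputable def gcl (g : Grp P) (x : P.V) : ℕ := sInf {n | ∃ h y, Same P g x h y ∧ glev hN h = n}

omit [Nonempty P.V] in
theorem gcl_spec (g : Grp P) (x : P.V) : ∃ h y, Same P g x h y ∧ glev hN h = gcl hN g x :=
  Nat.sInf_mem (s := {n | ∃ h y, Same P g x h y ∧ glev hN h = n}) ⟨_, g, x, Same.refl g x, rfl⟩

omit [Nonempty P.V] in
theorem gcl_le {g h : Grp P} {x y : P.V} (hs : Same P g x h y) : gcl hN g x ≤ glev hN h :=
  Nat.sInf_le (s := {n | ∃ h y, Same P g x h y ∧ glev hN h = n}) ⟨h, y, hs, rfl⟩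

omit [Nonempty P.V] in
theorem gcl_same {g h : Grp P} {x y : P.V} (hs : Same P g x h y) : gcl hN h y = gcl hN g x := by
  apply le_antisymm
  · obtain ⟨k, z, h1, h2⟩ := gcl_spec hN g x
    rw [← h2]
    exact gcl_le hN (hs.symm.trans h1)
  · obtain ⟨k, z, h1, h2⟩ := gcl_spec hN h y
    rw [← h2]
    exact gcl_le hN (hs.trans h1)

include hlet in
theorem F_iff_gcl {n : ℕ} {v : (lv hN (n + 1)).Γ.V} {p : P.V} :
    (lv hN (n + 1)).F v p ↔ gcl hN (dev hN (n + 1) v) p ≤ n := by
  rw [F_iff hN hlet]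
  constructor
  · rintro ⟨b, q, h⟩
    exact (gcl_le hN h).trans (glev_le hN b)
  · intro h
    obtain ⟨k, z, h1, h2⟩ := gcl_spec hN (dev hN (n + 1) v) p
    obtain ⟨b, rfl⟩ := exists_of_glev_le hN hlet (g := k) (n := n) (by omega)
    exact ⟨b, z, h1⟩

include hlet in
theorem glev_le_succ {g h : Grp P} {x y : P.V} {n : ℕ} (hs : Same P g x h y)
    (hh : glev hN h ≤ n) : glev hN g ≤ n + 1 := by
  obtain ⟨b, rfl⟩ := exists_of_glev_le hN hlet hh
  obtain ⟨w, hw, rfl⟩ := hs.symm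
  have : dev hN (n + 1) (cls hP (⟨b, y, x, w, hw⟩ : Z (lv hN n))) = dev hN n b * gw P w := by
    rw [dev_succ_cls, zval_eq _ (z := (⟨b, y, x, w, hw⟩ : Z (lv hN n))) hw]
  rw [← this]
  exact glev_le hN _

include hlet in
theorem glev_le_gcl (g : Grp P) (x : P.V) : glev hN g ≤ gcl hN g x + 1 := by
  obtain ⟨k, z, h1, h2⟩ := gcl_spec hN g x
  exact glev_le_succ hN hlet h1 h2.le

include hlet in
theorem not_F_of_gcl {n : ℕ} {v : (lv hN n).Γ.V} {p : P.V} (h : n ≤ gcl hN (dev hN n v) p) :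
    ¬ (lv hN n).F v p := by
  cases n with
  | zero => exact not_F_zero hN
  | succ n =>
    intro hF
    have := (F_iff_gcl hN hlet).1 hF
    omega

/-- the exported model -/
noncomputable def pmodel : PModel P m where
  lev := glev hN
  cl := gcl hN
  lev_eq_zero := by
    intro g
    constructor
    · intro h
      obtain ⟨v, hv⟩ := exists_of_glev_le hN hlet (g := g) (n := 0) (by omega)
      exact hv.symm
    · rintro rfl
      have := glev_le hN (n := 0) PUnit.unit
      have h1 : dev hN 0 PUnit.unit = 1 := rfl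
      rw [h1] at this
      omega
  cl_same := fun g x h y hs => gcl_same hN hs
  cl_le := fun g x => gcl_le hN (Same.refl g x)
  lev_le := glev_le_gcl hN hlet
  base := gcl_spec hN
  down := by
    intro g n hn
    obtain ⟨v, hv⟩ := exists_of_glev_le hN hlet (g := g) (n := n + 1) (by omega)
    obtain ⟨z, rfl⟩ := exists_cls (hP := hP) v
    refine ⟨z.q, ?_⟩
    have h1 : (lv hN (n + 1)).F (cls hP z) z.q := ⟨z, rfl, rfl⟩
    have h2 := (F_iff_gcl hN hlet).1 h1
    rw [hv] at h2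
    have h3 := glev_le_gcl hN hlet g z.q
    omega
  share := by
    intro g x y hxy
    obtain ⟨v, hv⟩ := exists_of_glev_le hN hlet (glev_le_gcl hN hlet g x)
    have h1 : (lv hN (gcl hN g x + 1)).F v x := (F_iff_gcl hN hlet).2 (by rw [hv])
    have h2 : (lv hN (gcl hN g x + 1)).F v y := (F_iff_gcl hN hlet).2 (by rw [hv, hxy])
    obtain ⟨b, p, p', w, xb, h3, _, h5, h6, h7, _⟩ := SC.share (hP := hP) h1 h2
    have e : dev hN (gcl hN g x + 1) xb = dev hN (gcl hN g x) b := by
      obtain ⟨z, rfl, hz⟩ := h3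
      rw [dev_succ_cls, zval_at (isDev_dev hN _) hz]
    have h8 := (isDev_dev hN (gcl hN g x + 1)).walk h5
    rw [hv, e] at h8
    refine ⟨dev hN (gcl hN g x) b, p, p', Same.symm ⟨w, h6, h8⟩, Same.symm ⟨w, h7, h8⟩, ?_⟩
    apply le_antisymm
    · exact glev_le hN b
    · exact gcl_le hN (Same.symm ⟨w, h6, h8⟩)
  clique := by
    intro g x x' h y e h' y' e' h1 h2 h3 h4 h5 h6 h7 h8
    obtain ⟨n, hn⟩ : ∃ n, glev hN g = n + 1 := ⟨gcl hN h e, h7.symm⟩
    rw [hn] at h1 h2 h5 h6 h7 h8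
    obtain ⟨v, rfl⟩ := exists_of_glev_le hN hlet hn.le
    obtain ⟨vh, rfl⟩ := exists_of_glev_le hN hlet h5.le
    obtain ⟨vh', rfl⟩ := exists_of_glev_le hN hlet h6.le
    have f1 : ¬ (lv hN (n + 1)).F v x := not_F_of_gcl hN hlet h1.ge
    have f2 : ¬ (lv hN (n + 1)).F v x' := not_F_of_gcl hN hlet h2.ge
    have c1 := cell_lift hN hlet h3
    have c2 := cell_lift hN hlet h4
    have g1 : (lv hN (n + 1)).F vh e := (F_iff_gcl hN hlet).2 (by omega)
    have g2 : (lv hN (n + 1)).F vh' e' := (F_iff_gcl hN hlet).2 (by omega)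
    obtain ⟨k, q, q', k1, k2⟩ := N_clique (hP := hP) f1 f2 c1 c2 g1 g2
    exact ⟨dev hN (n + 1) k, q, q', cell_same hN k1, cell_same hN k2⟩
  embed := by
    intro w x y h h1
    exact (levels hN hlet).inj (w := w) (w' := []) (p := x) h rfl (by rw [h1, gw_nil])
  near := by
    intro g x
    obtain ⟨b, x₀, hb, hbl⟩ := gcl_spec hN g x
    refine ⟨x₀, ?_⟩
    intro h y y' hs hne hle
    obtain ⟨k, hk⟩ : ∃ k, gcl hN g x = k := ⟨_, rfl⟩
    rw [hk] at hbl
    have e1 : gcl hN h y = k := (gcl_same hN hs).trans hk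
    rw [e1] at hle
    obtain ⟨vb, rfl⟩ := exists_of_glev_le hN hlet hbl.le
    have hl : glev hN h ≤ k + 1 := (glev_le_gcl hN hlet h y).trans (by omega)
    obtain ⟨vh, rfl⟩ := exists_of_glev_le hN hlet hl
    have f1 : (lv hN (k + 1)).F vh y := (F_iff_gcl hN hlet).2 (by omega)
    have f2 : (lv hN (k + 1)).F vh y' := (F_iff_gcl hN hlet).2 (by omega)
    obtain ⟨c, p, p', w, xc, h3, _, h5, h6, h7, h8⟩ := SC.share (hP := hP) f1 f2
    have e : dev hN (k + 1) xc = dev hN k c := by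
      obtain ⟨z, rfl, hz⟩ := h3
      rw [dev_succ_cls, zval_at (isDev_dev hN _) hz]
    have h9 := (isDev_dev hN (k + 1)).walk h5
    rw [e] at h9
    have s1 : Same P (dev hN k vb) x₀ (dev hN k c) p :=
      (hb.symm.trans hs).trans (Same.symm ⟨w, h6, h9⟩)
    have c1 := cell_lift hN hlet s1
    have f3 : ¬ (lv hN k).F vb x₀ := by
      apply not_F_of_gcl hN hlet
      rw [gcl_same hN hb, hk]
    obtain ⟨t, _, _, ht, htl⟩ := cell_short f3 c1
    refine ⟨t ++ w, ?_, (P.W_append).2 ⟨_, ht, h6⟩⟩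
    have := h8 hne.symm
    rw [List.length_append]
    omega

end

end Crest.Agent.R199.SC

namespace Crest.Agent.R199

open SC

variable {S : Type}

/-- the positions as a `PG` -/
def toPG (D : SCData S) : PG S where
  V := D.Pos
  E := fun x a y => D.A.st a x = some y
  det := by
    intro v a v1 v2 h1 h2
    rw [h1] at h2
    exact Option.some.inj h2
  symm := fun h => D.A.symm _ _ _ h

theorem W_iff_read (D : SCData S) {x y : D.Pos} {w : List (S × Bool)} :
    (toPG D).W x w y ↔ D.A.read w x = some y := by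
  induction w generalizing x with
  | nil =>
    show x = y ↔ some x = some y
    exact Option.some_inj.symm
  | cons a w ih =>
    show (∃ v, D.A.st a x = some v ∧ (toPG D).W v w y) ↔ (D.A.st a x).bind (D.A.read w) = some y
    rw [Option.bind_eq_some_iff]
    simp only [ih]

theorem small_toPG (D : SCData S) : Small (toPG D) (D.m - 1) where
  pos := by have := D.two_le_m; omega
  girth := by
    intro p w hr hw hl
    by_contra hne
    have := D.two_le_m
    exact D.girth p w hr hne (by omega) ((W_iff_read D).1 hw)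
  uniq := by
    intro w p q p' q' hr hl hw hw'
    have h2 := D.two_le_m
    have e : w = w.take D.m ++ w.drop D.m := (List.take_append_drop _ _).symm
    rw [e, PG.W_append] at hw hw'
    obtain ⟨r, h1, _⟩ := hw
    obtain ⟨r', h1', _⟩ := hw'
    have k1 := (W_iff_read D).1 h1
    have k1' := (W_iff_read D).1 h1'
    refine D.uniq p p' (w.take D.m) (hr.infix ⟨[], w.drop D.m, by simp⟩) ?_ ?_ ?_
    · rw [List.length_take]; omega
    · rw [k1]; rfl
    · rw [k1']; rfl

theorem rels_toPG (D : SCData S) : SC.rels (toPG D) = D.rels := by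
  ext r
  rw [SC.mem_rels]
  constructor
  · rintro ⟨p, w, h, rfl⟩
    exact ⟨p, w, (W_iff_read D).1 h, rfl⟩
  · rintro ⟨p, w, h, rfl⟩
    exact ⟨p, w, (W_iff_read D).2 h, rfl⟩

/-- the fields of the exported model for a group `PresentedGroup R` with `R = rels P` -/
theorem exists_model_aux (P : PG S) (m : ℕ) (hP : Small P m) (hne : Nonempty P.V)
    (hlet : ∀ a, ∃ p q, P.E p a q) (R : Set (FreeGroup S)) (hR : SC.rels P = R)
    (Sm : PresentedGroup R → P.V → PresentedGroup R → P.V → Prop)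
    (hS : ∀ g x h y, Sm g x h y ↔ ∃ w, P.W x w y ∧ h = g * PresentedGroup.mk R (FreeGroup.mk w)) :
    ∃ (lev : PresentedGroup R → ℕ) (cl : PresentedGroup R → P.V → ℕ),
      (∀ g, lev g = 0 ↔ g = 1) ∧
      (∀ g x h y, Sm g x h y → cl h y = cl g x) ∧
      (∀ g x, cl g x ≤ lev g) ∧
      (∀ g x, lev g ≤ cl g x + 1) ∧
      (∀ g x, ∃ h y, Sm g x h y ∧ lev h = cl g x) ∧
      (∀ g n, lev g = n + 1 → ∃ x, cl g x = n) ∧
      (∀ g x y, cl g x = cl g y → ∃ h x' y', Sm g x h x' ∧ Sm g y h y' ∧ lev h = cl g x) ∧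
      (∀ g x x' h y e h' y' e', cl g x = lev g → cl g x' = lev g →
        Sm g x h y → Sm g x' h' y' → lev h = lev g → lev h' = lev g →
        cl h e + 1 = lev g → cl h' e' + 1 = lev g →
        ∃ k q q', Sm h e k q ∧ Sm h' e' k q') ∧
      (∀ (w : List (S × Bool)) (x y : P.V), P.W x w y →
        PresentedGroup.mk R (FreeGroup.mk w) = 1 → y = x) ∧
      (∀ g x, ∃ x₀ : P.V, ∀ h y y', Sm g x h y → y' ≠ y → cl h y' ≤ cl h y →
        ∃ w : List (S × Bool), w.length ≤ 3 * m ∧ P.W x₀ w y) := by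
  subst hR
  have hSm : Sm = SC.Same P := by
    funext g x h y
    exact propext (hS g x h y)
  subst hSm
  have M := SC.pmodel (SC.nextOK' hP) hlet
  exact ⟨M.lev, M.cl, M.lev_eq_zero, M.cl_same, M.cl_le, M.lev_le, M.base, M.down, M.share,
    M.clique, M.embed, M.near⟩

theorem exists_model (D : SCData S) : Nonempty D.Model := by
  by_cases hS : Nonempty D.Pos
  · have hlet : ∀ a, ∃ p q, (toPG D).E p a q := by
      intro a
      obtain ⟨x, hx⟩ := D.letters a
      obtain ⟨y, hy⟩ := Option.isSome_iff_exists.1 hx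
      exact ⟨x, y, hy⟩
    obtain ⟨lev, cl, h1, h2, h3, h4, h5, h6, h7, h8, h9, h10⟩ :=
      exists_model_aux (toPG D) (D.m - 1) (small_toPG D) hS hlet D.rels (rels_toPG D) D.Same
        (fun g x h y => by
          unfold SCData.Same
          constructor
          · rintro ⟨w, k1, k2⟩
            exact ⟨w, (W_iff_read D).2 k1, k2⟩
          · rintro ⟨w, k1, k2⟩
            exact ⟨w, (W_iff_read D).1 k1, k2⟩)
    refine ⟨⟨lev, cl, h1, h2, h3, h4, h5, h6, h7, ?_, ?_, ?_⟩⟩
    · intro g x x' h y e h' y' e' a1 a2 a3 a4 a5 a6 a7 a8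
      obtain ⟨k, q, q', b1, b2⟩ := h8 g x x' h y e h' y' e' a1 a2 a3 a4 a5 a6 a7 a8
      exact ⟨k, q, q', b1, b2⟩
    · intro w x y hw hg
      exact h9 w x y ((W_iff_read D).2 hw) hg
    · intro g x
      obtain ⟨x₀, hx⟩ := h10 g x
      refine ⟨x₀, fun h y y' a1 a2 a3 => ?_⟩
      obtain ⟨w, hw1, hw2⟩ := hx h y y' a1 a2 a3
      exact ⟨w, by omega, (W_iff_read D).1 hw2⟩
  · -- no positions: the alphabet is empty and the group is trivial
    have hSe : IsEmpty S := ⟨fun s => hS (by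
      obtain ⟨x, _⟩ := D.letters (s, true)
      exact ⟨x⟩)⟩
    have hsub : ∀ g : D.Grp, g = 1 := by
      intro g
      obtain ⟨x, rfl⟩ := PresentedGroup.mk_surjective D.rels g
      have : x = 1 := Subsingleton.elim _ _
      rw [this]
      exact map_one _
    have hE : D.Pos → False := fun x => hS ⟨x⟩
    exact ⟨{
      lev := fun _ => 0
      cl := fun _ _ => 0
      lev_eq_zero := fun g => ⟨fun _ => hsub g, fun _ => rfl⟩
      cl_same := fun _ _ _ _ _ => rfl
      cl_le := fun _ _ => le_rfl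
      lev_le := fun _ _ => by simp
      base := fun _ x => (hE x).elim
      down := fun _ _ h => by simp at h
      share := fun _ x => (hE x).elim
      clique := fun _ x => (hE x).elim
      embed := fun _ x => (hE x).elim
      near := fun _ x => (hE x).elim }⟩

end Crest.Agent.R199
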