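import Mathlib
import Crest.Agent.R199.GInput

-- ▼ part R199/ErdosSachs
section

/-!
# Row 199, I.4(d): perfect matching of flags inside classes with large girth (Erdos-Sachs)

`Fl` = flags, `vtx : Fl → V` the sheet of a flag, a matching = involution `σ : Fl → Fl` (fixed points are
unmatched).  `NoCyc vtx σ g` : no cyclically reduced closed walk of length `k`, `1 ≤ k < g`.
-/

set_option autoImplicit false
set_option linter.unusedSectionVars false

namespace Crest.Agent.R199

open Finset

section Walks

variable {V Fl : Type*} (vtx : Fl → V)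

/-- one step of a reduced walk: leave through `a`, arrive at `σ a`, leave through `b ≠ σ a`. -/
def NB (σ : Fl → Fl) (a b : Fl) : Prop := σ a ≠ a ∧ vtx b = vtx (σ a) ∧ b ≠ σ a

/-- no cyclically reduced closed walk of length in `[1,g)` -/
def NoCyc (σ : Fl → Fl) (g : ℕ) : Prop :=
  ∀ k, 1 ≤ k → k < g → ∀ c : ℕ → Fl, (∀ i, c (i + k) = c i) → ¬ ∀ i, NB vtx σ (c i) (c (i + 1))

/-- no reduced closed walk of length in `[1,g)` -/
def NoClosed (σ : Fl → Fl) (g : ℕ) : Prop :=
  ∀ m, m + 1 < g → ∀ c : ℕ → Fl, (∀ i, i < m → NB vtx σ (c i) (c (i + 1))) → σ (c m) ≠ c m →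
    vtx (σ (c m)) ≠ vtx (c 0)

variable {vtx}

theorem NoCyc.noClosed {σ : Fl → Fl} (hσ : Function.Involutive σ) {g : ℕ} (h : NoCyc vtx σ g) :
    NoClosed vtx σ g := by
  intro m
  induction m using Nat.strong_induction_on with
  | _ m ih =>
    intro hm c hc hcm hclose
    by_cases hred : c 0 = σ (c m)
    · -- strip both ends
      rcases Nat.lt_or_ge m 2 with h2 | h2
      · interval_cases m
        · exact hcm hred.symm
        · have h3 := (hc 0 (by omega)).2.2
          apply h3
          rw [hred, hσ]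
      · obtain ⟨m', rfl⟩ : ∃ m', m = m' + 2 := ⟨m - 2, by omega⟩
        refine ih m' (by omega) (by omega) (fun i => c (i + 1)) ?_ ?_ ?_
        · intro i hi
          exact hc (i + 1) (by omega)
        · exact (hc (m' + 1) (by omega)).1
        · have h3 := (hc (m' + 1) (by omega)).2.1
          have h4 := (hc 0 (by omega)).2.1
          simp only [zero_add] at h4 ⊢
          rw [← h3, h4, hred, hσ]
    · -- cyclically reduced
      refine h (m + 1) (by omega) hm (fun i => c (i % (m + 1))) ?_ ?_
      · intro i; simp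
      · intro i
        have hi : i % (m + 1) < m + 1 := Nat.mod_lt _ (by omega)
        rcases Nat.lt_or_ge (i % (m + 1)) m with h3 | h3
        · have h4 : (i + 1) % (m + 1) = i % (m + 1) + 1 := by
            rw [Nat.add_mod]
            rcases Nat.eq_zero_or_pos m with h5 | h5
            · omega
            · rw [Nat.mod_eq_of_lt (show 1 < m + 1 by omega), Nat.mod_eq_of_lt (by omega)]
          rw [h4]
          exact hc _ h3
        · have h4 : i % (m + 1) = m := by omega
          have h5 : (i + 1) % (m + 1) = 0 := by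
            rw [Nat.add_mod, h4]
            rcases Nat.eq_zero_or_pos m with h5 | h5
            · subst h5; simp
            · rw [Nat.mod_eq_of_lt (show 1 < m + 1 by omega), Nat.mod_self]
          rw [h4, h5]
          exact ⟨hcm, hclose.symm, hred⟩

/-- `b` can be reached from `a` in at most `m` steps -/
def Near (vtx : Fl → V) (σ : Fl → Fl) : ℕ → V → V → Prop
  | 0, a, b => a = b
  | m + 1, a, b => Near vtx σ m a b ∨ ∃ x, Near vtx σ m a (vtx x) ∧ b = vtx (σ x)

theorem Near.refl (σ : Fl → Fl) (m : ℕ) (a : V) : Near vtx σ m a a := by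
  induction m with
  | zero => rfl
  | succ m ih => exact Or.inl ih

theorem Near.mono {σ : Fl → Fl} {m m' : ℕ} (h : m ≤ m') {a b : V} (hab : Near vtx σ m a b) :
    Near vtx σ m' a b := by
  induction h with
  | refl => exact hab
  | step _ ih => exact Or.inl ih

theorem Near.cons {σ : Fl → Fl} (x : Fl) : ∀ (m : ℕ) {b : V}, Near vtx σ m (vtx (σ x)) b →
    Near vtx σ (m + 1) (vtx x) b
  | 0, _, h => Or.inr ⟨x, rfl, h.symm⟩
  | m + 1, _, Or.inl h => Or.inl (Near.cons x m h)
  | m + 1, _, Or.inr ⟨y, hy, hb⟩ => Or.inr ⟨y, Near.cons x m hy, hb⟩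

theorem Near.symm {σ : Fl → Fl} (hσ : Function.Involutive σ) : ∀ (m : ℕ) {a b : V},
    Near vtx σ m a b → Near vtx σ m b a
  | 0, _, _, h => Eq.symm h
  | m + 1, _, _, Or.inl h => Or.inl (Near.symm hσ m h)
  | m + 1, _, _, Or.inr ⟨x, hx, hb⟩ => by
    have h1 := Near.symm hσ m hx
    rw [hb]
    apply Near.cons
    rw [hσ]
    exact h1

/-- a walk gives nearness -/
theorem near_of_walk {σ : Fl → Fl} (c : ℕ → Fl) (i m : ℕ)
    (h : ∀ j, i ≤ j → j < i + m → vtx (c (j + 1)) = vtx (σ (c j))) :
    Near vtx σ m (vtx (c i)) (vtx (c (i + m))) := by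
  induction m with
  | zero => rfl
  | succ m ih =>
    refine Or.inr ⟨c (i + m), ih fun j h1 h2 => h j h1 (by omega), ?_⟩
    exact h (i + m) (by omega) (by omega)

end Walks

section Switch

variable {V Fl : Type*} {vtx : Fl → V} [DecidableEq Fl]

/-- match the two unmatched flags `f`, `f'` -/
def joinMap (σ : Fl → Fl) (f f' : Fl) : Fl → Fl := fun x =>
  if x = f then f' else if x = f' then f else σ x

theorem joinMap_invol {σ : Fl → Fl} (hσ : Function.Involutive σ) {f f' : Fl} (hf : σ f = f)
    (hf' : σ f' = f') (hne : f ≠ f') : Function.Involutive (joinMap σ f f') := by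
  intro x
  unfold joinMap
  have key : ∀ y, σ x = y → σ y = x := fun y h => by rw [← h, hσ]
  by_cases h1 : x = f
  · subst h1; simp [hne.symm]
  · by_cases h2 : x = f'
    · subst h2; simp [h1]
    · have h3 : σ x ≠ f := fun h => h1 (by rw [← hf, ← h, hσ])
      have h4 : σ x ≠ f' := fun h => h2 (by rw [← hf', ← h, hσ])
      simp [h1, h2, h3, h4, hσ x]

/-- Generic cyclic argument: in a closed walk using the modified matching, there are two cyclically
consecutive modified flags. -/
theorem consecutive {k : ℕ} (hk : 1 ≤ k) (c : ℕ → Fl) (hper : ∀ i, c (i + k) = c i) (N : Fl → Prop)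
    (i0 : ℕ) (hi0 : N (c i0)) :
    ∃ j, 1 ≤ j ∧ j ≤ k ∧ N (c (i0 + j)) ∧ ∀ l, 1 ≤ l → l < j → ¬ N (c (i0 + l)) := by
  classical
  have hex : ∃ j, 1 ≤ j ∧ N (c (i0 + j)) := ⟨k, hk, by rw [hper]; exact hi0⟩
  refine ⟨Nat.find hex, (Nat.find_spec hex).1, Nat.find_min' hex ⟨hk, by rw [hper]; exact hi0⟩,
    (Nat.find_spec hex).2, fun l h1 h2 h3 => Nat.find_min hex h2 ⟨h1, h3⟩⟩

theorem noCyc_of_new {σ σ' : Fl → Fl} {g : ℕ} (N : Fl → Prop)
    (hold : ∀ x, ¬ N x → σ' x = σ x) (h : NoCyc vtx σ g)
    (hnew : ∀ k, 1 ≤ k → k < g → ∀ c : ℕ → Fl, (∀ i, c (i + k) = c i) →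
      (∀ i, NB vtx σ' (c i) (c (i + 1))) → ∀ i, ¬ N (c i)) : NoCyc vtx σ' g := by
  intro k hk1 hk2 c hper hNB
  have hN := hnew k hk1 hk2 c hper hNB
  refine h k hk1 hk2 c hper fun i => ?_
  have h1 := hNB i
  unfold NB at h1 ⊢
  rw [hold _ (hN i)] at h1
  exact h1

/-- Segment lemma: a segment of old flags. -/
theorem segment {σ σ' : Fl → Fl} (N : Fl → Prop) (hold : ∀ x, ¬ N x → σ' x = σ x) (c : ℕ → Fl) (i j : ℕ)
    (hj : 1 ≤ j) (hNB : ∀ i, NB vtx σ' (c i) (c (i + 1))) (hseg : ∀ l, 1 ≤ l → l < j → ¬ N (c (i + l))) :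
    Near vtx σ (j - 1) (vtx (σ' (c i))) (vtx (c (i + j))) := by
  have h1 := near_of_walk (vtx := vtx) (σ := σ) c (i + 1) (j - 1) (fun l h1 h2 => by
    have h3 := (hNB l).2.1
    have h4 := hseg (l - i) (by omega) (by omega)
    rw [show i + (l - i) = l by omega] at h4
    rw [hold _ h4] at h3
    exact h3)
  rw [show i + 1 + (j - 1) = i + j by omega, (hNB i).2.1] at h1
  exact h1

/-- Closed segments are impossible. -/
theorem segment_closed {σ σ' : Fl → Fl} {g : ℕ} (hcl : NoClosed vtx σ g) (N : Fl → Prop)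
    (hold : ∀ x, ¬ N x → σ' x = σ x) (c : ℕ → Fl) (i j : ℕ)
    (hj : 1 ≤ j) (hjg : j < g) (hNB : ∀ i, NB vtx σ' (c i) (c (i + 1)))
    (hseg : ∀ l, 1 ≤ l → l < j → ¬ N (c (i + l)))
    (hcl2 : c (i + j) = σ' (c i)) : False := by
  rcases Nat.lt_or_ge 1 j with h1 | h1
  · -- positive length
    refine hcl (j - 2) (by omega) (fun l => c (i + 1 + l)) ?_ ?_ ?_
    · intro l hl
      have h3 := hNB (i + 1 + l)
      have h4 := hseg (1 + l) (by omega) (by omega)
      rw [← add_assoc] at h4
      unfold NB at h3 ⊢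
      rw [hold _ h4] at h3
      exact h3
    · have h3 := (hNB (i + 1 + (j - 2))).1
      have h4 := hseg (1 + (j - 2)) (by omega) (by omega)
      rw [← add_assoc] at h4
      rw [hold _ h4] at h3
      exact h3
    · have h3 := (hNB (i + 1 + (j - 2))).2.1
      have h4 := hseg (1 + (j - 2)) (by omega) (by omega)
      rw [← add_assoc] at h4
      rw [hold _ h4, show i + 1 + (j - 2) + 1 = i + j by omega] at h3
      rw [← h3, hcl2]
      exact (hNB i).2.1.symm
  · have : j = 1 := by omega
    subst this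
    exact (hNB i).2.2 hcl2

/-- Adding one edge between far vertices. -/
theorem noCyc_join {σ : Fl → Fl} (hσ : Function.Involutive σ) {g : ℕ} (h : NoCyc vtx σ g) {f f' : Fl}
    (hne : f ≠ f') (hfar : ¬ Near vtx σ g (vtx f) (vtx f')) :
    NoCyc vtx (joinMap σ f f') g := by
  have hcl := h.noClosed hσ
  have hfar' : ¬ Near vtx σ g (vtx f') (vtx f) := fun h => hfar (Near.symm hσ g h)
  have e1 : joinMap σ f f' f = f' := by simp [joinMap]
  have e2 : joinMap σ f f' f' = f := by simp [joinMap, hne.symm]
  refine noCyc_of_new (fun x => x = f ∨ x = f') ?_ h ?_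
  · intro x hx
    push Not at hx
    simp [joinMap, hx.1, hx.2]
  · intro k hk1 hk2 c hper hNB i hi
    have hold : ∀ x, ¬ (x = f ∨ x = f') → joinMap σ f f' x = σ x := by
      intro x hx
      push Not at hx
      simp [joinMap, hx.1, hx.2]
    obtain ⟨j, hj1, hj2, hj3, hj4⟩ := consecutive hk1 c hper (fun x => x = f ∨ x = f') i hi
    have hnear := segment (fun x => x = f ∨ x = f') hold c i j hj1 hNB hj4
    rcases hi with hi | hi <;> rcases hj3 with hj3 | hj3
    · rw [hi, hj3, e1] at hnear
      exact hfar' (hnear.mono (by omega))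
    · exact segment_closed hcl _ hold c i j hj1 (by omega) hNB hj4 (by rw [hi, hj3, e1])
    · exact segment_closed hcl _ hold c i j hj1 (by omega) hNB hj4 (by rw [hi, hj3, e2])
    · rw [hi, hj3, e2] at hnear
      exact hfar (hnear.mono (by omega))

/-- rematch: `f ↔ h`, `f' ↔ h'` -/
def swMap (σ : Fl → Fl) (f f' h h' : Fl) : Fl → Fl := fun x =>
  if x = f then h else if x = h then f else if x = f' then h' else if x = h' then f' else σ x

theorem swMap_invol {σ : Fl → Fl} (hσ : Function.Involutive σ) {f f' h h' : Fl} (hf : σ f = f)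
    (hf' : σ f' = f') (hne : f ≠ f') (hh : σ h = h') (hhne : h ≠ h') :
    Function.Involutive (swMap σ f f' h h') := by
  have hh' : σ h' = h := by rw [← hh, hσ]
  have a1 : h ≠ f := fun e => hhne (by rw [← hh, e, hf])
  have a2 : h ≠ f' := fun e => hhne (by rw [← hh, e, hf'])
  have a3 : h' ≠ f := fun e => hhne (by rw [← hh', e, hf])
  have a4 : h' ≠ f' := fun e => hhne (by rw [← hh', e, hf'])
  intro x
  unfold swMap
  by_cases h1 : x = f
  · subst h1; simp [a1]
  · by_cases h2 : x = h
    · subst h2; simp [h1]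
    · by_cases h3 : x = f'
      · subst h3; simp [h1, h2, a3, a4, hhne.symm]
      · by_cases h4 : x = h'
        · subst h4; simp [h1, h2, h3, hne.symm, a2.symm]
        · have b1 : σ x ≠ f := fun e => h1 (by rw [← hf, ← e, hσ])
          have b2 : σ x ≠ h := fun e => h4 (by rw [← hh, ← e, hσ])
          have b3 : σ x ≠ f' := fun e => h3 (by rw [← hf', ← e, hσ])
          have b4 : σ x ≠ h' := fun e => h2 (by rw [← hh', ← e, hσ])
          simp [h1, h2, h3, h4, b1, b2, b3, b4, hσ x]

theorem noCyc_switch {σ : Fl → Fl} (hσ : Function.Involutive σ) {g : ℕ} (hg : NoCyc vtx σ g) {f f' h h' : Fl}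
    (hf : σ f = f) (hf' : σ f' = f') (hne : f ≠ f') (hh : σ h = h') (hhne : h ≠ h')
    (hfar : ∀ x y, (x = f ∨ x = f') → (y = h ∨ y = h') → ¬ Near vtx σ g (vtx x) (vtx y)) :
    NoCyc vtx (swMap σ f f' h h') g := by
  have hh' : σ h' = h := by rw [← hh, hσ]
  have hcl := hg.noClosed hσ
  have a1 : h ≠ f := fun e => hhne (by rw [← hh, e, hf])
  have a2 : h ≠ f' := fun e => hhne (by rw [← hh, e, hf'])
  have a3 : h' ≠ f := fun e => hhne (by rw [← hh', e, hf])
  have a4 : h' ≠ f' := fun e => hhne (by rw [← hh', e, hf'])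
  have hfar' : ∀ x y, (x = f ∨ x = f') → (y = h ∨ y = h') → ¬ Near vtx σ g (vtx y) (vtx x) :=
    fun x y hx hy h => hfar x y hx hy (Near.symm hσ g h)
  have e1 : swMap σ f f' h h' f = h := by simp [swMap]
  have e2 : swMap σ f f' h h' h = f := by simp [swMap, a1]
  have e3 : swMap σ f f' h h' f' = h' := by simp [swMap, hne.symm, a2.symm]
  have e4 : swMap σ f f' h h' h' = f' := by simp [swMap, a3, a4, hhne.symm]
  set N : Fl → Prop := fun x => (x = f ∨ x = f') ∨ (x = h ∨ x = h') with hN
  have hold : ∀ x, ¬ N x → swMap σ f f' h h' x = σ x := by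
    intro x hx
    simp only [hN, not_or] at hx
    simp [swMap, hx.1.1, hx.1.2, hx.2.1, hx.2.2]
  refine noCyc_of_new N hold hg ?_
  intro k hk1 hk2 c hper hNB
  -- no flag in {f, f'}
  have hA : ∀ i, ¬ (c i = f ∨ c i = f') := by
    intro i hi
    obtain ⟨j, hj1, hj2, hj3, hj4⟩ := consecutive hk1 c hper N i (Or.inl hi)
    have hnear := segment N hold c i j hj1 hNB hj4
    obtain ⟨y, hy, hyi⟩ : ∃ y, (y = h ∨ y = h') ∧ swMap σ f f' h h' (c i) = y := by
      rcases hi with hi | hi
      · exact ⟨h, Or.inl rfl, by rw [hi, e1]⟩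
      · exact ⟨h', Or.inr rfl, by rw [hi, e3]⟩
    rw [hyi] at hnear
    rcases hj3 with hj3 | hj3
    · exact hfar' _ y hj3 hy (hnear.mono (by omega))
    · by_cases hyj : c (i + j) = y
      · exact segment_closed hcl N hold c i j hj1 (by
          rcases Nat.lt_or_ge j k with h5 | h5
          · omega
          · have : j = k := by omega
            subst this; omega) hNB hj4 (by rw [hyj, hyi])
      · -- the other end of the removed edge
        have hy' : σ (c (i + j)) = y := by
          rcases hj3 with h5 | h5 <;> rcases hy with h6 | h6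
          · exact absurd (by rw [h5, h6]) hyj
          · rw [h5, h6, hh]
          · rw [h5, h6, hh']
          · exact absurd (by rw [h5, h6]) hyj
        have hjk : j < k := by
          rcases Nat.lt_or_ge j k with h5 | h5
          · exact h5
          · exfalso
            have : j = k := by omega
            subst this
            rw [hper] at hj3
            rcases hi with h5 | h5 <;> rcases hj3 with h6 | h6
            · exact a1 (by rw [← h6, h5])
            · exact a3 (by rw [← h6, h5])
            · exact a2 (by rw [← h6, h5])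
            · exact a4 (by rw [← h6, h5])
        refine hcl (j - 1) (by omega) (fun l => c (i + 1 + l)) ?_ ?_ ?_
        · intro l hl
          have h3 := hNB (i + 1 + l)
          have h4 := hj4 (1 + l) (by omega) (by omega)
          rw [← add_assoc] at h4
          unfold NB at h3 ⊢
          rw [hold _ h4] at h3
          exact h3
        · rw [show i + 1 + (j - 1) = i + j by omega, hy']
          exact fun e => hyj e.symm
        · rw [show i + 1 + (j - 1) = i + j by omega, hy', add_zero, (hNB i).2.1, hyi]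
  intro i hi
  rcases hi with hi | hi
  · exact hA i hi
  · obtain ⟨j, hj1, hj2, hj3, hj4⟩ := consecutive hk1 c hper N i (Or.inr hi)
    have hnear := segment N hold c i j hj1 hNB hj4
    obtain ⟨y, hy, hyi⟩ : ∃ y, (y = f ∨ y = f') ∧ swMap σ f f' h h' (c i) = y := by
      rcases hi with hi | hi
      · exact ⟨f, Or.inl rfl, by rw [hi, e2]⟩
      · exact ⟨f', Or.inr rfl, by rw [hi, e4]⟩
    rw [hyi] at hnear
    rcases hj3 with hj3 | hj3
    · exact hA _ hj3
    · exact hfar y _ hy hj3 (hnear.mono (by omega))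

end Switch

section Count

variable {V Fl : Type*} [Fintype Fl] [DecidableEq V] (vtx : Fl → V)

/-- vertices near `a` -/
def nb (σ : Fl → Fl) (a : V) : ℕ → Finset V
  | 0 => {a}
  | m + 1 => nb σ a m ∪ (univ.filter fun x => vtx x ∈ nb σ a m).image fun x => vtx (σ x)

theorem mem_nb (σ : Fl → Fl) (a b : V) (m : ℕ) : b ∈ nb vtx σ a m ↔ Near vtx σ m a b := by
  induction m generalizing b with
  | zero => simp [nb, Near, eq_comm]
  | succ m ih =>
    rw [nb, Near, mem_union, ih, mem_image]
    refine or_congr Iff.rfl ⟨?_, ?_⟩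
    · rintro ⟨x, hx, rfl⟩
      rw [mem_filter, ih] at hx
      exact ⟨x, hx.2, rfl⟩
    · rintro ⟨x, hx, rfl⟩
      exact ⟨x, by rw [mem_filter, ih]; exact ⟨mem_univ _, hx⟩, rfl⟩

theorem card_flags_le (Δ : ℕ) (hΔ : ∀ v, (univ.filter fun x => vtx x = v).card ≤ Δ) (T : Finset V) :
    (univ.filter fun x => vtx x ∈ T).card ≤ Δ * T.card := by
  rw [card_eq_sum_card_fiberwise (f := vtx) (t := T) (fun x hx => by simpa using hx)]
  refine (sum_le_sum (g := fun _ => Δ) fun v hv => ?_).trans (by simp [mul_comm])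
  refine (card_le_card ?_).trans (hΔ v)
  intro x hx
  rw [mem_filter] at hx ⊢
  exact ⟨mem_univ _, hx.2⟩

theorem card_nb_le (Δ : ℕ) (hΔ : ∀ v, (univ.filter fun x => vtx x = v).card ≤ Δ) (σ : Fl → Fl) (a : V)
    (m : ℕ) : (nb vtx σ a m).card ≤ (Δ + 1) ^ m := by
  induction m with
  | zero => simp [nb]
  | succ m ih =>
    rw [nb]
    refine (card_union_le _ _).trans ?_
    have h1 := (card_image_le (s := univ.filter fun x => vtx x ∈ nb vtx σ a m)
      (f := fun x => vtx (σ x))).trans (card_flags_le vtx Δ hΔ (nb vtx σ a m))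
    calc (nb vtx σ a m).card + _ ≤ (nb vtx σ a m).card + Δ * (nb vtx σ a m).card := Nat.add_le_add_left h1 _
      _ = (Δ + 1) * (nb vtx σ a m).card := by ring
      _ ≤ (Δ + 1) * (Δ + 1) ^ m := Nat.mul_le_mul_left _ ih
      _ = _ := by ring

open Classical in
theorem card_near_le (Δ : ℕ) (hΔ : ∀ v, (univ.filter fun x => vtx x = v).card ≤ Δ) (σ : Fl → Fl) (a : V)
    (m : ℕ) : (univ.filter fun x => Near vtx σ m a (vtx x)).card ≤ Δ * (Δ + 1) ^ m := by
  have h1 : (univ.filter fun x => Near vtx σ m a (vtx x)) = univ.filter fun x => vtx x ∈ nb vtx σ a m := by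
    ext x
    simp [mem_nb]
  rw [h1]
  exact (card_flags_le vtx Δ hΔ _).trans (Nat.mul_le_mul_left _ (card_nb_le vtx Δ hΔ σ a m))

end Count

section Main

variable {V Fl Γ S : Type*} [Fintype Fl] [DecidableEq Fl] [DecidableEq V] [DecidableEq Γ] [DecidableEq S]

/-- `σ` is an admissible partial solution -/
structure Adm (vtx : Fl → V) (g : ℕ) (σ0 : Fl → Fl) (U : Finset Fl) (grp : Fl → Γ) (col : Fl → Fin 3)
    (s : Fl → S) (σ : Fl → Fl) : Prop where
  inv : Function.Involutive σ
  off : ∀ x, x ∉ U → σ x = σ0 x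
  maps : ∀ x ∈ U, σ x ∈ U
  comp : ∀ x ∈ U, σ x ≠ x → grp (σ x) = grp x ∧ col (σ x) ≠ col x ∧ s (σ x) ≠ s x
  noCyc : NoCyc vtx σ g

variable {vtx : Fl → V} {g : ℕ} {σ0 : Fl → Fl} {U : Finset Fl} {grp : Fl → Γ} {col : Fl → Fin 3}
    {s : Fl → S} {σ : Fl → Fl}

theorem Adm.join (h : Adm vtx g σ0 U grp col s σ) {f f' : Fl} (hf : σ f = f) (hf' : σ f' = f') (hne : f ≠ f')
    (hfU : f ∈ U) (hfU' : f' ∈ U) (h1 : grp f = grp f') (h2 : col f ≠ col f') (h3 : s f ≠ s f')
    (hfar : ¬ Near vtx σ g (vtx f) (vtx f')) : Adm vtx g σ0 U grp col s (joinMap σ f f') where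
  inv := joinMap_invol h.inv hf hf' hne
  off := by
    intro x hx
    have e1 : x ≠ f := fun e => hx (e ▸ hfU)
    have e2 : x ≠ f' := fun e => hx (e ▸ hfU')
    simp [joinMap, e1, e2, h.off x hx]
  maps := by
    intro x hx
    unfold joinMap
    split_ifs
    · exact hfU'
    · exact hfU
    · exact h.maps x hx
  comp := by
    intro x hx
    unfold joinMap
    split_ifs with e1 e2
    · subst e1; intro _; exact ⟨h1.symm, h2.symm, h3.symm⟩
    · subst e2; intro _; exact ⟨h1, h2, h3⟩
    · exact h.comp x hx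
  noCyc := noCyc_join h.inv h.noCyc hne hfar

theorem Adm.switch (H : Adm vtx g σ0 U grp col s σ) {f f' h : Fl} (hf : σ f = f) (hf' : σ f' = f')
    (hne : f ≠ f') (hfU : f ∈ U) (hfU' : f' ∈ U) (hhU : h ∈ U) (hh : σ h ≠ h)
    (h1 : grp h = grp f) (h2 : col h ≠ col f) (h3 : s h ≠ s f)
    (h1' : grp f' = grp f) (h2' : col (σ h) ≠ col f') (h3' : s (σ h) ≠ s f')
    (hfar : ∀ x y, (x = f ∨ x = f') → (y = h ∨ y = σ h) → ¬ Near vtx σ g (vtx x) (vtx y)) :
    Adm vtx g σ0 U grp col s (swMap σ f f' h (σ h)) where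
  inv := swMap_invol H.inv hf hf' hne rfl hh.symm
  off := by
    intro x hx
    have e1 : x ≠ f := fun e => hx (e ▸ hfU)
    have e2 : x ≠ f' := fun e => hx (e ▸ hfU')
    have e3 : x ≠ h := fun e => hx (e ▸ hhU)
    have e4 : x ≠ σ h := fun e => hx (e ▸ H.maps h hhU)
    simp [swMap, e1, e2, e3, e4, H.off x hx]
  maps := by
    intro x hx
    unfold swMap
    split_ifs
    · exact hhU
    · exact hfU
    · exact H.maps h hhU
    · exact hfU'
    · exact H.maps x hx
  comp := by
    intro x hx
    have hg := (H.comp h hhU hh).1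
    unfold swMap
    split_ifs with e1 e2 e3 e4
    · subst e1; intro _; exact ⟨h1, h2, h3⟩
    · subst e2; intro _; exact ⟨h1.symm, h2.symm, h3.symm⟩
    · subst e3; intro _; exact ⟨by rw [hg, h1, h1'], h2', h3'⟩
    · subst e4; intro _; exact ⟨by rw [hg, h1, h1'], h2'.symm, h3'.symm⟩
    · exact H.comp x hx
  noCyc := noCyc_switch H.inv H.noCyc hf hf' hne rfl hh.symm hfar

theorem even_matched (H : Adm vtx g σ0 U grp col s σ) (γ : Γ) :
    Even (U.filter fun x => grp x = γ ∧ σ x ≠ x).card := by
  have h1 : ∑ x ∈ U.filter (fun x => grp x = γ ∧ σ x ≠ x), (1 : ZMod 2) = 0 := by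
    refine sum_involution (fun x _ => σ x) ?_ ?_ ?_ ?_
    · intro x hx; decide
    · intro x hx _
      exact (mem_filter.1 hx).2.2
    · intro x hx
      obtain ⟨hxU, hx1, hx2⟩ := mem_filter.1 hx
      rw [mem_filter]
      exact ⟨H.maps x hxU, by rw [(H.comp x hxU hx2).1, hx1], by rw [H.inv]; exact hx2.symm⟩
    · intro x hx; exact H.inv x
  rw [sum_const, nsmul_eq_mul, mul_one] at h1
  exact (ZMod.natCast_eq_zero_iff_even).1 h1

theorem card_image_invol {σ : Fl → Fl} (hσ : Function.Involutive σ) (p : Fl → Prop) [DecidablePred p]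
    (T : Finset Fl) (hT : ∀ x ∈ T, p (σ x)) (q : Finset Fl) (hq : ∀ x ∈ T, σ x ∈ q) :
    T.card ≤ (q.filter p).card := by
  refine card_le_card_of_injOn σ (fun x hx => ?_) hσ.injective.injOn
  rw [mem_coe, mem_filter]
  exact ⟨hq x hx, hT x hx⟩

/-- **Erdős–Sachs matching.** -/
theorem erdos_sachs (vtx : Fl → V) (g Δ : ℕ) (hΔ : ∀ v, (univ.filter fun x => vtx x = v).card ≤ Δ)
    (σ0 : Fl → Fl) (h0 : Function.Involutive σ0) (hg0 : NoCyc vtx σ0 g) (U : Finset Fl)
    (hU : ∀ x ∈ U, σ0 x = x) (grp : Fl → Γ) (col : Fl → Fin 3) (s : Fl → S)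
    (heven : ∀ γ, Even (U.filter fun x => grp x = γ).card)
    (hs : ∀ x ∈ U, (U.filter fun y => grp y = grp x ∧ s y = s x).card ≤ 3)
    (hcol : ∀ x ∈ U, ∀ a, (U.filter fun y => grp y = grp x ∧ col y = a).card +
      (10 * (Δ * (Δ + 1) ^ g) + 20) ≤ (U.filter fun y => grp y = grp x ∧ col y ≠ a).card) :
    ∃ σ : Fl → Fl, Function.Involutive σ ∧ (∀ x, x ∉ U → σ x = σ0 x) ∧
      (∀ x ∈ U, σ x ≠ x ∧ σ x ∈ U ∧ grp (σ x) = grp x ∧ col (σ x) ≠ col x ∧ s (σ x) ≠ s x) ∧
      NoCyc vtx σ g := by
  classical
  set R := Δ * (Δ + 1) ^ g with hR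
  -- a solution with the fewest unmatched flags
  obtain ⟨σ, hσ, hmin⟩ := exists_min_image (univ.filter fun σ : Fl → Fl => Adm vtx g σ0 U grp col s σ)
    (fun σ => (U.filter fun x => σ x = x).card) ⟨σ0, by
      rw [mem_filter]
      exact ⟨mem_univ _, h0, fun _ _ => rfl, fun x hx => by rw [hU x hx]; exact hx,
        fun x hx h => absurd (hU x hx) h, hg0⟩⟩
  have H : Adm vtx g σ0 U grp col s σ := (mem_filter.1 hσ).2
  have hmin' : ∀ σ', Adm vtx g σ0 U grp col s σ' →
      (U.filter fun x => σ x = x).card ≤ (U.filter fun x => σ' x = x).card := fun σ' h =>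
    hmin σ' (by rw [mem_filter]; exact ⟨mem_univ _, h⟩)
  suffices hall : ∀ x ∈ U, σ x ≠ x by
    refine ⟨σ, H.inv, H.off, fun x hx => ?_, H.noCyc⟩
    have h1 := H.comp x hx (hall x hx)
    exact ⟨hall x hx, H.maps x hx, h1.1, h1.2.1, h1.2.2⟩
  intro f hfU hf
  -- another unmatched flag in the same group
  obtain ⟨f', hf'U, hf'g, hf', hne⟩ : ∃ f', f' ∈ U ∧ grp f' = grp f ∧ σ f' = f' ∧ f ≠ f' := by
    by_contra hcon
    push Not at hcon
    have h1 : (U.filter fun x => grp x = grp f ∧ σ x = x) = {f} := by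
      ext x
      rw [mem_filter, mem_singleton]
      refine ⟨fun h => ?_, fun h => by rw [h]; exact ⟨hfU, rfl, hf⟩⟩
      exact (hcon x h.1 h.2.1 h.2.2).symm
    have h2 := even_matched H (grp f)
    have h3 : (U.filter fun x => grp x = grp f).card =
        (U.filter fun x => grp x = grp f ∧ σ x = x).card + (U.filter fun x => grp x = grp f ∧ σ x ≠ x).card := by
      rw [← filter_filter, ← filter_filter, card_filter_add_card_filter_not]
    have h4 := heven (grp f)
    rw [h3, h1, card_singleton] at h4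
    rw [Nat.even_add] at h4
    exact absurd (h4.2 h2) (by decide)
  -- direct matching is impossible
  have hdirect : ∀ x y, x ∈ U → y ∈ U → grp x = grp f → grp y = grp f → σ x = x → σ y = y → x ≠ y →
      col x ≠ col y → s x ≠ s y → Near vtx σ g (vtx x) (vtx y) := by
    intro x y hx hy h1 h2 h3 h4 h5 h6 h7
    by_contra hfar
    have h8 := hmin' _ (H.join h3 h4 h5 hx hy (h1.trans h2.symm) h6 h7 hfar)
    have h9 : (U.filter fun z => joinMap σ x y z = z) ⊆ (U.filter fun z => σ z = z).erase x := by
      intro z hz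
      rw [mem_filter] at hz
      rw [mem_erase, mem_filter]
      have hzx : z ≠ x := by
        intro e
        have := hz.2
        rw [e] at this
        simp [joinMap] at this
        exact h5 this.symm
      have hzy : z ≠ y := by
        intro e
        have := hz.2
        rw [e] at this
        simp [joinMap, h5.symm] at this
        exact h5 this
      refine ⟨hzx, hz.1, ?_⟩
      have := hz.2
      simpa [joinMap, hzx, hzy] using this
    have h10 := card_le_card h9
    have h11 : x ∈ U.filter fun z => σ z = z := by rw [mem_filter]; exact ⟨hx, h3⟩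
    rw [card_erase_of_mem h11] at h10
    have h12 : 0 < (U.filter fun z => σ z = z).card := card_pos.2 ⟨x, h11⟩
    omega
  -- few unmatched flags of another colour
  have hfew : ∀ x ∈ U, grp x = grp f → σ x = x →
      (U.filter fun y => (grp y = grp f ∧ σ y = y) ∧ col y ≠ col x).card ≤ 3 + R := by
    intro x hx h1 h2
    have h3 : (U.filter fun y => (grp y = grp f ∧ σ y = y) ∧ col y ≠ col x) ⊆
        (U.filter fun y => grp y = grp x ∧ s y = s x) ∪ univ.filter fun y => Near vtx σ g (vtx x) (vtx y) := by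
      intro y hy
      rw [mem_filter] at hy
      rw [mem_union, mem_filter, mem_filter]
      by_cases h4 : s y = s x
      · exact Or.inl ⟨hy.1, by rw [hy.2.1.1, h1], h4⟩
      · refine Or.inr ⟨mem_univ _, ?_⟩
        exact hdirect x y hx hy.1 h1 hy.2.1.1 h2 hy.2.1.2 (fun e => hy.2.2 (by rw [e])) (fun e => hy.2.2 e.symm)
          (fun e => h4 e.symm)
    refine (card_le_card h3).trans ((card_union_le _ _).trans ?_)
    exact Nat.add_le_add (hs x hx) (card_near_le vtx Δ hΔ σ (vtx x) g)
  -- good candidates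
  set Gd : Finset Fl := U.filter fun h => (grp h = grp f ∧ σ h ≠ h) ∧ (col h ≠ col f ∧ col (σ h) ≠ col f') with hGd
  have hbadcard : Gd.card ≤ 6 + 4 * R := by
    by_contra hlarge
    push Not at hlarge
    -- pick a good candidate avoiding everything
    obtain ⟨h, hh, hnb⟩ : ∃ h ∈ Gd, h ∉ (U.filter fun y => grp y = grp f ∧ s y = s f) ∪
        ((U.filter fun y => grp y = grp f' ∧ s y = s f').image σ) ∪
        ((univ.filter fun y => Near vtx σ g (vtx f) (vtx y)) ∪ (univ.filter fun y => Near vtx σ g (vtx f') (vtx y))) ∪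
        ((univ.filter fun y => Near vtx σ g (vtx f) (vtx y)).image σ ∪
          (univ.filter fun y => Near vtx σ g (vtx f') (vtx y)).image σ) := by
      apply exists_mem_notMem_of_card_lt_card
      have c1 := hs f hfU
      have c2 := (card_image_le (s := U.filter fun y => grp y = grp f' ∧ s y = s f') (f := σ)).trans (hs f' hf'U)
      have c3 := card_near_le vtx Δ hΔ σ (vtx f) g
      have c4 := card_near_le vtx Δ hΔ σ (vtx f') g
      have c5 := (card_image_le (s := univ.filter fun y => Near vtx σ g (vtx f) (vtx y)) (f := σ)).trans c3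
      have c6 := (card_image_le (s := univ.filter fun y => Near vtx σ g (vtx f') (vtx y)) (f := σ)).trans c4
      refine lt_of_le_of_lt ((card_union_le _ _).trans (Nat.add_le_add ((card_union_le _ _).trans
        (Nat.add_le_add ((card_union_le _ _).trans (Nat.add_le_add c1 c2))
          ((card_union_le _ _).trans (Nat.add_le_add c3 c4))))
        ((card_union_le _ _).trans (Nat.add_le_add c5 c6)))) ?_
      omega
    obtain ⟨hhU, ⟨hhg, hhm⟩, hc1, hc2⟩ := mem_filter.1 hh
    simp only [mem_union, not_or] at hnb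
    obtain ⟨⟨⟨hb1, hb2⟩, hb3, hb4⟩, hb5, hb6⟩ := hnb
    have hs1 : s h ≠ s f := fun e => hb1 (by rw [mem_filter]; exact ⟨hhU, hhg, e⟩)
    have hs2 : s (σ h) ≠ s f' := fun e => hb2 (by
      rw [mem_image]
      refine ⟨σ h, ?_, H.inv h⟩
      rw [mem_filter]
      exact ⟨H.maps h hhU, by rw [(H.comp h hhU hhm).1, hhg, hf'g], e⟩)
    have hn1 : ¬ Near vtx σ g (vtx f) (vtx h) := fun e => hb3 (by rw [mem_filter]; exact ⟨mem_univ _, e⟩)
    have hn2 : ¬ Near vtx σ g (vtx f') (vtx h) := fun e => hb4 (by rw [mem_filter]; exact ⟨mem_univ _, e⟩)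
    have hn3 : ¬ Near vtx σ g (vtx f) (vtx (σ h)) := fun e => hb5 (by
      rw [mem_image]
      exact ⟨σ h, by rw [mem_filter]; exact ⟨mem_univ _, e⟩, H.inv h⟩)
    have hn4 : ¬ Near vtx σ g (vtx f') (vtx (σ h)) := fun e => hb6 (by
      rw [mem_image]
      exact ⟨σ h, by rw [mem_filter]; exact ⟨mem_univ _, e⟩, H.inv h⟩)
    have hsw := hmin' _ (H.switch hf hf' hne hfU hf'U hhU hhm hhg hc1 hs1 hf'g hc2 hs2 (by
      rintro x y (rfl | rfl) (rfl | rfl)
      · exact hn1
      · exact hn3
      · exact hn2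
      · exact hn4))
    have hhf : h ≠ f := fun e => hhm (by rw [e, hf])
    have hhf' : h ≠ f' := fun e => hhm (by rw [e, hf'])
    have h9 : (U.filter fun z => swMap σ f f' h (σ h) z = z) ⊆ (U.filter fun z => σ z = z).erase f := by
      intro z hz
      rw [mem_filter] at hz
      obtain ⟨hzU, hz⟩ := hz
      rw [mem_erase, mem_filter]
      unfold swMap at hz
      split_ifs at hz with e1 e2 e3 e4
      · exact absurd (hz.trans e1) hhf
      · exact absurd (hz.trans e2).symm hhf
      · exfalso
        have h5 : σ h = f' := hz.trans e3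
        apply hhf'
        rw [← H.inv h, h5, hf']
      · exfalso
        have h5 : f' = σ h := hz.trans e4
        apply hhf'
        rw [← H.inv h, ← h5, hf']
      · exact ⟨e1, hzU, hz⟩
    have h10 := card_le_card h9
    have h11 : f ∈ U.filter fun z => σ z = z := by rw [mem_filter]; exact ⟨hfU, hf⟩
    rw [card_erase_of_mem h11] at h10
    have h12 : 0 < (U.filter fun z => σ z = z).card := card_pos.2 ⟨f, h11⟩
    omega
  -- lower bound for Gd
  by_cases hcc : col f = col f'
  · -- same colour
    have k1 := hcol f hfU (col f)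
    -- colour ≠ a : matched or unmatched
    have k2 : (U.filter fun y => grp y = grp f ∧ col y ≠ col f).card ≤
        (U.filter fun y => (grp y = grp f ∧ σ y = y) ∧ col y ≠ col f).card +
        (Gd.card + (U.filter fun y => (grp y = grp f ∧ σ y ≠ y) ∧ (col y ≠ col f ∧ col (σ y) = col f)).card) := by
      have : (U.filter fun y => grp y = grp f ∧ col y ≠ col f) ⊆
        (U.filter fun y => (grp y = grp f ∧ σ y = y) ∧ col y ≠ col f) ∪
        (Gd ∪ (U.filter fun y => (grp y = grp f ∧ σ y ≠ y) ∧ (col y ≠ col f ∧ col (σ y) = col f))) := by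
        intro y hy
        rw [mem_filter] at hy
        rw [mem_union, mem_union, mem_filter, hGd, mem_filter, mem_filter, ← hcc]
        by_cases e1 : σ y = y
        · exact Or.inl ⟨hy.1, ⟨hy.2.1, e1⟩, hy.2.2⟩
        · by_cases e2 : col (σ y) = col f
          · exact Or.inr (Or.inr ⟨hy.1, ⟨hy.2.1, e1⟩, hy.2.2, e2⟩)
          · exact Or.inr (Or.inl ⟨hy.1, ⟨hy.2.1, e1⟩, hy.2.2, e2⟩)
      exact (card_le_card this).trans ((card_union_le _ _).trans (Nat.add_le_add_left (card_union_le _ _) _))
    have k3 : (U.filter fun y => (grp y = grp f ∧ σ y ≠ y) ∧ (col y ≠ col f ∧ col (σ y) = col f)).card ≤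
        (U.filter fun y => grp y = grp f ∧ col y = col f).card := by
      refine card_image_invol H.inv _ _ (fun x hx => ?_) _ (fun x hx => ?_)
      · obtain ⟨hxU, ⟨hx1, hx2⟩, hx3, hx4⟩ := mem_filter.1 hx
        exact ⟨by rw [(H.comp x hxU hx2).1, hx1], hx4⟩
      · exact H.maps x (mem_filter.1 hx).1
    have k4 := hfew f hfU rfl hf
    omega
  · -- different colours
    have k1 := hcol f hfU (col f)
    have k2 : (U.filter fun y => grp y = grp f ∧ col y ≠ col f).card ≤ (U.filter fun y => grp y = grp f).card :=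
      card_le_card fun y hy => by
        rw [mem_filter] at hy ⊢
        exact ⟨hy.1, hy.2.1⟩
    have k3 : (U.filter fun x => grp x = grp f).card =
        (U.filter fun x => grp x = grp f ∧ σ x = x).card + (U.filter fun x => grp x = grp f ∧ σ x ≠ x).card := by
      rw [← filter_filter, ← filter_filter, card_filter_add_card_filter_not]
    have k4 : (U.filter fun x => grp x = grp f ∧ σ x = x).card ≤ (3 + R) + (3 + R) := by
      have : (U.filter fun x => grp x = grp f ∧ σ x = x) ⊆
          (U.filter fun y => (grp y = grp f ∧ σ y = y) ∧ col y ≠ col f) ∪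
          (U.filter fun y => (grp y = grp f ∧ σ y = y) ∧ col y ≠ col f') := by
        intro y hy
        rw [mem_filter] at hy
        rw [mem_union, mem_filter, mem_filter]
        by_cases e : col y = col f
        · exact Or.inr ⟨hy.1, hy.2, fun e' => hcc (e.symm.trans e')⟩
        · exact Or.inl ⟨hy.1, hy.2, e⟩
      exact (card_le_card this).trans ((card_union_le _ _).trans
        (Nat.add_le_add (hfew f hfU rfl hf) (hfew f' hf'U hf'g hf')))
    have k5 : (U.filter fun x => grp x = grp f ∧ σ x ≠ x).card ≤ Gd.card + Gd.card := by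
      have : (U.filter fun x => grp x = grp f ∧ σ x ≠ x) ⊆ Gd ∪ Gd.image σ := by
        intro y hy
        rw [mem_filter] at hy
        obtain ⟨hyU, hyg, hym⟩ := hy
        have hcy := H.comp y hyU hym
        rw [mem_union, mem_image]
        by_cases e : col y ≠ col f ∧ col (σ y) ≠ col f'
        · exact Or.inl (by rw [hGd, mem_filter]; exact ⟨hyU, ⟨hyg, hym⟩, e⟩)
        · refine Or.inr ⟨σ y, ?_, H.inv y⟩
          rw [hGd, mem_filter, H.inv y]
          refine ⟨H.maps y hyU, ⟨by rw [hcy.1, hyg], hym.symm⟩, ?_, ?_⟩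
          · intro e2
            apply e
            refine ⟨fun e3 => hcy.2.1 (e2.trans e3.symm), fun e3 => hcc (e2.symm.trans e3)⟩
          · intro e2
            apply e
            refine ⟨fun e3 => hcc (e3.symm.trans e2), fun e3 => hcy.2.1 (e3.trans e2.symm)⟩
      exact (card_le_card this).trans ((card_union_le _ _).trans (Nat.add_le_add_left card_image_le _))
    omega

end Main

end Crest.Agent.R199
private theorem rz_ea739e1d73 : type_of% @_root_.Crest.Agent.R199.Near.eq_def := @_root_.Crest.Agent.R199.Near.eq_def -- L81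
private theorem rz_e4e4bf117c : type_of% @_root_.Crest.Agent.R199.Near.eq_1 := @_root_.Crest.Agent.R199.Near.eq_1 -- L81
private theorem rz_d023cae367 : type_of% @_root_.Crest.Agent.R199.nb.eq_def := @_root_.Crest.Agent.R199.nb.eq_def -- L359
private theorem rz_a5c074fd8d : type_of% @_root_.Crest.Agent.R199.nb.eq_1 := @_root_.Crest.Agent.R199.nb.eq_1 -- L359
end

-- ▼ part R199/Insert
section

/-!
R199 (S0303), Part I.4 (b): insertion of one correction vertex of large degree.
-/

set_option autoImplicit false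
set_option linter.unusedSectionVars false
set_option linter.unusedVariables false

namespace Crest.Agent.R199.Insert

variable {Fl V : Type*}

section ins

variable {KF : Type*} (σ : Fl → Fl) (M : KF → Prop) (ct : KF → Fl)

open Classical in
/-- the new matching after the insertion: the flag `f` of the new vertex (`M f`) is joined with
the old flag `ct f`. -/
noncomputable def ins : Fl ⊕ KF → Fl ⊕ KF
  | Sum.inl h => if hh : ∃ f, M f ∧ ct f = h then Sum.inr hh.choose else Sum.inl (σ h)
  | Sum.inr f => if M f then Sum.inl (ct f) else Sum.inr f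

/-- vertex map -/
def insV (vtx : Fl → V) : Fl ⊕ KF → Option V
  | Sum.inl h => some (vtx h)
  | Sum.inr _ => none

variable {σ M ct}

lemma ins_inr {f : KF} (hf : M f) : ins σ M ct (Sum.inr f) = Sum.inl (ct f) := by
  simp [ins, hf]

lemma ins_inr_not {f : KF} (hf : ¬ M f) : ins σ M ct (Sum.inr f) = Sum.inr f := by
  simp [ins, hf]

lemma ins_inl_ct (hinj : ∀ f f', M f → M f' → ct f = ct f' → f = f') {f : KF} (hf : M f) :
    ins σ M ct (Sum.inl (ct f)) = Sum.inr f := by
  have hh : ∃ f', M f' ∧ ct f' = ct f := ⟨f, hf, rfl⟩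
  simp only [ins, hh, dif_pos]
  rw [hinj _ _ hh.choose_spec.1 hf hh.choose_spec.2]

lemma ins_inl_not {h : Fl} (hh : ¬ ∃ f, M f ∧ ct f = h) :
    ins σ M ct (Sum.inl h) = Sum.inl (σ h) := by
  simp [ins, hh]

theorem ins_involutive (hσ : Function.Involutive σ)
    (hinj : ∀ f f', M f → M f' → ct f = ct f' → f = f')
    (hclosed : ∀ f, M f → ∃ f', M f' ∧ ct f' = σ (ct f)) :
    Function.Involutive (ins σ M ct) := by
  rintro (h | f)
  · by_cases hh : ∃ f, M f ∧ ct f = h
    · obtain ⟨f, hf, rfl⟩ := hh
      rw [ins_inl_ct hinj hf, ins_inr hf]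
    · rw [ins_inl_not hh]
      have hh' : ¬ ∃ f, M f ∧ ct f = σ h := by
        rintro ⟨f, hf, hfe⟩
        obtain ⟨f', hf', hfe'⟩ := hclosed f hf
        apply hh
        exact ⟨f', hf', by rw [hfe', hfe, hσ]⟩
      rw [ins_inl_not hh', hσ]
  · by_cases hf : M f
    · rw [ins_inr hf, ins_inl_ct hinj hf]
    · rw [ins_inr_not hf, ins_inr_not hf]

/-- The girth is preserved by the insertion. -/
theorem ins_noCyc (vtx : Fl → V) (g : ℕ) (hσ : Function.Involutive σ)
    (hinj : ∀ f f', M f → M f' → ct f = ct f' → f = f')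
    (hne : ∀ f, M f → σ (ct f) ≠ ct f)
    (hcyc : NoCyc vtx σ g) (hclo : NoClosed vtx σ g)
    (hfar : ∀ f f', M f → M f' → ct f' ≠ ct f → ct f' ≠ σ (ct f) → ∀ n, n < g → ∀ d : ℕ → Fl,
      vtx (d 0) = vtx (ct f) → (∀ i < n, vtx (d (i + 1)) = vtx (σ (d i))) →
      vtx (d n) ≠ vtx (ct f')) :
    NoCyc (insV (KF := KF) vtx) (ins σ M ct) g := by
  intro k hk1 hkg c hper hNB
  by_cases hall : ∀ i, ∃ h, c i = Sum.inl h
  · -- the closed walk avoids the new vertex
    choose d hd using hall
    refine hcyc k hk1 hkg d ?_ ?_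
    · intro i
      have := hper i
      rw [hd, hd] at this
      exact Sum.inl_injective this
    · intro i
      have h := hNB i
      rw [hd, hd] at h
      have hnot : ¬ ∃ f, M f ∧ ct f = d i := by
        rintro ⟨f, hf, hfe⟩
        rw [← hfe, NB, ins_inl_ct hinj hf] at h
        simp [insV] at h
      rw [NB, ins_inl_not hnot] at h
      refine ⟨fun h' => h.1 (by rw [h']), ?_, fun h' => h.2.2 (by rw [h'])⟩
      have := h.2.1
      simp only [insV, Option.some.injEq] at this
      exact this
  · push Not at hall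
    obtain ⟨i0, hi0⟩ := hall
    -- shift
    obtain ⟨f0, hf0⟩ : ∃ f0, c i0 = Sum.inr f0 := by
      rcases hc : c i0 with h | f
      · exact absurd hc (hi0 h)
      · exact ⟨f, rfl⟩
    set e : ℕ → Fl ⊕ KF := fun i => c (i0 + i) with he
    have he0 : e 0 = Sum.inr f0 := by simpa [he] using hf0
    have hek : e k = Sum.inr f0 := by
      simp only [he]; rw [hper]; exact hf0
    have heNB : ∀ i, NB (insV vtx) (ins σ M ct) (e i) (e (i + 1)) := fun i => hNB (i0 + i)
    -- the first return
    classical
    have hex : ∃ j, 1 ≤ j ∧ ∃ f, e j = Sum.inr f := ⟨k, hk1, f0, hek⟩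
    obtain ⟨hj1, fj, hfj⟩ := Nat.find_spec hex
    set j := Nat.find hex with hj
    have hjk : j ≤ k := Nat.find_min' hex ⟨hk1, f0, hek⟩
    have hmin : ∀ i, 1 ≤ i → i < j → ∃ h, e i = Sum.inl h := by
      intro i hi1 hij
      rcases hc : e i with h | f
      · exact ⟨h, rfl⟩
      · exact absurd ⟨hi1, f, hc⟩ (Nat.find_min hex hij)
    -- start
    have h0 := heNB 0
    rw [he0] at h0
    have hM0 : M f0 := by
      by_contra hn
      exact h0.1 (ins_inr_not hn)
    rw [NB, ins_inr hM0, zero_add] at h0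
    obtain ⟨-, h0v, h0n⟩ := h0
    let d : ℕ → Fl := fun i => Sum.elim id (fun _ => ct f0) (e i)
    have hed : ∀ i, 1 ≤ i → i < j → e i = Sum.inl (d i) := by
      intro i hi1 hij
      obtain ⟨h, hh⟩ := hmin i hi1 hij
      simp only [d, hh, Sum.elim_inl, id]
    have he1 : e 1 = Sum.inl (d 1) := by
      rcases hc : e 1 with h | f
      · simp only [d, hc, Sum.elim_inl, id]
      · rw [hc] at h0v
        simp [insV] at h0v
    have hd1v : vtx (d 1) = vtx (ct f0) := by
      rw [he1] at h0v
      simpa [insV] using h0v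
    have hd1n : d 1 ≠ ct f0 := by
      intro h
      apply h0n
      rw [he1, h]
    have hj2 : 2 ≤ j := by
      rcases Nat.lt_or_ge 1 j with h | h
      · exact h
      · have : j = 1 := le_antisymm h hj1
        rw [this, he1] at hfj
        exact absurd hfj (by simp)
    -- middle
    have hmid : ∀ i, 1 ≤ i → i + 1 < j → NB vtx σ (d i) (d (i + 1)) := by
      intro i hi1 hij
      have h := heNB i
      rw [hed i hi1 (by omega), hed (i + 1) (by omega) hij] at h
      have hnot : ¬ ∃ f, M f ∧ ct f = d i := by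
        rintro ⟨f, hf, hfe⟩
        rw [← hfe, NB, ins_inl_ct hinj hf] at h
        simp [insV] at h
      rw [NB, ins_inl_not hnot] at h
      refine ⟨fun h' => h.1 (by rw [h']), ?_, fun h' => h.2.2 (by rw [h'])⟩
      have := h.2.1
      simp only [insV, Option.some.injEq] at this
      exact this
    -- end
    obtain ⟨l, hl⟩ : ∃ l, j = l + 2 := ⟨j - 2, by omega⟩
    have hend := heNB (l + 1)
    rw [show l + 1 + 1 = j by omega, hfj, hed (l + 1) (by omega) (by omega)] at hend
    have hcut : ∃ f, M f ∧ ct f = d (l + 1) := by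
      by_contra hnot
      rw [NB, ins_inl_not hnot] at hend
      simp [insV] at hend
    obtain ⟨f1, hM1, hf1⟩ := hcut
    -- the three cases
    by_cases hc1 : ct f1 = ct f0
    · -- closed walk `d 1, ..., d l`
      have hl1 : 1 ≤ l := by
        rcases Nat.eq_zero_or_pos l with h | h
        · subst h
          exact absurd (hf1 ▸ hc1) hd1n
        · exact h
      obtain ⟨m, rfl⟩ : ∃ m, l = m + 1 := ⟨l - 1, by omega⟩
      refine hclo m (by omega) (fun i => d (i + 1)) (fun i hi => hmid (i + 1) (by omega) (by omega))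
        (hmid (m + 1) (by omega) (by omega)).1 ?_
      have := (hmid (m + 1) (by omega) (by omega)).2.1
      rw [← this, ← hf1, hc1]
      exact hd1v.symm
    · by_cases hc2 : ct f1 = σ (ct f0)
      · -- closed walk `ct f1, d 1, ..., d l`
        let u : ℕ → Fl := fun i => if i = 0 then ct f1 else d i
        have hu0 : u 0 = ct f1 := by simp [u]
        have hus : ∀ i, u (i + 1) = d (i + 1) := by intro i; simp [u]
        have hσ1 : σ (ct f1) = ct f0 := by rw [hc2, hσ]
        refine hclo l (by omega) u ?_ ?_ ?_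
        · intro i hi
          rcases Nat.eq_zero_or_pos i with h | h
          · subst h
            rw [hu0, hus, zero_add]
            exact ⟨hne f1 hM1, by rw [hσ1]; exact hd1v, by rw [hσ1]; exact hd1n⟩
          · obtain ⟨i', rfl⟩ : ∃ i', i = i' + 1 := ⟨i - 1, by omega⟩
            rw [hus, hus]
            exact hmid (i' + 1) (by omega) (by omega)
        · rcases Nat.eq_zero_or_pos l with h | h
          · subst h
            rw [hu0]; exact hne f1 hM1
          · obtain ⟨l', rfl⟩ : ∃ i', l = i' + 1 := ⟨l - 1, by omega⟩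
            rw [hus]
            exact (hmid (l' + 1) (by omega) (by omega)).1
        · rw [hu0]
          rcases Nat.eq_zero_or_pos l with h | h
          · subst h
            rw [hu0, hσ1, ← hd1v, hf1, zero_add]
          · obtain ⟨l', rfl⟩ : ∃ i', l = i' + 1 := ⟨l - 1, by omega⟩
            rw [hus, ← (hmid (l' + 1) (by omega) (by omega)).2.1, hf1]
      · refine hfar f0 f1 hM0 hM1 hc1 hc2 l (by omega) (fun i => d (i + 1)) (by simpa using hd1v)
          ?_ ?_
        · intro i hi
          exact (hmid (i + 1) (by omega) (by omega)).2.1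
        · simp only [hf1]

end ins

end Crest.Agent.R199.Insert
private theorem rz_ea0a97875b : type_of% @_root_.Crest.Agent.R199.Insert.ins.eq_1 := @_root_.Crest.Agent.R199.Insert.ins.eq_1 -- L22
private theorem rz_0314c4c918 : type_of% @_root_.Crest.Agent.R199.Insert.insV.eq_1 := @_root_.Crest.Agent.R199.Insert.insV.eq_1 -- L27
end

-- ▼ part R199/H24_IT
section

/-!
Independent transversals by counting (Rosenfeld's method): parts of size at least `4 Δ`, where every
vertex has at most `Δ` neighbours in the union of the parts, admit an independent transversal.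
-/

namespace Crest.Agent.R199.IT

open Finset

variable {ι α : Type*} [Fintype ι] [DecidableEq ι] [DecidableEq α]

set_option linter.unusedSectionVars false

/-- partial independent transversals on `A`, completed by `e` outside `A`. -/
noncomputable def T (adj : α → α → Prop) (part : ι → Finset α) (e : ι → α) (A : Finset ι) :
    Finset (ι → α) := by
  classical
  exact (Fintype.piFinset (fun i => if i ∈ A then part i else {e i})).filter
    (fun f => ∀ i ∈ A, ∀ j ∈ A, i ≠ j → ¬ adj (f i) (f j))

lemma mem_T {adj : α → α → Prop} {part : ι → Finset α} {e : ι → α} {A : Finset ι} {f : ι → α} :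
    f ∈ T adj part e A ↔ (∀ i ∈ A, f i ∈ part i) ∧ (∀ i, i ∉ A → f i = e i) ∧
      ∀ i ∈ A, ∀ j ∈ A, i ≠ j → ¬ adj (f i) (f j) := by
  classical
  unfold T
  simp only [mem_filter, Fintype.mem_piFinset]
  constructor
  · rintro ⟨h, h'⟩
    refine ⟨fun i hi => ?_, fun i hi => ?_, h'⟩
    · simpa [hi] using h i
    · simpa [hi] using h i
  · rintro ⟨h, h', h''⟩
    refine ⟨fun i => ?_, h''⟩
    by_cases hi : i ∈ A
    · simpa [hi] using h i hi
    · simpa [hi] using h' i hi

/-- number of transversals taking a given value at `i` -/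
lemma card_fiber_le (adj : α → α → Prop) (part : ι → Finset α) (e : ι → α) (A : Finset ι)
    (i : ι) (u : α) :
    ((T adj part e A).filter (fun f => f i = u)).card ≤ (T adj part e (A.erase i)).card := by
  classical
  apply Finset.card_le_card_of_injOn (fun f => Function.update f i (e i))
  · intro f hf
    rw [mem_coe, mem_filter, mem_T] at hf
    obtain ⟨⟨h1, h2, h3⟩, h4⟩ := hf
    rw [mem_coe, mem_T]
    beta_reduce
    refine ⟨fun k hk => ?_, fun k hk => ?_, fun k hk l hl hkl => ?_⟩
    · rw [Finset.mem_erase] at hk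
      rw [Function.update_of_ne hk.1]
      exact h1 k hk.2
    · by_cases hki : k = i
      · subst hki; simp
      · rw [Function.update_of_ne hki]
        apply h2
        intro hkA
        exact hk (Finset.mem_erase.2 ⟨hki, hkA⟩)
    · rw [Finset.mem_erase] at hk hl
      rw [Function.update_of_ne hk.1, Function.update_of_ne hl.1]
      exact h3 k hk.2 l hl.2 hkl
  · intro f hf g hg hfg
    rw [mem_coe, mem_filter] at hf hg
    funext k
    by_cases hki : k = i
    · subst hki; rw [hf.2, hg.2]
    · have := congrFun hfg k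
      simpa [Function.update_of_ne hki] using this

theorem step (adj : α → α → Prop) (hsymm : ∀ a b, adj a b → adj b a)
    (part : ι → Finset α) (e : ι → α) (Δ : ℕ) (hcard : ∀ i, 4 * Δ ≤ (part i).card)
    (hdeg : ∀ j, ∀ v ∈ part j,
      ∀ S : Finset (ι × α), (∀ x ∈ S, x.1 ≠ j ∧ x.2 ∈ part x.1 ∧ adj x.2 v) → S.card ≤ Δ) :
    ∀ (n : ℕ) (A : Finset ι), A.card = n → ∀ j, j ∉ A →
      (part j).card * (T adj part e A).card ≤ 2 * (T adj part e (insert j A)).card := by
  classical
  intro n
  induction n using Nat.strong_induction_on with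
  | _ n ih =>
  intro A hA j hj
  -- all pairs, good pairs and bad pairs
  set all : Finset ((ι → α) × α) := (T adj part e A) ×ˢ (part j) with hall
  set bad : Finset ((ι → α) × α) := all.filter (fun x => ∃ i ∈ A, adj (x.1 i) x.2) with hbad
  set good : Finset ((ι → α) × α) := all.filter (fun x => ¬ ∃ i ∈ A, adj (x.1 i) x.2) with hgood
  have hsum : bad.card + good.card = all.card :=
    Finset.card_filter_add_card_filter_not (s := all) (fun x => ∃ i ∈ A, adj (x.1 i) x.2)
  have hallcard : all.card = (T adj part e A).card * (part j).card := Finset.card_product _ _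
  -- good pairs extend
  have hgoodle : good.card ≤ (T adj part e (insert j A)).card := by
    apply Finset.card_le_card_of_injOn (fun x => Function.update x.1 j x.2)
    · intro x hx
      rw [mem_coe, hgood, mem_filter, hall, mem_product, mem_T] at hx
      obtain ⟨⟨⟨h1, h2, h3⟩, h4⟩, h5⟩ := hx
      rw [mem_coe, mem_T]
      beta_reduce
      refine ⟨fun k hk => ?_, fun k hk => ?_, fun k hk l hl hkl => ?_⟩
      · by_cases hkj : k = j
        · subst hkj; simpa using h4
        · rw [Function.update_of_ne hkj]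
          exact h1 k ((Finset.mem_insert.1 hk).resolve_left hkj)
      · have hkj : k ≠ j := fun h => hk (h ▸ Finset.mem_insert_self _ _)
        rw [Function.update_of_ne hkj]
        exact h2 k (fun h => hk (Finset.mem_insert_of_mem h))
      · by_cases hkj : k = j
        · subst hkj
          have hlA : l ∈ A := (Finset.mem_insert.1 hl).resolve_left (fun h => hkl h.symm)
          rw [Function.update_self, Function.update_of_ne (fun h => hkl h.symm)]
          intro hh
          exact h5 ⟨l, hlA, hsymm _ _ hh⟩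
        · have hkA : k ∈ A := (Finset.mem_insert.1 hk).resolve_left hkj
          by_cases hlj : l = j
          · subst hlj
            rw [Function.update_self, Function.update_of_ne hkj]
            intro hh
            exact h5 ⟨k, hkA, hh⟩
          · have hlA : l ∈ A := (Finset.mem_insert.1 hl).resolve_left hlj
            rw [Function.update_of_ne hkj, Function.update_of_ne hlj]
            exact h3 k hkA l hlA hkl
    · intro x hx y hy hxy
      rw [mem_coe, hgood, mem_filter, hall, mem_product, mem_T] at hx hy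
      have hv : x.2 = y.2 := by
        have := congrFun hxy j
        simpa using this
      have hf : x.1 = y.1 := by
        funext k
        by_cases hkj : k = j
        · subst hkj
          rw [hx.1.1.2.1 _ hj, hy.1.1.2.1 _ hj]
        · have := congrFun hxy k
          simpa [Function.update_of_ne hkj] using this
      exact Prod.ext hf hv
  -- bad pairs are few
  have hbadle : 2 * bad.card ≤ (part j).card * (T adj part e A).card := by
    -- fibre over v
    have h1 : bad.card ≤ ∑ v ∈ part j, ((T adj part e A).filter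
        (fun f => ∃ i ∈ A, adj (f i) v)).card := by
      have hsub : bad ⊆ (part j).biUnion (fun v =>
          ((T adj part e A).filter (fun f => ∃ i ∈ A, adj (f i) v)).image (fun f => (f, v))) := by
        intro x hx
        rw [hbad, mem_filter, hall, mem_product] at hx
        rw [mem_biUnion]
        refine ⟨x.2, hx.1.2, ?_⟩
        rw [mem_image]
        exact ⟨x.1, mem_filter.2 ⟨hx.1.1, hx.2⟩, rfl⟩
      refine (Finset.card_le_card hsub).trans (Finset.card_biUnion_le.trans ?_)
      exact Finset.sum_le_sum fun v _ => Finset.card_image_le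
    have h2 : ∀ v ∈ part j, 2 * ((T adj part e A).filter
        (fun f => ∃ i ∈ A, adj (f i) v)).card ≤ (T adj part e A).card := by
      intro v hv
      set S : Finset (ι × α) := (A ×ˢ (A.biUnion part)).filter
        (fun x => x.2 ∈ part x.1 ∧ adj x.2 v) with hS
      have hScard : S.card ≤ Δ := by
        apply hdeg j v hv
        intro x hx
        rw [hS, mem_filter, mem_product] at hx
        exact ⟨fun h => hj (h ▸ hx.1.1), hx.2.1, hx.2.2⟩
      have hsub : (T adj part e A).filter (fun f => ∃ i ∈ A, adj (f i) v) ⊆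
          S.biUnion (fun x => (T adj part e A).filter (fun f => f x.1 = x.2)) := by
        intro f hf
        rw [mem_filter] at hf
        obtain ⟨hfT, i, hi, hadj⟩ := hf
        rw [mem_biUnion]
        have hfi : f i ∈ part i := (mem_T.1 hfT).1 i hi
        refine ⟨(i, f i), ?_, mem_filter.2 ⟨hfT, rfl⟩⟩
        rw [hS, mem_filter, mem_product]
        exact ⟨⟨hi, mem_biUnion.2 ⟨i, hi, hfi⟩⟩, hfi, hadj⟩
      have h3 : ((T adj part e A).filter (fun f => ∃ i ∈ A, adj (f i) v)).card ≤
          ∑ x ∈ S, (T adj part e (A.erase x.1)).card := by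
        refine (Finset.card_le_card hsub).trans (Finset.card_biUnion_le.trans ?_)
        exact Finset.sum_le_sum fun x _ => card_fiber_le adj part e A x.1 x.2
      rcases Nat.eq_zero_or_pos Δ with hΔ | hΔ
      · have : S = ∅ := by
          rw [← Finset.card_eq_zero]; omega
        rw [this] at h3
        simp only [Finset.sum_empty, Nat.le_zero] at h3
        rw [h3]; simp
      · have h4 : ∀ x ∈ S, 2 * Δ * (T adj part e (A.erase x.1)).card ≤ (T adj part e A).card := by
          intro x hx
          rw [hS, mem_filter, mem_product] at hx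
          have hxA : x.1 ∈ A := hx.1.1
          have hlt : (A.erase x.1).card < n := by
            rw [← hA]; exact Finset.card_erase_lt_of_mem hxA
          have := ih _ hlt (A.erase x.1) rfl x.1 (Finset.notMem_erase _ _)
          rw [Finset.insert_erase hxA] at this
          have h5 : 4 * Δ * (T adj part e (A.erase x.1)).card ≤
              (part x.1).card * (T adj part e (A.erase x.1)).card :=
            Nat.mul_le_mul_right _ (hcard x.1)
          nlinarith
        have h5 : 2 * Δ * ∑ x ∈ S, (T adj part e (A.erase x.1)).card ≤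
            Δ * (T adj part e A).card := by
          rw [Finset.mul_sum]
          calc ∑ x ∈ S, 2 * Δ * (T adj part e (A.erase x.1)).card
              ≤ ∑ _x ∈ S, (T adj part e A).card := Finset.sum_le_sum h4
            _ = S.card * (T adj part e A).card := by simp
            _ ≤ Δ * (T adj part e A).card := Nat.mul_le_mul_right _ hScard
        have h6 : Δ * (2 * ((T adj part e A).filter (fun f => ∃ i ∈ A, adj (f i) v)).card) ≤
            Δ * (T adj part e A).card := by
          calc Δ * (2 * ((T adj part e A).filter (fun f => ∃ i ∈ A, adj (f i) v)).card)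
              = 2 * Δ * ((T adj part e A).filter (fun f => ∃ i ∈ A, adj (f i) v)).card := by ring
            _ ≤ 2 * Δ * ∑ x ∈ S, (T adj part e (A.erase x.1)).card := Nat.mul_le_mul_left _ h3
            _ ≤ Δ * (T adj part e A).card := h5
        exact Nat.le_of_mul_le_mul_left h6 hΔ
    calc 2 * bad.card ≤ 2 * ∑ v ∈ part j, ((T adj part e A).filter
          (fun f => ∃ i ∈ A, adj (f i) v)).card := Nat.mul_le_mul_left _ h1
      _ = ∑ v ∈ part j, 2 * ((T adj part e A).filter
          (fun f => ∃ i ∈ A, adj (f i) v)).card := by rw [Finset.mul_sum]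
      _ ≤ ∑ _v ∈ part j, (T adj part e A).card := Finset.sum_le_sum h2
      _ = (part j).card * (T adj part e A).card := by simp
  have : (T adj part e A).card * (part j).card = (part j).card * (T adj part e A).card := by ring
  omega

theorem T_nonempty (adj : α → α → Prop) (hsymm : ∀ a b, adj a b → adj b a)
    (part : ι → Finset α) (e : ι → α) (Δ : ℕ) (hne : ∀ i, (part i).Nonempty)
    (hcard : ∀ i, 4 * Δ ≤ (part i).card)
    (hdeg : ∀ j, ∀ v ∈ part j,
      ∀ S : Finset (ι × α), (∀ x ∈ S, x.1 ≠ j ∧ x.2 ∈ part x.1 ∧ adj x.2 v) → S.card ≤ Δ)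
    (A : Finset ι) : 0 < (T adj part e A).card := by
  classical
  induction A using Finset.induction_on with
  | empty =>
    rw [Finset.card_pos]
    exact ⟨e, mem_T.2 ⟨by simp, by simp, by simp⟩⟩
  | insert j A hj ih =>
    have := step adj hsymm part e Δ hcard hdeg _ A rfl j hj
    have h1 : 0 < (part j).card := Finset.card_pos.2 (hne j)
    have h2 : 0 < (part j).card * (T adj part e A).card := Nat.mul_pos h1 ih
    omega

/-- **Independent transversal**, general form: no disjointness of the parts is needed, the degree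
condition is counted with multiplicity (pairs (index of another part, neighbour in that part)). -/
theorem exists_transversal' (adj : α → α → Prop) (hsymm : ∀ a b, adj a b → adj b a)
    (part : ι → Finset α) (Δ : ℕ) (hne : ∀ i, (part i).Nonempty)
    (hcard : ∀ i, 4 * Δ ≤ (part i).card)
    (hdeg : ∀ j, ∀ v ∈ part j,
      ∀ S : Finset (ι × α), (∀ x ∈ S, x.1 ≠ j ∧ x.2 ∈ part x.1 ∧ adj x.2 v) → S.card ≤ Δ) :
    ∃ f : ι → α, (∀ i, f i ∈ part i) ∧ ∀ i j, i ≠ j → ¬ adj (f i) (f j) := by
  classical
  choose e he using hne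
  have hne' : ∀ i, (part i).Nonempty := fun i => ⟨e i, he i⟩
  obtain ⟨f, hf⟩ := Finset.card_pos.1
    (T_nonempty adj hsymm part e Δ hne' hcard hdeg Finset.univ)
  rw [mem_T] at hf
  exact ⟨f, fun i => hf.1 i (mem_univ _), fun i j hij => hf.2.2 i (mem_univ _) j (mem_univ _) hij⟩

/-- **Independent transversal**, disjoint parts: every vertex has at most `Δ` neighbours
(in the union of the other parts). -/
theorem exists_transversal (adj : α → α → Prop) (hsymm : ∀ a b, adj a b → adj b a)
    (part : ι → Finset α) (hdisj : ∀ i j, i ≠ j → Disjoint (part i) (part j))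
    (Δ : ℕ) (hne : ∀ i, (part i).Nonempty)
    (hcard : ∀ i, 4 * Δ ≤ (part i).card)
    (hdeg : ∀ j, ∀ v ∈ part j,
      ∀ S : Finset α, (∀ x ∈ S, adj x v ∧ ∃ i, i ≠ j ∧ x ∈ part i) → S.card ≤ Δ) :
    ∃ f : ι → α, (∀ i, f i ∈ part i) ∧ ∀ i j, i ≠ j → ¬ adj (f i) (f j) := by
  classical
  apply exists_transversal' adj hsymm part Δ hne hcard
  intro j v hv S hS
  have hinj : Set.InjOn Prod.snd (S : Set (ι × α)) := by
    intro x hx y hy hxy
    have hx' := hS x hx
    have hy' := hS y hy
    refine Prod.ext ?_ hxy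
    by_contra hne1
    have := hdisj _ _ hne1
    rw [Finset.disjoint_left] at this
    exact this hx'.2.1 (hxy ▸ hy'.2.1)
  rw [← Finset.card_image_of_injOn hinj]
  apply hdeg j v hv
  intro a ha
  rw [mem_image] at ha
  obtain ⟨x, hx, rfl⟩ := ha
  exact ⟨(hS x hx).2.2, x.1, (hS x hx).1, (hS x hx).2.1⟩


end Crest.Agent.R199.IT
end

-- ▼ part R199/GadgetCon

/-! Part I (S1 version): construction of the gadgets. -/

set_option autoImplicit false
set_option linter.unusedSectionVars false
set_option linter.unusedVariables false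

namespace Crest.Agent.R199

open Finset

/-- orientation of the cut edge -/
lemma exists_pick (A : Finset (Fin 3)) (hA : A.card = 0 ∨ A.card = 2) (c1 c2 : Fin 3)
    (hc : c1 ≠ c2) :
    ∃ pick : Fin 3 → Bool, (∀ k ∈ A, (bif pick k then c1 else c2) ≠ k) ∧
      (∀ k ∈ A, ∃ k' ∈ A, pick k' ≠ pick k) ∧
      (∀ k ∈ A, ∀ k' ∈ A, pick k = pick k' → k = k') := by
  rcases hA with hA | hA
  · rw [card_eq_zero] at hA
    subst hA
    exact ⟨fun _ => true, by simp, by simp, by simp⟩
  · obtain ⟨k, k', hkk, rfl⟩ := card_eq_two.1 hA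
    have h : (c1 ≠ k ∧ c2 ≠ k') ∨ (c2 ≠ k ∧ c1 ≠ k') := by
      revert c1 c2 k k'
      decide
    rcases h with ⟨h1, h2⟩ | ⟨h1, h2⟩
    · refine ⟨fun i => decide (i = k), ?_, ?_, ?_⟩
      · intro i hi
        rcases mem_insert.1 hi with rfl | hi
        · simpa using h1
        · rw [mem_singleton] at hi
          subst hi
          simpa [Ne.symm hkk] using h2
      · intro i hi
        rcases mem_insert.1 hi with rfl | hi
        · exact ⟨k', by simp, by simp [Ne.symm hkk]⟩
        · rw [mem_singleton] at hi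
          subst hi
          exact ⟨k, by simp, by simp [Ne.symm hkk]⟩
      · intro i hi i' hi' h
        simp only [mem_insert, mem_singleton] at hi hi'
        rcases hi with rfl | rfl <;> rcases hi' with rfl | rfl
        · rfl
        · simp [Ne.symm hkk] at h
        · simp [Ne.symm hkk] at h
        · rfl
    · refine ⟨fun i => decide (i = k'), ?_, ?_, ?_⟩
      · intro i hi
        rcases mem_insert.1 hi with rfl | hi
        · simpa [hkk] using h1
        · rw [mem_singleton] at hi
          subst hi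
          simpa using h2
      · intro i hi
        rcases mem_insert.1 hi with rfl | hi
        · exact ⟨k', by simp, by simp [hkk]⟩
        · rw [mem_singleton] at hi
          subst hi
          exact ⟨k, by simp, by simp [hkk]⟩
      · intro i hi i' hi' h
        simp only [mem_insert, mem_singleton] at hi hi'
        rcases hi with rfl | rfl <;> rcases hi' with rfl | rfl
        · rfl
        · simp [hkk] at h
        · simp [hkk] at h
        · rfl

lemma ones_even : ∀ f : Fin 3 → ZMod 2, ∑ k, f k = 0 →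
    (univ.filter fun k => f k = 1).card = 0 ∨ (univ.filter fun k => f k = 1).card = 2 := by
  decide

lemma ones_odd : ∀ f : Fin 3 → ZMod 2, ∑ k, f k = 1 → ∃ k0, f k0 = 1 ∧
    ((univ.filter fun k => f k = 1 ∧ k ≠ k0).card = 0 ∨
      (univ.filter fun k => f k = 1 ∧ k ≠ k0).card = 2) := by
  decide

/-- independent transversal -/
theorem indep_transversal {ι α : Type} [Fintype ι] [DecidableEq ι] [Fintype α] [DecidableEq α]
    (part : ι → Finset α) (adj : α → α → Prop)
    (hsymm : ∀ a b, adj a b → adj b a) (Δ : ℕ) (hΔ : 0 < Δ)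
    (hdeg : ∀ a, {b | adj a b}.ncard ≤ Δ)
    (hdisj : ∀ i j, i ≠ j → Disjoint (part i) (part j))
    (hpart : ∀ i, 4 * Δ ≤ (part i).card) :
    ∃ f : ι → α, (∀ i, f i ∈ part i) ∧ ∀ i j, i ≠ j → ¬ adj (f i) (f j) := by
  classical
  refine IT.exists_transversal adj hsymm part hdisj Δ
    (fun i => card_pos.1 (by have := hpart i; omega)) hpart ?_
  intro j v _ S hS
  refine le_trans ?_ (hdeg v)
  rw [← Set.ncard_coe_finset]
  exact Set.ncard_le_ncard (fun x hx => hsymm _ _ (hS x hx).1) (Set.toFinite _)

/-- vertex of a bulk flag -/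
def vtxB {P Z E S : Type} (t : Z × Fin 3 → P) (b : S → P → E) (f : (Z × Fin 3) × S) : E × S :=
  (b f.2 (t f.1), f.2)

/-- the point of a flag -/
def idx {Z S : Type} : ((Z × Fin 3) × S) ⊕ (Z × Fin 3) → Z × Fin 3
  | Sum.inl f => f.1
  | Sum.inr j => j

section one

variable {P Z E S : Type} [Fintype P] [Fintype Z] [Fintype E] [Fintype S] [DecidableEq Z]
  [DecidableEq E] [DecidableEq S]

lemma card_vtxB_le (t : Z × Fin 3 → P) (t_inj : Function.Injective t) (b : S → P → E) (q : ℕ)
    (line_card : ∀ s w, (univ.filter fun p : P => b s p = w).card ≤ q) (v : E × S) :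
    (univ.filter fun f => vtxB t b f = v).card ≤ q := by
  refine le_trans ?_ (line_card v.2 v.1)
  refine card_le_card_of_injOn (fun f => t f.1) ?_ ?_
  · intro f hf
    rw [mem_coe, mem_filter] at hf ⊢
    obtain ⟨-, hf⟩ := hf
    unfold vtxB at hf
    refine ⟨mem_univ _, ?_⟩
    rw [← hf]
  · intro f hf f' hf' h
    rw [mem_coe, mem_filter] at hf hf'
    have h1 := t_inj h
    have h2 := hf.2
    have h3 := hf'.2
    unfold vtxB at h2 h3
    have h4 : f.2 = f'.2 := by
      have := congrArg Prod.snd (h2.trans h3.symm)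
      exact this
    exact Prod.ext h1 h4

/-- bulk matching -/
lemma exists_bulk (t : Z × Fin 3 → P) (t_inj : Function.Injective t) (b : S → P → E) (q g : ℕ)
    (line_card : ∀ s w, (univ.filter fun p : P => b s p = w).card ≤ q)
    (even_S : Even (Fintype.card S)) (big : 10 * (q * (q + 1) ^ g) + 20 ≤ Fintype.card S) :
    ∃ σ : (Z × Fin 3) × S → (Z × Fin 3) × S, Function.Involutive σ ∧
      (∀ f, σ f ≠ f ∧ (σ f).1.1 = f.1.1 ∧ (σ f).1.2 ≠ f.1.2 ∧ (σ f).2 ≠ f.2) ∧
      NoCyc (vtxB t b) σ g := by
  have hcol : ∀ (z : Z) (p : Fin 3 → Prop) [DecidablePred p],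
      (univ.filter fun f : (Z × Fin 3) × S => f.1.1 = z ∧ p f.1.2).card =
        (univ.filter p).card * Fintype.card S := by
    intro z p _
    have : (univ.filter fun f : (Z × Fin 3) × S => f.1.1 = z ∧ p f.1.2) =
        ((univ.filter p) ×ˢ (univ : Finset S)).map
          ⟨fun x => ((z, x.1), x.2), by
            intro x y h
            simp only [Prod.mk.injEq, true_and] at h
            exact Prod.ext h.1 h.2⟩ := by
      ext ⟨⟨z', k⟩, s⟩
      simp only [mem_filter, mem_univ, true_and, mem_map, mem_product, and_true, Prod.exists]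
      constructor
      · rintro ⟨rfl, hk⟩
        exact ⟨k, s, hk, rfl⟩
      · rintro ⟨k', s', hk, h⟩
        change ((z, k'), s') = ((z', k), s) at h
        simp only [Prod.mk.injEq] at h
        obtain ⟨⟨rfl, rfl⟩, rfl⟩ := h
        exact ⟨rfl, hk⟩
    rw [this, card_map, card_product, card_univ]
  have hc1 : ∀ a : Fin 3, (univ.filter fun k : Fin 3 => k = a).card = 1 := by decide
  have hc2 : ∀ a : Fin 3, (univ.filter fun k : Fin 3 => k ≠ a).card = 2 := by decide
  obtain ⟨σ, h1, -, h3, h4⟩ := erdos_sachs (vtxB t b) g q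
    (card_vtxB_le t t_inj b q line_card) id (fun x => rfl)
    (fun k _ _ c _ h => (h 0).1 rfl) univ (fun x _ => rfl) (fun f => f.1.1) (fun f => f.1.2)
    (fun f => f.2)
    (by
      intro z
      have := hcol z (fun _ => True)
      simp only [and_true] at this
      rw [this]
      exact Even.mul_left even_S _)
    (by
      rintro ⟨⟨z, k⟩, s⟩ -
      refine le_trans (card_le_card_of_injOn (t := univ) (fun f : (Z × Fin 3) × S => f.1.2)
        (fun f _ => mem_coe.2 (mem_univ _)) ?_) (le_of_eq (by rw [card_univ, Fintype.card_fin]))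
      rintro ⟨⟨z', k'⟩, s'⟩ hf ⟨⟨z'', k''⟩, s''⟩ hf' h
      simp only [mem_coe, mem_filter, mem_univ, true_and] at hf hf' h
      obtain ⟨rfl, rfl⟩ := hf
      obtain ⟨rfl, rfl⟩ := hf'
      subst h
      rfl)
    (by
      rintro ⟨⟨z, k⟩, s⟩ - a
      have e1 := hcol z (fun k => k = a)
      have e2 := hcol z (fun k => k ≠ a)
      simp only at e1 e2 ⊢
      rw [e1, e2]
      rw [hc1 a, hc2 a]
      omega)
  exact ⟨σ, h1, fun f => ⟨(h3 f (mem_univ _)).1, (h3 f (mem_univ _)).2.2.1,
    (h3 f (mem_univ _)).2.2.2.1, (h3 f (mem_univ _)).2.2.2.2⟩, h4⟩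

lemma near_end {V Fl : Type} {vtx : Fl → V} {σ : Fl → Fl} {h u : Fl} (hu : u = h ∨ u = σ h)
    (m : ℕ) {c : V} (hn : Near vtx σ m (vtx u) c) : Near vtx σ (m + 1) (vtx h) c := by
  rcases hu with rfl | rfl
  · exact Near.mono (Nat.le_succ m) hn
  · exact Near.cons h m hn

/-- **One gadget**: bulk flags `((z,k),s)` and flags `(z,k)` of the correction vertex, `M j` : the
flag `j` of the correction vertex has to be matched. -/
theorem exists_gadget (t : Z × Fin 3 → P) (t_inj : Function.Injective t) (b : S → P → E) (q g : ℕ)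
    (line_card : ∀ s w, (univ.filter fun p : P => b s p = w).card ≤ q) (hq : 1 ≤ q)
    (even_S : Even (Fintype.card S)) (big : 100 * (q + 1) ^ (g + 8) ≤ Fintype.card S)
    (M : Z × Fin 3 → Prop) [DecidablePred M]
    (hM : ∀ z, (univ.filter fun k => M (z, k)).card = 0 ∨ (univ.filter fun k => M (z, k)).card = 2) :
    ∃ τ : ((Z × Fin 3) × S) ⊕ (Z × Fin 3) → ((Z × Fin 3) × S) ⊕ (Z × Fin 3),
      Function.Involutive τ ∧
      (∀ h, τ (Sum.inl h) ≠ Sum.inl h) ∧
      (∀ j, ¬ M j → τ (Sum.inr j) = Sum.inr j) ∧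
      (∀ j, M j → ∃ h, τ (Sum.inr j) = Sum.inl h) ∧
      (∀ h j, τ (Sum.inl h) = Sum.inr j → M j) ∧
      (∀ a, (idx (τ a)).1 = (idx a).1) ∧
      (∀ a, τ a ≠ a → (idx (τ a)).2 ≠ (idx a).2) ∧
      (∀ h h', τ (Sum.inl h) = Sum.inl h' → h'.2 ≠ h.2) ∧
      NoCyc (Insert.insV (vtxB t b)) τ g := by
  classical
  have hpow : ∀ i, i ≤ g + 8 → (q + 1) ^ i ≤ (q + 1) ^ (g + 8) := fun i hi =>
    Nat.pow_le_pow_right (Nat.succ_pos q) hi
  have hbig1 : 10 * (q * (q + 1) ^ g) + 20 ≤ Fintype.card S := by
    have h1 : q * (q + 1) ^ g ≤ (q + 1) ^ (g + 1) := by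
      rw [pow_succ, mul_comm]
      exact Nat.mul_le_mul_left _ (Nat.le_succ q)
    have h2 := hpow (g + 1) (by omega)
    have h3 : 1 ≤ (q + 1) ^ (g + 8) := Nat.one_le_pow _ _ (Nat.succ_pos q)
    omega
  have hbig2 : 4 * (q * (q + 1) ^ (g + 2)) ≤ 3 * Fintype.card S := by
    have h1 : q * (q + 1) ^ (g + 2) ≤ (q + 1) ^ (g + 3) := by
      rw [pow_succ _ (g + 2), mul_comm]
      exact Nat.mul_le_mul_left _ (Nat.le_succ q)
    have h2 := hpow (g + 3) (by omega)
    omega
  obtain ⟨σ, hσ, hσp, hcyc⟩ := exists_bulk t t_inj b q g line_card even_S hbig1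
  -- the cut edges
  obtain ⟨h, hpart, hindep⟩ := indep_transversal
    (fun z : Z => univ.filter fun f : (Z × Fin 3) × S => f.1.1 = z)
    (fun f f' => Near (vtxB t b) σ (g + 2) (vtxB t b f) (vtxB t b f'))
    (fun f f' hn => Near.symm hσ _ hn) (q * (q + 1) ^ (g + 2))
    (Nat.mul_pos hq (Nat.pow_pos (Nat.succ_pos q)))
    (fun f => by
      have := card_near_le (vtxB t b) q (card_vtxB_le t t_inj b q line_card) σ (vtxB t b f) (g + 2)
      refine le_trans (le_of_eq ?_) this
      rw [← Set.ncard_coe_finset]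
      congr 1
      ext x
      simp)
    (by
      intro z z' hz
      rw [disjoint_left]
      intro f hf hf'
      rw [mem_filter] at hf hf'
      exact hz (hf.2.symm.trans hf'.2))
    (by
      intro z
      have hc : (univ.filter fun f : (Z × Fin 3) × S => f.1.1 = z).card =
          3 * Fintype.card S := by
        have : (univ.filter fun f : (Z × Fin 3) × S => f.1.1 = z) =
            ((univ : Finset (Fin 3)) ×ˢ (univ : Finset S)).image (fun x => ((z, x.1), x.2)) := by
          ext ⟨⟨z', k⟩, s⟩
          simp only [mem_filter, mem_univ, true_and, mem_image, mem_product, and_true, Prod.exists,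
            Prod.mk.injEq]
          constructor
          · rintro rfl
            exact ⟨k, s, ⟨rfl, rfl⟩, rfl⟩
          · rintro ⟨k', s', ⟨rfl, rfl⟩, rfl⟩
            rfl
        rw [this, card_image_of_injective, card_product, card_univ, card_univ, Fintype.card_fin]
        intro x y hxy
        simp only [Prod.mk.injEq, true_and] at hxy
        exact Prod.ext hxy.1 hxy.2
      rw [hc]
      exact hbig2)
  have hz : ∀ z, (h z).1.1 = z := fun z => (mem_filter.1 (hpart z)).2
  -- orientation
  have hpick : ∀ z, ∃ pick : Fin 3 → Bool,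
      (∀ k, M (z, k) → (bif pick k then (h z).1.2 else (σ (h z)).1.2) ≠ k) ∧
      (∀ k, M (z, k) → ∃ k', M (z, k') ∧ pick k' ≠ pick k) ∧
      (∀ k, M (z, k) → ∀ k', M (z, k') → pick k = pick k' → k = k') := by
    intro z
    obtain ⟨pick, h1, h2, h3⟩ := exists_pick (univ.filter fun k => M (z, k)) (hM z) (h z).1.2
      (σ (h z)).1.2 (hσp (h z)).2.2.1.symm
    simp only [mem_filter, mem_univ, true_and] at h1 h2 h3
    exact ⟨pick, h1, h2, h3⟩
  choose pick hp1 hp2 hp3 using hpick
  let ct : Z × Fin 3 → (Z × Fin 3) × S := fun j => bif pick j.1 j.2 then h j.1 else σ (h j.1)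
  have hct : ∀ j, ct j = h j.1 ∨ ct j = σ (h j.1) := by
    intro j
    simp only [ct]
    cases pick j.1 j.2
    · right; rfl
    · left; rfl
  have hctz : ∀ j, (ct j).1.1 = j.1 := by
    intro j
    rcases hct j with h1 | h1 <;> rw [h1]
    · exact hz j.1
    · rw [(hσp _).2.1]; exact hz j.1
  have hctk : ∀ j, M j → (ct j).1.2 ≠ j.2 := by
    intro j hj
    have := hp1 j.1 j.2 hj
    simp only [ct]
    cases hpk : pick j.1 j.2 <;> rw [hpk] at this <;> exact this
  have hinj : ∀ f f', M f → M f' → ct f = ct f' → f = f' := by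
    intro f f' hf hf' he
    have hz1 : f.1 = f'.1 := by rw [← hctz f, ← hctz f', he]
    have hpp : pick f.1 f.2 = pick f.1 f'.2 := by
      have he' := he
      simp only [ct] at he'
      rw [← hz1] at he'
      cases hp : pick f.1 f.2 <;> cases hp' : pick f.1 f'.2
      · rfl
      · rw [hp, hp'] at he'
        exact absurd he' (hσp _).1
      · rw [hp, hp'] at he'
        exact absurd he'.symm (hσp _).1
      · rfl
    have hk := hp3 f.1 f.2 hf f'.2 (by rw [hz1]; exact hf') hpp
    exact Prod.ext hz1 hk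
  have hclosed : ∀ f, M f → ∃ f', M f' ∧ ct f' = σ (ct f) := by
    intro f hf
    obtain ⟨k', hk', hpk⟩ := hp2 f.1 f.2 hf
    refine ⟨(f.1, k'), hk', ?_⟩
    simp only [ct]
    cases hp : pick f.1 f.2 <;> cases hp' : pick f.1 k'
    · exact absurd (hp'.trans hp.symm) hpk
    · simp only [cond_true, cond_false]; exact (hσ _).symm
    · simp only [cond_true, cond_false]
    · exact absurd (hp'.trans hp.symm) hpk
  have hne : ∀ f, M f → σ (ct f) ≠ ct f := fun f _ => (hσp _).1
  have hfar : ∀ f f', M f → M f' → ct f' ≠ ct f → ct f' ≠ σ (ct f) → ∀ n, n < g →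
      ∀ d : ℕ → (Z × Fin 3) × S, vtxB t b (d 0) = vtxB t b (ct f) →
      (∀ i < n, vtxB t b (d (i + 1)) = vtxB t b (σ (d i))) →
      vtxB t b (d n) ≠ vtxB t b (ct f') := by
    intro f f' hf hf' h1 h2 n hn d hd0 hd hdn
    have hzz : f.1 ≠ f'.1 := by
      intro hzz
      have e1 := hct f
      have e2 := hct f'
      rw [← hzz] at e2
      rcases e1 with e1 | e1 <;> rcases e2 with e2 | e2
      · exact h1 (e2.trans e1.symm)
      · exact h2 (by rw [e2, e1])
      · exact h2 (by rw [e2, e1, hσ])
      · exact h1 (e2.trans e1.symm)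
    apply hindep f.1 f'.1 hzz
    have w1 := near_of_walk (vtx := vtxB t b) (σ := σ) d 0 n (fun j _ hj => hd j (by omega))
    rw [zero_add, hd0, hdn] at w1
    have w2 := near_end (h := h f.1) (u := ct f) (hct f) n w1
    have w3 := Near.symm hσ _ w2
    have w4 := near_end (h := h f'.1) (u := ct f') (hct f') (n + 1) w3
    have w5 := Near.symm hσ _ w4
    exact Near.mono (by omega) w5
  refine ⟨Insert.ins σ M ct, Insert.ins_involutive hσ hinj hclosed, ?_, ?_, ?_, ?_, ?_, ?_, ?_, ?_⟩
  · intro f hf
    by_cases hh : ∃ j, M j ∧ ct j = f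
    · obtain ⟨j, hj, rfl⟩ := hh
      rw [Insert.ins_inl_ct hinj hj] at hf
      exact absurd hf (by simp)
    · rw [Insert.ins_inl_not hh] at hf
      exact (hσp f).1 (Sum.inl_injective hf)
  · intro j hj
    exact Insert.ins_inr_not hj
  · intro j hj
    exact ⟨ct j, Insert.ins_inr hj⟩
  · intro f j hf
    by_cases hh : ∃ j, M j ∧ ct j = f
    · obtain ⟨j', hj', rfl⟩ := hh
      rw [Insert.ins_inl_ct hinj hj'] at hf
      rw [← Sum.inr_injective hf]
      exact hj'
    · rw [Insert.ins_inl_not hh] at hf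
      exact absurd hf (by simp)
  · rintro (f | j)
    · by_cases hh : ∃ j, M j ∧ ct j = f
      · obtain ⟨j, hj, rfl⟩ := hh
        rw [Insert.ins_inl_ct hinj hj]
        exact (hctz j).symm
      · rw [Insert.ins_inl_not hh]
        exact (hσp f).2.1
    · by_cases hj : M j
      · rw [Insert.ins_inr hj]
        exact hctz j
      · rw [Insert.ins_inr_not hj]
  · rintro (f | j) hne'
    · by_cases hh : ∃ j, M j ∧ ct j = f
      · obtain ⟨j, hj, rfl⟩ := hh
        rw [Insert.ins_inl_ct hinj hj]
        exact (hctk j hj).symm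
      · rw [Insert.ins_inl_not hh]
        exact (hσp f).2.2.1
    · by_cases hj : M j
      · rw [Insert.ins_inr hj]
        exact hctk j hj
      · exact absurd (Insert.ins_inr_not hj) hne'
  · intro f f' hff
    by_cases hh : ∃ j, M j ∧ ct j = f
    · obtain ⟨j, hj, rfl⟩ := hh
      rw [Insert.ins_inl_ct hinj hj] at hff
      exact absurd hff (by simp)
    · rw [Insert.ins_inl_not hh] at hff
      rw [← Sum.inl_injective hff]
      exact (hσp f).2.2.2
  · exact Insert.ins_noCyc (vtxB t b) g hσ hinj hne hcyc (hcyc.noClosed hσ) hfar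

end one

end Crest.Agent.R199
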