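import Mathlib
import Crest.Prelude.Def_WordHyperbolic
import Crest.Agent.R199.Words
import Crest.Agent.R199.Design1
import Crest.Agent.R199.GadgetCon
import Crest.Agent.R199.GInput
import Crest.Agent.R199.Dirs
import Crest.Agent.R199.Limit
import Crest.Agent.R199.Torsion
import Crest.Agent.R199.Build1

-- ▼ part R199/Graded
section

/-!
# Row 199, Part IV: graded graphs and hyperbolicity

A connected graph with a level function such that
* adjacent vertices differ by at most one level,
* every vertex of positive level has a down neighbour,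
* vertices of level zero are pairwise equal or adjacent,
* adjacent vertices of the same positive level have a common down neighbour,
* for equal or adjacent vertices `a b` of the same level every down neighbour of `a` is equal or
  adjacent to every down neighbour of `b`,

satisfies the four-point condition.  Then the transfer to the word metric of a group.
-/

set_option autoImplicit false

namespace Crest.Agent.R199

variable {V : Type*}

/-- The axioms of a graded graph. -/
structure Graded (Γ : SimpleGraph V) (lev : V → ℕ) : Prop where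
  adj_le : ∀ {a b : V}, Γ.Adj a b → lev a ≤ lev b + 1
  down : ∀ a : V, lev a ≠ 0 → ∃ b, Γ.Adj a b ∧ lev b + 1 = lev a
  base : ∀ a b : V, lev a = 0 → lev b = 0 → a = b ∨ Γ.Adj a b
  common : ∀ a b : V, Γ.Adj a b → lev a = lev b → lev a ≠ 0 →
    ∃ c, Γ.Adj a c ∧ Γ.Adj b c ∧ lev c + 1 = lev a
  clique : ∀ a b p r : V, (a = b ∨ Γ.Adj a b) → lev a = lev b →
    Γ.Adj a p → lev p + 1 = lev a → Γ.Adj b r → lev r + 1 = lev b → p = r ∨ Γ.Adj p r

namespace Graded

/-- Lazy horizontal paths of length `n`. -/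
inductive Hor (Γ : SimpleGraph V) (lev : V → ℕ) : ℕ → V → V → Prop
  | nil (a : V) : Hor Γ lev 0 a a
  | cons {n : ℕ} {a b c : V} : (a = b ∨ Γ.Adj a b) → lev a = lev b → Hor Γ lev n b c →
      Hor Γ lev (n + 1) a c

variable {Γ : SimpleGraph V} {lev : V → ℕ}

namespace Hor

theorem lev_eq {n : ℕ} {a b : V} (h : Hor Γ lev n a b) : lev a = lev b := by
  induction h with
  | nil => rfl
  | cons _ h1 _ ih => exact h1.trans ih

theorem succ {n : ℕ} {a b : V} (h : Hor Γ lev n a b) : Hor Γ lev (n + 1) a b :=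
  Hor.cons (Or.inl rfl) rfl h

theorem mono {n m : ℕ} {a b : V} (h : Hor Γ lev n a b) (hnm : n ≤ m) : Hor Γ lev m a b := by
  induction hnm with
  | refl => exact h
  | step _ ih => exact ih.succ

theorem trans {n m : ℕ} {a b c : V} (h : Hor Γ lev n a b) (h' : Hor Γ lev m b c) :
    Hor Γ lev (n + m) a c := by
  induction h with
  | nil => simpa using h'
  | @cons n a b c h1 h2 _ ih =>
    have := Hor.cons h1 h2 (ih h')
    have e : n + m + 1 = n + 1 + m := by omega
    exact e ▸ this

theorem one {a b : V} (h : a = b ∨ Γ.Adj a b) (hl : lev a = lev b) : Hor Γ lev 1 a b :=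
  Hor.cons h hl (Hor.nil b)

theorem eq_of_zero {a b : V} (h : Hor Γ lev 0 a b) : a = b := by
  cases h; rfl

theorem eq_or_adj {a b : V} (h : Hor Γ lev 1 a b) : a = b ∨ Γ.Adj a b := by
  cases h with
  | cons h1 _ h3 =>
    have := h3.eq_of_zero
    subst this
    exact h1

theorem walk {n : ℕ} {a b : V} (h : Hor Γ lev n a b) : ∃ w : Γ.Walk a b, w.length ≤ n := by
  induction h with
  | nil a => exact ⟨SimpleGraph.Walk.nil, by simp⟩
  | @cons n a b c h1 _ _ ih =>
    obtain ⟨w, hw⟩ := ih
    rcases h1 with h1 | h1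
    · subst h1; exact ⟨w, by omega⟩
    · exact ⟨SimpleGraph.Walk.cons h1 w, by simp; omega⟩

end Hor

/-- The descending relation: `b` is a down neighbour of `a`. -/
def Dn (Γ : SimpleGraph V) (lev : V → ℕ) (a b : V) : Prop := Γ.Adj a b ∧ lev b + 1 = lev a

/-- Descendants. -/
abbrev Desc (Γ : SimpleGraph V) (lev : V → ℕ) : V → V → Prop := Relation.ReflTransGen (Dn Γ lev)

theorem common' (H : Graded Γ lev) {a b : V} (h : a = b ∨ Γ.Adj a b) (hl : lev a = lev b)
    (h0 : lev a ≠ 0) : ∃ c, Dn Γ lev a c ∧ Dn Γ lev b c := by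
  rcases h with h | h
  · subst h
    obtain ⟨c, hc⟩ := H.down a h0
    exact ⟨c, hc, hc⟩
  · obtain ⟨c, h1, h2, h3⟩ := H.common a b h hl h0
    exact ⟨c, ⟨h1, h3⟩, ⟨h2, by omega⟩⟩

theorem clique' (H : Graded Γ lev) {a b p r : V} (h : a = b ∨ Γ.Adj a b) (hl : lev a = lev b)
    (hp : Dn Γ lev a p) (hr : Dn Γ lev b r) : Hor Γ lev 1 p r :=
  Hor.one (H.clique a b p r h hl hp.1 hp.2 hr.1 hr.2) (by have := hp.2; have := hr.2; omega)

/-- Projection of a horizontal path one level down. -/
theorem proj (H : Graded Γ lev) : ∀ (n : ℕ) {a b p r : V}, Hor Γ lev n a b → Dn Γ lev a p →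
    Dn Γ lev b r → Hor Γ lev (n / 2 + 1) p r := by
  intro n
  induction n using Nat.strong_induction_on with
  | _ n ih =>
    intro a b p r h hp hr
    match n, h, ih with
    | 0, h, _ =>
      have := h.eq_of_zero
      subst this
      exact H.clique' (Or.inl rfl) rfl hp hr
    | 1, h, _ => exact H.clique' h.eq_or_adj h.lev_eq hp hr
    | n + 2, h, ih =>
      cases h with
      | @cons _ _ x _ h1 h2 h3 =>
        cases h3 with
        | @cons _ _ y _ h4 h5 h6 =>
          have h0 : lev x ≠ 0 := by have := hp.2; omega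
          obtain ⟨q, hq1, hq2⟩ := H.common' h4 h5 h0
          have e1 : Hor Γ lev 1 p q := H.clique' h1 h2 hp hq1
          have e2 := ih n (by omega) h6 hq2 hr
          have := e1.trans e2
          exact this.mono (by omega)

theorem Desc.lev_le {a b : V} (h : Desc Γ lev a b) : lev b ≤ lev a := by
  induction h with
  | refl => exact le_rfl
  | tail _ h ih => have := h.2; omega

theorem Desc.eq_of_lev {a b : V} (h : Desc Γ lev a b) (hl : lev a ≤ lev b) : b = a := by
  rcases Relation.ReflTransGen.cases_tail h with h1 | ⟨c, h1, h2⟩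
  · exact h1
  · have := Desc.lev_le h1
    have := h2.2
    omega

theorem Desc.walk {a b : V} (h : Desc Γ lev a b) :
    ∃ w : Γ.Walk a b, w.length + lev b = lev a := by
  induction h using Relation.ReflTransGen.head_induction_on with
  | refl => exact ⟨SimpleGraph.Walk.nil, by simp⟩
  | head h _ ih =>
    obtain ⟨w, hw⟩ := ih
    exact ⟨SimpleGraph.Walk.cons h.1 w, by simp; have := h.2; omega⟩

theorem exists_desc (H : Graded Γ lev) (m : ℕ) (a : V) (hm : m ≤ lev a) :
    ∃ b, Desc Γ lev a b ∧ lev b = m := by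
  obtain ⟨k, hk⟩ : ∃ k, lev a = m + k := ⟨lev a - m, by omega⟩
  induction k generalizing a with
  | zero => exact ⟨a, Relation.ReflTransGen.refl, by omega⟩
  | succ k ih =>
    obtain ⟨c, hc1, hc2⟩ := H.down a (by omega)
    obtain ⟨b, hb1, hb2⟩ := ih c (by omega) (by omega)
    exact ⟨b, Relation.ReflTransGen.head ⟨hc1, hc2⟩ hb1, hb2⟩

theorem desc_shift (H : Graded Γ lev) {x' u : V} (h : Desc Γ lev x' u) :
    ∀ x : V, (x = x' ∨ Γ.Adj x x') → lev x = lev x' →
      ∃ u', Desc Γ lev x u' ∧ Hor Γ lev 1 u' u := by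
  induction h using Relation.ReflTransGen.head_induction_on with
  | refl => intro x hx hl; exact ⟨x, Relation.ReflTransGen.refl, Hor.one hx hl⟩
  | @head a b hab _ ih =>
    intro x hx hl
    obtain ⟨c, hc1, hc2⟩ := H.common' hx hl (by have := hab.2; omega)
    have e := H.clique' (Or.inl rfl) rfl hc2 hab
    obtain ⟨u', hu1, hu2⟩ := ih c e.eq_or_adj e.lev_eq
    exact ⟨u', Relation.ReflTransGen.head hc1 hu1, hu2⟩

theorem desc_clique (H : Graded Γ lev) {x u : V} (h : Desc Γ lev x u) :
    ∀ u' : V, Desc Γ lev x u' → lev u = lev u' → Hor Γ lev 1 u u' := by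
  induction h with
  | refl =>
    intro u' hu' hl
    have := Desc.eq_of_lev hu' (by omega)
    subst this
    exact (Hor.nil _).succ
  | @tail b c hb hbc ih =>
    intro u' hu' hl
    rcases Relation.ReflTransGen.cases_tail hu' with h1 | ⟨d, h1, h2⟩
    · subst h1
      have := Desc.lev_le hb
      have := hbc.2
      omega
    · have e := ih d h1 (by have := h2.2; have := hbc.2; omega)
      exact H.clique' e.eq_or_adj e.lev_eq hbc h2

/-- Normal form of a walk. -/
theorem normalForm (H : Graded Γ lev) {x y : V} (w : Γ.Walk x y) :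
    ∃ (u v : V) (h : ℕ), Desc Γ lev x u ∧ Desc Γ lev y v ∧ Hor Γ lev h u v ∧
      lev x + lev y + h ≤ w.length + 2 * lev u := by
  induction w with
  | nil => exact ⟨_, _, 0, Relation.ReflTransGen.refl, Relation.ReflTransGen.refl, Hor.nil _,
      by simp; omega⟩
  | @cons x x' y hadj w ih =>
    obtain ⟨u, v, h, hu, hv, hh, hle⟩ := ih
    have l1 := H.adj_le hadj
    have l2 := H.adj_le hadj.symm
    rw [SimpleGraph.Walk.length_cons]
    rcases Nat.lt_trichotomy (lev x) (lev x') with hlt | heq | hgt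
    · -- `x` is a down neighbour of `x'`
      have hx : Dn Γ lev x' x := ⟨hadj.symm, by omega⟩
      rcases Relation.ReflTransGen.cases_head hu with h1 | ⟨b, h1, h2⟩
      · subst h1
        rcases Nat.eq_zero_or_pos h with h0 | h0
        · subst h0
          have := hh.eq_of_zero
          subst this
          exact ⟨x, x, 0, Relation.ReflTransGen.refl, Relation.ReflTransGen.tail hv hx,
            Hor.nil _, by have := hx.2; omega⟩
        · have hl := hh.lev_eq
          obtain ⟨v', hv1, hv2⟩ := H.down v (by omega)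
          have e := H.proj h hh hx ⟨hv1, hv2⟩
          refine ⟨x, v', h / 2 + 1, Relation.ReflTransGen.refl,
            Relation.ReflTransGen.tail hv ⟨hv1, hv2⟩, e, ?_⟩
          have := hx.2
          omega
      · have e := H.clique' (Or.inl rfl) rfl hx h1
        obtain ⟨u', hu1, hu2⟩ := H.desc_shift h2 x e.eq_or_adj e.lev_eq
        refine ⟨u', v, 1 + h, hu1, hv, hu2.trans hh, ?_⟩
        have := hu2.lev_eq
        have := hx.2
        omega
    · obtain ⟨u', hu1, hu2⟩ := H.desc_shift hu x (Or.inr hadj) heq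
      refine ⟨u', v, 1 + h, hu1, hv, hu2.trans hh, ?_⟩
      have := hu2.lev_eq
      omega
    · exact ⟨u, v, h, Relation.ReflTransGen.head ⟨hadj, by omega⟩ hu, hv, hh, by omega⟩

/-- All descendants of `x` and `y` at level `m` are at horizontal distance at most `K`. -/
def Near (Γ : SimpleGraph V) (lev : V → ℕ) (K m : ℕ) (x y : V) : Prop :=
  m ≤ lev x ∧ m ≤ lev y ∧ ∀ u v, Desc Γ lev x u → Desc Γ lev y v → lev u = m → lev v = m →
    Hor Γ lev K u v

theorem Near.mono {K L m : ℕ} {x y : V} (h : Near Γ lev K m x y) (hKL : K ≤ L) :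
    Near Γ lev L m x y :=
  ⟨h.1, h.2.1, fun u v h1 h2 h3 h4 => (h.2.2 u v h1 h2 h3 h4).mono hKL⟩

theorem Near.pred (H : Graded Γ lev) {K m : ℕ} {x y : V} (h : Near Γ lev K (m + 1) x y) :
    Near Γ lev (K / 2 + 1) m x y := by
  obtain ⟨h1, h2, h3⟩ := h
  refine ⟨by omega, by omega, ?_⟩
  intro u v hu hv lu lv
  rcases Relation.ReflTransGen.cases_tail hu with e1 | ⟨a, ha1, ha2⟩
  · subst e1; omega
  rcases Relation.ReflTransGen.cases_tail hv with e2 | ⟨b, hb1, hb2⟩
  · subst e2; omega
  exact H.proj K (h3 a b ha1 hb1 (by have := ha2.2; omega) (by have := hb2.2; omega)) ha2 hb2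

theorem near_zero (H : Graded Γ lev) (x y : V) : Near Γ lev 1 0 x y :=
  ⟨Nat.zero_le _, Nat.zero_le _, fun u v _ _ hu hv => Hor.one (H.base u v hu hv) (by omega)⟩

theorem Near.trans (H : Graded Γ lev) {K L m : ℕ} {x y z : V} (h : Near Γ lev K m x y)
    (h' : Near Γ lev L m y z) : Near Γ lev (K + L) m x z := by
  refine ⟨h.1, h'.2.1, ?_⟩
  intro u v hu hv lu lv
  obtain ⟨b, hb1, hb2⟩ := H.exists_desc m y h.2.1
  exact (h.2.2 u b hu hb1 lu hb2).trans (h'.2.2 b v hb1 hv hb2 lv)

theorem Near.two_le (H : Graded Γ lev) {m n : ℕ} {x y : V} (h : Near Γ lev 2 m x y)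
    (hn : n ≤ m) : Near Γ lev 2 n x y := by
  obtain ⟨k, rfl⟩ : ∃ k, m = n + k := ⟨m - n, by omega⟩
  induction k with
  | zero => simpa using h
  | succ k ih => exact ih (Near.pred (K := 2) (m := n + k) H h) (by omega)

theorem near_three (H : Graded Γ lev) {m : ℕ} {x y : V} (h : Near Γ lev 3 m x y) :
    ∃ m', Near Γ lev 2 m' x y ∧ m ≤ m' + 1 := by
  rcases Nat.eq_zero_or_pos m with h0 | h0
  · exact ⟨0, (H.near_zero x y).mono (by omega), by omega⟩
  · obtain ⟨k, rfl⟩ : ∃ k, m = k + 1 := ⟨m - 1, by omega⟩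
    exact ⟨k, (Near.pred H h).mono (by omega), le_rfl⟩

theorem near_four (H : Graded Γ lev) {m : ℕ} {x y : V} (h : Near Γ lev 4 m x y) :
    ∃ m', Near Γ lev 2 m' x y ∧ m ≤ m' + 2 := by
  rcases Nat.eq_zero_or_pos m with h0 | h0
  · exact ⟨0, (H.near_zero x y).mono (by omega), by omega⟩
  · obtain ⟨k, rfl⟩ : ∃ k, m = k + 1 := ⟨m - 1, by omega⟩
    obtain ⟨m', h1, h2⟩ := H.near_three ((Near.pred H h).mono (by omega))
    exact ⟨m', h1, by omega⟩

theorem near_shrink (H : Graded Γ lev) : ∀ (K m : ℕ) {x y : V}, Near Γ lev K m x y →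
    ∃ m', Near Γ lev 2 m' x y ∧ 2 * m ≤ 2 * m' + K := by
  intro K
  induction K using Nat.strong_induction_on with
  | _ K ih =>
    intro m x y h
    by_cases h2 : K ≤ 2
    · exact ⟨m, h.mono h2, by omega⟩
    by_cases h3 : K = 3
    · subst h3
      obtain ⟨m', h1, h2⟩ := H.near_three h
      exact ⟨m', h1, by omega⟩
    by_cases h4 : K = 4
    · subst h4
      obtain ⟨m', h1, h2⟩ := H.near_four h
      exact ⟨m', h1, by omega⟩
    rcases Nat.eq_zero_or_pos m with h0 | h0
    · exact ⟨0, (H.near_zero x y).mono (by omega), by omega⟩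
    · obtain ⟨k, rfl⟩ : ∃ k, m = k + 1 := ⟨m - 1, by omega⟩
      obtain ⟨m', h1, h2⟩ := ih (K / 2 + 1) (by omega) k (Near.pred H h)
      exact ⟨m', h1, by omega⟩

theorem exists_near (H : Graded Γ lev) (hc : Γ.Connected) (x y : V) :
    ∃ m, Near Γ lev 2 m x y ∧ lev x + lev y ≤ Γ.dist x y + 2 * m + 2 := by
  obtain ⟨w, hw⟩ := hc.exists_walk_length_eq_dist x y
  obtain ⟨u, v, h, hu, hv, hh, hle⟩ := H.normalForm w
  have hn : Near Γ lev (h + 2) (lev u) x y := by
    refine ⟨Desc.lev_le hu, hh.lev_eq ▸ Desc.lev_le hv, ?_⟩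
    intro u' v' hu' hv' lu lv
    have e1 := H.desc_clique hu' u hu lu
    have e2 := H.desc_clique hv v' hv' (by have := hh.lev_eq; omega)
    exact ((e1.trans hh).trans e2).mono (by omega)
  obtain ⟨m', h1, h2⟩ := H.near_shrink _ _ hn
  exact ⟨m', h1, by omega⟩

theorem dist_le_of_near (H : Graded Γ lev) {m : ℕ} {x y : V} (h : Near Γ lev 2 m x y) :
    Γ.dist x y + 2 * m ≤ lev x + lev y + 2 := by
  obtain ⟨u, hu, lu⟩ := H.exists_desc m x h.1
  obtain ⟨v, hv, lv⟩ := H.exists_desc m y h.2.1
  obtain ⟨w1, e1⟩ := Desc.walk hu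
  obtain ⟨w2, e2⟩ := Desc.walk hv
  obtain ⟨w3, e3⟩ := (h.2.2 u v hu hv lu lv).walk
  have := SimpleGraph.dist_le ((w1.append w3).append w2.reverse)
  simp only [SimpleGraph.Walk.length_append, SimpleGraph.Walk.length_reverse] at this
  omega

/-- The four-point condition for graded graphs, seen from the base. -/
theorem fourPoint (H : Graded Γ lev) (hc : Γ.Connected) (x y z : V) :
    min ((lev x : ℤ) + lev y - Γ.dist x y) ((lev y : ℤ) + lev z - Γ.dist y z) ≤
      (lev x : ℤ) + lev z - Γ.dist x z + 8 := by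
  obtain ⟨m1, h1, l1⟩ := H.exists_near hc x y
  obtain ⟨m2, h2, l2⟩ := H.exists_near hc y z
  have h1' := Near.two_le H h1 (min_le_left m1 m2)
  have h2' := Near.two_le H h2 (min_le_right m1 m2)
  obtain ⟨m, h3, h4⟩ := H.near_four (Near.trans H h1' h2')
  have h5 := H.dist_le_of_near h3
  omega

/-- Distance to a base vertex. -/
theorem dist_base (H : Graded Γ lev) (hc : Γ.Connected) {o : V} (ho : lev o = 0) (x : V) :
    lev x ≤ Γ.dist o x ∧ Γ.dist o x ≤ lev x + 1 := by
  constructor
  · obtain ⟨w, hw⟩ := hc.exists_walk_length_eq_dist o x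
    rw [← hw]
    have key : ∀ {a b : V} (w : Γ.Walk a b), lev b ≤ w.length + lev a := by
      intro a b w
      induction w with
      | nil => simp
      | cons h _ ih => rw [SimpleGraph.Walk.length_cons]; have := H.adj_le h.symm; omega
    have := key w
    omega
  · obtain ⟨u, hu, lu⟩ := H.exists_desc 0 x (Nat.zero_le _)
    obtain ⟨w1, e1⟩ := Desc.walk hu
    obtain ⟨w2, e2⟩ := (Hor.one (H.base o u ho lu) (by omega : lev o = lev u)).walk
    have := SimpleGraph.dist_le (w2.append w1.reverse)
    simp only [SimpleGraph.Walk.length_append, SimpleGraph.Walk.length_reverse] at this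
    omega

end Graded

open Crest.GroupTheory

section Transfer

variable {G : Type*} [Group G]

theorem wordDist_mul_left (S : Set G) (k g h : G) :
    wordDist S (k * g) (k * h) = wordDist S g h := by
  unfold wordDist
  congr 2
  group

theorem gromovProduct_base (S : Set G) (w x y : G) :
    gromovProduct S w x y = gromovProduct S 1 (w⁻¹ * x) (w⁻¹ * y) := by
  unfold gromovProduct
  have h1 := wordDist_mul_left S w⁻¹ x w
  have h2 := wordDist_mul_left S w⁻¹ y w
  have h3 := wordDist_mul_left S w⁻¹ x y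
  rw [inv_mul_cancel] at h1 h2
  rw [h1, h2, h3]

/-- Transfer of the four-point condition from a graded graph to a group. -/
theorem isHyperbolicGroup_of_graded (S : Finset G) (hS : Subgroup.closure (S : Set G) = ⊤)
    {Γ : SimpleGraph V} {lev : V → ℕ} (H : Graded Γ lev) (hc : Γ.Connected)
    (c : G → V) (K : ℝ)
    (h1 : ∀ g h : G, |wordDist (S : Set G) g h - (Γ.dist (c g) (c h) : ℝ)| ≤ K)
    (h2 : ∀ g : G, |wordDist (S : Set G) g 1 - (lev (c g) : ℝ)| ≤ K) :
    IsHyperbolicGroup G := by
  have hK : 0 ≤ K := (abs_nonneg _).trans (h2 1)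
  refine ⟨S, hS, 4 + 3 * K, by positivity, ?_⟩
  intro w x y z
  rw [gromovProduct_base _ w x y, gromovProduct_base _ w y z, gromovProduct_base _ w x z]
  generalize w⁻¹ * x = x, w⁻¹ * y = y, w⁻¹ * z = z
  have hf := H.fourPoint hc (c x) (c y) (c z)
  have hf' : min ((lev (c x) : ℝ) + lev (c y) - Γ.dist (c x) (c y))
      ((lev (c y) : ℝ) + lev (c z) - Γ.dist (c y) (c z)) ≤
      (lev (c x) : ℝ) + lev (c z) - Γ.dist (c x) (c z) + 8 := by exact_mod_cast hf
  unfold gromovProduct
  have a1 := abs_le.mp (h1 x y)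
  have a2 := abs_le.mp (h1 y z)
  have a3 := abs_le.mp (h1 x z)
  have b1 := abs_le.mp (h2 x)
  have b2 := abs_le.mp (h2 y)
  have b3 := abs_le.mp (h2 z)
  rcases min_le_iff.mp hf' with hf | hf
  · have := min_le_left ((wordDist (S : Set G) x 1 + wordDist (S : Set G) y 1
      - wordDist (S : Set G) x y) / 2) ((wordDist (S : Set G) y 1 + wordDist (S : Set G) z 1
      - wordDist (S : Set G) y z) / 2)
    linarith [a1.1, a1.2, a2.1, a2.2, a3.1, a3.2, b1.1, b1.2, b2.1, b2.2, b3.1, b3.2]
  · have := min_le_right ((wordDist (S : Set G) x 1 + wordDist (S : Set G) y 1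
      - wordDist (S : Set G) x y) / 2) ((wordDist (S : Set G) y 1 + wordDist (S : Set G) z 1
      - wordDist (S : Set G) y z) / 2)
    linarith [a1.1, a1.2, a2.1, a2.2, a3.1, a3.2, b1.1, b1.2, b2.1, b2.2, b3.1, b3.2]

end Transfer

/-! ### Cells in a group -/

section Cells

variable {G I : Type*} [Group G] {cell : I → Set G} {Γ : SimpleGraph I}

/-- Length of products along a walk in the cell graph. -/
theorem exists_list_of_walk (hΓ : ∀ i j, Γ.Adj i j → (cell i ∩ cell j).Nonempty)
    (S : Set G) (hS : ∀ i, ∀ a ∈ cell i, ∀ b ∈ cell i, a⁻¹ * b ∈ S)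
    {i j : I} (w : Γ.Walk i j) : ∀ a ∈ cell i, ∀ b ∈ cell j,
      ∃ l : List G, l.length = w.length + 1 ∧ (∀ x ∈ l, x ∈ S ∨ x⁻¹ ∈ S) ∧ l.prod = a⁻¹ * b := by
  induction w with
  | @nil i =>
    intro a ha b hb
    exact ⟨[a⁻¹ * b], by simp, by simpa using Or.inl (hS i a ha b hb), by simp⟩
  | @cons i k j hadj w ih =>
    intro a ha b hb
    obtain ⟨c, hc1, hc2⟩ := hΓ i k hadj
    obtain ⟨l, hl1, hl2, hl3⟩ := ih c hc2 b hb
    refine ⟨(a⁻¹ * c) :: l, by simp [hl1], ?_, by rw [List.prod_cons, hl3]; group⟩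
    intro x hx
    rcases List.mem_cons.mp hx with h | h
    · subst h; exact Or.inl (hS i a ha c hc1)
    · exact hl2 x h

theorem wordLength_le_of_list (S : Set G) (l : List G) (h : ∀ x ∈ l, x ∈ S ∨ x⁻¹ ∈ S) :
    wordLength S l.prod ≤ l.length :=
  Nat.sInf_le ⟨l, rfl, h, rfl⟩

theorem closure_of_walk (hΓ : ∀ i j, Γ.Adj i j → (cell i ∩ cell j).Nonempty)
    (hcov : ∀ g : G, ∃ i, g ∈ cell i) (hc : Γ.Connected)
    (S : Set G) (hS : ∀ i, ∀ a ∈ cell i, ∀ b ∈ cell i, a⁻¹ * b ∈ S) :
    Subgroup.closure S = ⊤ := by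
  rw [eq_top_iff]
  intro g _
  obtain ⟨i, hi⟩ := hcov 1
  obtain ⟨j, hj⟩ := hcov g
  obtain ⟨w⟩ := hc.preconnected i j
  obtain ⟨l, _, hl2, hl3⟩ := exists_list_of_walk hΓ S hS w 1 hi g hj
  have : l.prod = g := by rw [hl3]; simp
  rw [← this]
  refine Subgroup.list_prod_mem _ ?_
  intro x hx
  rcases hl2 x hx with h | h
  · exact Subgroup.subset_closure h
  · exact (Subgroup.inv_mem_iff _).mp (Subgroup.subset_closure h)

theorem dist_le_of_list (hΓ : ∀ i j, i ≠ j → (cell i ∩ cell j).Nonempty → Γ.Adj i j)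
    (hc : Γ.Connected)
    (S : Set G) (hS : ∀ g : G, ∀ s ∈ S, ∃ i, g ∈ cell i ∧ g * s ∈ cell i) :
    ∀ (l : List G), (∀ x ∈ l, x ∈ S ∨ x⁻¹ ∈ S) → ∀ (g : G) (i j : I), g ∈ cell i →
      g * l.prod ∈ cell j → Γ.dist i j ≤ l.length + 1 := by
  have hone : ∀ (g : G) (i j : I), g ∈ cell i → g ∈ cell j → Γ.dist i j ≤ 1 := by
    intro g i j hi hj
    by_cases h : i = j
    · subst h; simp
    · exact (SimpleGraph.dist_eq_one_iff_adj.mpr (hΓ i j h ⟨g, hi, hj⟩)).le
  intro l
  induction l with
  | nil =>
    intro _ g i j hi hj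
    simpa using hone g i j hi (by simpa using hj)
  | cons x l ih =>
    intro hl g i j hi hj
    obtain ⟨k, hk1, hk2⟩ : ∃ k, g ∈ cell k ∧ g * x ∈ cell k := by
      rcases hl x (by simp) with h | h
      · exact hS g x h
      · obtain ⟨k, h1, h2⟩ := hS (g * x) x⁻¹ h
        exact ⟨k, by simpa using h2, h1⟩
    have e1 := hone g i k hi hk1
    have e2 := ih (fun y hy => hl y (by simp [hy])) (g * x) k j hk2
      (by simpa [mul_assoc] using hj)
    have e3 := hc.dist_triangle (u := i) (v := k) (w := j)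
    simp only [List.length_cons]
    omega

/-- Main transfer theorem: a group covered by a left-invariant family of cells whose intersection
graph is graded (with base cell containing `1`) is hyperbolic. -/
theorem isHyperbolicGroup_of_cells (hcov : ∀ g : G, ∃ i, g ∈ cell i)
    (hinv : ∀ (k : G) (i : I), ∃ j, ∀ g ∈ cell i, k * g ∈ cell j)
    (hfin : {g : G | ∃ i, (1 : G) ∈ cell i ∧ g ∈ cell i}.Finite)
    (hΓ : ∀ i j, Γ.Adj i j ↔ i ≠ j ∧ (cell i ∩ cell j).Nonempty)
    (hc : Γ.Connected) {lev : I → ℕ} (H : Graded Γ lev)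
    (i₀ : I) (hi₀ : (1 : G) ∈ cell i₀) (hl₀ : lev i₀ = 0) : IsHyperbolicGroup G := by
  classical
  set S : Finset G := hfin.toFinset with hSdef
  have hmem : ∀ g : G, g ∈ (S : Set G) ↔ ∃ i, (1 : G) ∈ cell i ∧ g ∈ cell i := by
    intro g; simp [hSdef]
  have hS1 : ∀ i, ∀ a ∈ cell i, ∀ b ∈ cell i, a⁻¹ * b ∈ (S : Set G) := by
    intro i a ha b hb
    obtain ⟨j, hj⟩ := hinv a⁻¹ i
    exact (hmem _).2 ⟨j, by simpa using hj a ha, hj b hb⟩
  have hS2 : ∀ g : G, ∀ s ∈ (S : Set G), ∃ i, g ∈ cell i ∧ g * s ∈ cell i := by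
    intro g s hs
    obtain ⟨i, h1, h2⟩ := (hmem s).1 hs
    obtain ⟨j, hj⟩ := hinv g i
    exact ⟨j, by simpa using hj 1 h1, hj s h2⟩
  have hΓ1 : ∀ i j, Γ.Adj i j → (cell i ∩ cell j).Nonempty := fun i j h => ((hΓ i j).1 h).2
  have hΓ2 : ∀ i j, i ≠ j → (cell i ∩ cell j).Nonempty → Γ.Adj i j :=
    fun i j h h' => (hΓ i j).2 ⟨h, h'⟩
  have hclos := closure_of_walk hΓ1 hcov hc (S : Set G) hS1
  choose c hcmem using hcov
  -- upper bound for the word distance
  have up : ∀ (g h : G) (i j : I), g ∈ cell i → h ∈ cell j →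
      wordLength (S : Set G) (g⁻¹ * h) ≤ Γ.dist i j + 1 := by
    intro g h i j hi hj
    obtain ⟨w, hw⟩ := hc.exists_walk_length_eq_dist i j
    obtain ⟨l, h1, h2, h3⟩ := exists_list_of_walk hΓ1 (S : Set G) hS1 w g hi h hj
    rw [← h3, ← hw, ← h1]
    exact wordLength_le_of_list _ _ h2
  -- lower bound
  have lo : ∀ (g h : G) (i j : I), g ∈ cell i → h ∈ cell j →
      Γ.dist i j ≤ wordLength (S : Set G) (g⁻¹ * h) + 1 := by
    intro g h i j hi hj
    have hne : {n : ℕ | ∃ l : List G, l.length = n ∧
        (∀ x ∈ l, x ∈ (S : Set G) ∨ x⁻¹ ∈ (S : Set G)) ∧ l.prod = g⁻¹ * h}.Nonempty := by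
      obtain ⟨w, hw⟩ := hc.exists_walk_length_eq_dist i j
      obtain ⟨l, h1, h2, h3⟩ := exists_list_of_walk hΓ1 (S : Set G) hS1 w g hi h hj
      exact ⟨_, l, h1, h2, h3⟩
    obtain ⟨l, h1, h2, h3⟩ := Nat.sInf_mem hne
    have := dist_le_of_list hΓ2 hc (S : Set G) hS2 l h2 g i j hi (by rw [h3]; simpa using hj)
    rw [h1] at this
    exact this
  refine isHyperbolicGroup_of_graded S hclos H hc c 2 ?_ ?_
  · intro g h
    have e1 := up g h (c g) (c h) (hcmem g) (hcmem h)
    have e2 := lo g h (c g) (c h) (hcmem g) (hcmem h)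
    have e1' : wordDist (S : Set G) g h ≤ (Γ.dist (c g) (c h) : ℝ) + 1 := by
      unfold wordDist; exact_mod_cast e1
    have e2' : (Γ.dist (c g) (c h) : ℝ) ≤ wordDist (S : Set G) g h + 1 := by
      unfold wordDist; exact_mod_cast e2
    rw [abs_le]
    constructor <;> linarith
  · intro g
    have e1 := up g 1 (c g) i₀ (hcmem g) hi₀
    have e2 := lo g 1 (c g) i₀ (hcmem g) hi₀
    have e3 := H.dist_base hc hl₀ (c g)
    rw [SimpleGraph.dist_comm] at e3
    have e1' : wordDist (S : Set G) g 1 ≤ (Γ.dist (c g) i₀ : ℝ) + 1 := by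
      unfold wordDist; exact_mod_cast e1
    have e2' : (Γ.dist (c g) i₀ : ℝ) ≤ wordDist (S : Set G) g 1 + 1 := by
      unfold wordDist; exact_mod_cast e2
    have e3' : (lev (c g) : ℝ) ≤ (Γ.dist (c g) i₀ : ℝ) := by exact_mod_cast e3.1
    have e4' : (Γ.dist (c g) i₀ : ℝ) ≤ (lev (c g) : ℝ) + 1 := by exact_mod_cast e3.2
    rw [abs_le]
    constructor <;> linarith

end Cells

end Crest.Agent.R199
end

-- ▼ part R199/Hyp
section

/-! Part IV-b: the group is word-hyperbolic.

Cells are indexed by `D.Grp × D.Pos`; two different indices are adjacent when their cells share a group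
element; the level of a cell is `M.cl`.  The interface `Model` says that this is a graded graph. -/

set_option autoImplicit false

namespace Crest.Agent.R199

variable {S : Type}

namespace SCData

variable (D : SCData S)

theorem gw_nil : D.gw [] = 1 := by
  unfold gw
  rw [← FreeGroup.one_eq_mk, map_one]

theorem gw_append (w w' : List (S × Bool)) : D.gw (w ++ w') = D.gw w * D.gw w' := by
  unfold gw
  rw [← FreeGroup.mul_mk, map_mul]

theorem gw_invRev (w : List (S × Bool)) : D.gw (FreeGroup.invRev w) = (D.gw w)⁻¹ := by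
  unfold gw
  rw [← FreeGroup.inv_mk, map_inv]

theorem gw_closed {x : D.Pos} {w : List (S × Bool)} (h : D.A.read w x = some x) : D.gw w = 1 :=
  PresentedGroup.one_of_mem (rels := D.rels) ⟨x, w, h, rfl⟩

/-- words with the same end points represent the same group element -/
theorem gw_eq_of_read {x y : D.Pos} {w w' : List (S × Bool)} (h : D.A.read w x = some y)
    (h' : D.A.read w' x = some y) : D.gw w = D.gw w' := by
  have h1 : D.A.read (w ++ FreeGroup.invRev w') x = some x :=
    D.A.read_append_some.mpr ⟨y, h, D.A.read_invRev h'⟩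
  have h2 := D.gw_closed h1
  rw [gw_append, gw_invRev] at h2
  exact mul_inv_eq_one.mp h2

variable {D}

theorem Same.refl (g : D.Grp) (x : D.Pos) : D.Same g x g x := ⟨[], rfl, by rw [gw_nil, mul_one]⟩

theorem Same.symm {g h : D.Grp} {x y : D.Pos} (H : D.Same g x h y) : D.Same h y g x := by
  obtain ⟨w, h1, h2⟩ := H
  exact ⟨FreeGroup.invRev w, D.A.read_invRev h1, by rw [h2, gw_invRev, mul_inv_cancel_right]⟩

theorem Same.trans {g h k : D.Grp} {x y z : D.Pos} (H : D.Same g x h y) (H' : D.Same h y k z) :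
    D.Same g x k z := by
  obtain ⟨w, h1, h2⟩ := H
  obtain ⟨w', h1', h2'⟩ := H'
  exact ⟨w ++ w', D.A.read_append_some.mpr ⟨y, h1, h1'⟩, by rw [h2', h2, gw_append, mul_assoc]⟩

variable (D)

/-- the cell of position `x` at `g` -/
def cellSet (i : D.Grp × D.Pos) : Set D.Grp := {h | ∃ y, D.Same i.1 i.2 h y}

/-- adjacency of cells -/
def cellGraph : SimpleGraph (D.Grp × D.Pos) where
  Adj i j := i ≠ j ∧ (D.cellSet i ∩ D.cellSet j).Nonempty
  symm := by
    constructor
    rintro i j ⟨h1, h2⟩
    exact ⟨h1.symm, by rwa [Set.inter_comm]⟩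
  loopless := ⟨fun i h => h.1 rfl⟩

variable {D}

theorem graded_cellGraph (M : D.Model) :
    Graded D.cellGraph (fun i => M.cl i.1 i.2) where
  adj_le := by
    rintro ⟨g, x⟩ ⟨h, y⟩ ⟨_, k, ⟨x', hx'⟩, ⟨y', hy'⟩⟩
    have h1 := M.cl_same _ _ _ _ hx'
    have h2 := M.cl_same _ _ _ _ hy'
    have h3 := M.cl_le k x'
    have h4 := M.lev_le k y'
    simp only at *
    omega
  down := by
    rintro ⟨g, x⟩ hne
    obtain ⟨h, y, hS, hl⟩ := M.base g x
    simp only at hne
    obtain ⟨n, hn⟩ := Nat.exists_eq_succ_of_ne_zero hne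
    obtain ⟨x'', hx''⟩ := M.down h n (by rw [hl, hn])
    refine ⟨(h, x''), ⟨?_, h, ⟨y, hS⟩, ⟨x'', Same.refl h x''⟩⟩, ?_⟩
    · intro he
      have : M.cl g x = M.cl h x'' := congrArg (fun i : D.Grp × D.Pos => M.cl i.1 i.2) he
      omega
    · simp only
      omega
  base := by
    rintro ⟨g, x⟩ ⟨h, y⟩ ha hb
    by_cases he : ((g, x) : D.Grp × D.Pos) = (h, y)
    · exact Or.inl he
    · refine Or.inr ⟨he, 1, ?_, ?_⟩
      · obtain ⟨k, z, hS, hl⟩ := M.base g x
        simp only at ha
        rw [ha, M.lev_eq_zero] at hl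
        subst hl
        exact ⟨z, hS⟩
      · obtain ⟨k, z, hS, hl⟩ := M.base h y
        simp only at hb
        rw [hb, M.lev_eq_zero] at hl
        subst hl
        exact ⟨z, hS⟩
  common := by
    rintro ⟨g, x⟩ ⟨h, y⟩ ⟨_, k, ⟨x', hx'⟩, ⟨y', hy'⟩⟩ hl hne
    simp only at hl hne hx' hy'
    have h1 := M.cl_same _ _ _ _ hx'
    have h2 := M.cl_same _ _ _ _ hy'
    obtain ⟨b, p, q, hp, hq, hb⟩ := M.share k x' y' (by rw [h1, h2, hl])
    obtain ⟨n, hn⟩ := Nat.exists_eq_succ_of_ne_zero hne
    obtain ⟨z, hz⟩ := M.down b n (by rw [hb, h1, hn])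
    refine ⟨(b, z), ⟨?_, b, ⟨p, hx'.trans hp⟩, ⟨z, Same.refl b z⟩⟩,
      ⟨?_, b, ⟨q, hy'.trans hq⟩, ⟨z, Same.refl b z⟩⟩, ?_⟩
    · intro he
      have : M.cl g x = M.cl b z := congrArg (fun i : D.Grp × D.Pos => M.cl i.1 i.2) he
      omega
    · intro he
      have : M.cl h y = M.cl b z := congrArg (fun i : D.Grp × D.Pos => M.cl i.1 i.2) he
      omega
    · simp only
      omega
  clique := by
    rintro ⟨g, x⟩ ⟨h, y⟩ ⟨gp, xp⟩ ⟨gr, xr⟩ hab hl ⟨_, k, ⟨ya, hya⟩, ⟨yp, hyp⟩⟩ hp
      ⟨_, k', ⟨yb, hyb⟩, ⟨yr, hyr⟩⟩ hr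
    simp only at hl hp hr hya hyp hyb hyr
    -- a common base element
    obtain ⟨g0, x0, y0, h0x, h0y, hlev⟩ : ∃ (g0 : D.Grp) (x0 y0 : D.Pos),
        D.Same g x g0 x0 ∧ D.Same h y g0 y0 ∧ M.lev g0 = M.cl g x := by
      rcases hab with he | ⟨_, c, ⟨x', hx'⟩, ⟨y', hy'⟩⟩
      · obtain ⟨g0, x0, hS, hl0⟩ := M.base g x
        cases he
        exact ⟨g0, x0, x0, hS, hS, hl0⟩
      · have h1 := M.cl_same _ _ _ _ hx'
        have h2 := M.cl_same _ _ _ _ hy'
        simp only at h1 h2 hx' hy'
        obtain ⟨b, p, q, hp', hq', hb⟩ := M.share c x' y' (by rw [h1, h2, hl])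
        exact ⟨b, p, q, hx'.trans hp', hy'.trans hq', by rw [hb, h1]⟩
    have c1 := M.cl_same _ _ _ _ h0x
    have c2 := M.cl_same _ _ _ _ h0y
    have c3 := M.cl_same _ _ _ _ hya
    have c4 := M.cl_same _ _ _ _ hyp
    have c5 := M.cl_same _ _ _ _ hyb
    have c6 := M.cl_same _ _ _ _ hyr
    have d1 := M.cl_le k ya
    have d2 := M.lev_le k yp
    have d3 := M.cl_le k' yb
    have d4 := M.lev_le k' yr
    obtain ⟨z, z1, z2, hz1, hz2⟩ := M.clique g0 x0 y0 k ya yp k' yb yr (by omega) (by omega)
      (h0x.symm.trans hya) (h0y.symm.trans hyb) (by omega) (by omega) (by omega) (by omega)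
    by_cases he : ((gp, xp) : D.Grp × D.Pos) = (gr, xr)
    · exact Or.inl he
    · exact Or.inr ⟨he, z, ⟨z1, hyp.trans hz1⟩, ⟨z2, hyr.trans hz2⟩⟩

theorem cellGraph_connected (M : D.Model) (x₀ : D.Pos) : D.cellGraph.Connected := by
  have key : ∀ (n : ℕ) (i : D.Grp × D.Pos), M.cl i.1 i.2 = n →
      D.cellGraph.Reachable i (1, x₀) := by
    intro n
    induction n with
    | zero =>
      intro i hi
      have hz : M.cl (1 : D.Grp) x₀ = 0 := by
        have h1 := M.cl_le (1 : D.Grp) x₀
        have h2 := (M.lev_eq_zero 1).mpr rfl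
        omega
      rcases (graded_cellGraph M).base i (1, x₀) hi hz with h | h
      · rw [h]
      · exact h.reachable
    | succ n ih =>
      intro i hi
      obtain ⟨j, hj, hl⟩ := (graded_cellGraph M).down i (by omega)
      exact hj.reachable.trans (ih j (by omega))
  have : Nonempty (D.Grp × D.Pos) := ⟨(1, x₀)⟩
  exact ⟨fun i j => (key _ i rfl).trans (key _ j rfl).symm⟩

end SCData

theorem isHyperbolicGroup_of_subsingleton (G : Type) [Group G] [Subsingleton G] :
    Crest.GroupTheory.IsHyperbolicGroup G := by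
  refine ⟨∅, ?_, 0, le_rfl, ?_⟩
  · exact Subsingleton.elim _ _
  · intro w x y z
    rw [Subsingleton.elim w 1, Subsingleton.elim x 1, Subsingleton.elim y 1, Subsingleton.elim z 1]
    simp

theorem hyperbolic (D : SCData S) (M : D.Model) : Crest.GroupTheory.IsHyperbolicGroup D.Grp := by
  classical
  have := D.finPos
  by_cases hP : Nonempty D.Pos
  · obtain ⟨x₀⟩ := hP
    refine isHyperbolicGroup_of_cells (cell := D.cellSet) (Γ := D.cellGraph) (i₀ := (1, x₀))
      (lev := fun i => M.cl i.1 i.2) ?_ ?_ ?_ ?_ (SCData.cellGraph_connected M x₀)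
      (SCData.graded_cellGraph M) ⟨x₀, SCData.Same.refl _ _⟩ ?_
    · intro g
      exact ⟨(g, x₀), x₀, SCData.Same.refl _ _⟩
    · rintro k ⟨g, x⟩
      refine ⟨(k * g, x), ?_⟩
      rintro h ⟨y, w, hw, he⟩
      simp only at hw he
      exact ⟨y, w, hw, by rw [he, mul_assoc]⟩
    · have hsub : {g : D.Grp | ∃ i, (1 : D.Grp) ∈ D.cellSet i ∧ g ∈ D.cellSet i} ⊆
          Set.range (fun p : D.Pos × D.Pos =>
            if h : ∃ w : List (S × Bool), D.A.read w p.1 = some p.2 then D.gw h.choose else 1) := by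
        rintro g ⟨⟨h, x⟩, ⟨y, hy⟩, ⟨z, hz⟩⟩
        obtain ⟨w, hw, he⟩ := hy.symm.trans hz
        rw [one_mul] at he
        refine ⟨(y, z), ?_⟩
        have hex : ∃ w : List (S × Bool), D.A.read w y = some z := ⟨w, hw⟩
        simp only
        rw [dif_pos hex, he]
        exact D.gw_eq_of_read hex.choose_spec hw
      exact (Set.finite_range _).subset hsub
    · intro i j
      rfl
    · have h1 := M.cl_le (1 : D.Grp) x₀
      have h2 := (M.lev_eq_zero 1).mpr rfl
      simp only
      omega
  · have : IsEmpty S := by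
      constructor
      intro s
      obtain ⟨x, _⟩ := D.letters (s, true)
      exact hP ⟨x⟩
    have : Subsingleton D.Grp := by
      have : Subsingleton (FreeGroup S) := inferInstance
      exact (PresentedGroup.mk_surjective (rels := D.rels)).subsingleton
    exact isHyperbolicGroup_of_subsingleton _

end Crest.Agent.R199
end

-- ▼ part R199/AlgIII
section

/-!
# Row 199, Part III: a surjective, non-injective square matrix over the group ring kills
residual finiteness

* `delta β D : (G →₀ C) →ₗ[K] (G →₀ W)`, `c·[g] ↦ ∑ i, D i c · [g * β i]`.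
* `not_RF` : `finrank C = finrank W`, every `w·[1]` is hit, the kernel is nonzero ⇒ `G` is not
  residually finite.
* `not_RF_of_section` : same with a section `ρ`, the kernel element being
  `c·[1] - ∑ i, β i · ρ (D i c)`.
-/

set_option autoImplicit false

namespace Crest.Agent.R199.AlgIII

open Finset

variable {K : Type*} [Field K] {C W : Type*} [AddCommGroup C] [Module K C]
  [AddCommGroup W] [Module K W] {I : Type*} [Fintype I]

section defs
variable {G : Type*} [Group G]

/-- Right multiplication by a matrix over the group ring. -/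
noncomputable def delta (β : I → G) (D : I → C →ₗ[K] W) : (G →₀ C) →ₗ[K] (G →₀ W) :=
  ∑ i, (Finsupp.lmapDomain W K (fun g => g * β i)) ∘ₗ (Finsupp.mapRange.linearMap (D i))

/-- Left translation. -/
noncomputable def lt (K : Type*) [Field K] (C : Type*) [AddCommGroup C] [Module K C] (h : G) :
    (G →₀ C) →ₗ[K] (G →₀ C) :=
  Finsupp.lmapDomain C K (fun g => h * g)

theorem lt_single (h g : G) (c : C) :
    lt K C h (Finsupp.single g c) = Finsupp.single (h * g) c := by
  simp [lt]

theorem delta_single (β : I → G) (D : I → C →ₗ[K] W) (g : G) (c : C) :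
    delta β D (Finsupp.single g c) = ∑ i, Finsupp.single (g * β i) (D i c) := by
  simp [delta, LinearMap.sum_apply]

theorem delta_lt (β : I → G) (D : I → C →ₗ[K] W) (h : G) (f : G →₀ C) :
    delta β D (lt K C h f) = lt K W h (delta β D f) := by
  have : (delta β D) ∘ₗ (lt K C h) = (lt K W h) ∘ₗ (delta β D) := by
    ext g c : 2
    simp only [LinearMap.comp_apply, Finsupp.lsingle_apply, lt_single, delta_single, map_sum]
    refine sum_congr rfl fun i _ => ?_
    rw [mul_assoc]
  exact congrArg (fun L => L f) this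

end defs

section map
variable {G Q : Type*} [Group G] [Group Q]

/-- Push-forward along a homomorphism. -/
noncomputable def push (K : Type*) [Field K] (C : Type*) [AddCommGroup C] [Module K C]
    (π : G →* Q) : (G →₀ C) →ₗ[K] (Q →₀ C) :=
  Finsupp.lmapDomain C K π

theorem push_single (π : G →* Q) (g : G) (c : C) :
    push K C π (Finsupp.single g c) = Finsupp.single (π g) c := by
  simp [push]

theorem delta_push (π : G →* Q) (β : I → G) (D : I → C →ₗ[K] W) (f : G →₀ C) :
    delta (fun i => π (β i)) D (push K C π f) = push K W π (delta β D f) := by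
  have : (delta (fun i => π (β i)) D) ∘ₗ (push K C π) = (push K W π) ∘ₗ (delta β D) := by
    ext g c : 2
    simp only [LinearMap.comp_apply, Finsupp.lsingle_apply, push_single, delta_single, map_sum,
      map_mul]
  exact congrArg (fun L => L f) this

end map

/-- In a residually finite group a finite set is separated by a finite quotient. -/
theorem exists_finite_quotient {G : Type*} [Group G] [Group.ResiduallyFinite G] (s : Finset G) :
    ∃ N : Subgroup G, ∃ _ : N.Normal, N.FiniteIndex ∧
      ∀ g ∈ s, ∀ h ∈ s, (g : G ⧸ N) = (h : G ⧸ N) → g = h := by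
  classical
  have key : ∀ t : Finset G, (∀ g ∈ t, g ≠ 1) →
      ∃ N : Subgroup G, N.Normal ∧ N.FiniteIndex ∧ ∀ g ∈ t, g ∉ N := by
    intro t
    induction t using Finset.induction_on with
    | empty =>
      intro _
      exact ⟨⊤, inferInstance, inferInstance, by simp⟩
    | insert a t ha ih =>
      intro h
      obtain ⟨N, hN, hf, hN'⟩ := ih (fun g hg => h g (mem_insert_of_mem hg))
      obtain ⟨H, hH⟩ := Group.exists_finiteIndexNormalSubgroup_notMem a (h a (mem_insert_self _ _))
      have := hN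
      have := hf
      have : H.toSubgroup.Normal := H.isNormal'
      have : H.toSubgroup.FiniteIndex := H.isFiniteIndex'
      refine ⟨N ⊓ H.toSubgroup, inferInstance, inferInstance, ?_⟩
      intro g hg hgN
      rcases mem_insert.1 hg with rfl | hg
      · exact hH hgN.2
      · exact hN' g hg hgN.1
  obtain ⟨N, hN, hf, hN'⟩ := key (((s ×ˢ s).image (fun x => x.1⁻¹ * x.2)).filter (fun g => g ≠ 1))
    (by intro g hg; exact (mem_filter.1 hg).2)
  refine ⟨N, hN, hf, ?_⟩
  intro g hg h hh hgh
  by_contra hne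
  have h1 : g⁻¹ * h ∈ N := (QuotientGroup.eq).1 hgh
  refine hN' (g⁻¹ * h) ?_ h1
  rw [mem_filter]
  refine ⟨mem_image.2 ⟨(g, h), mem_product.2 ⟨hg, hh⟩, rfl⟩, ?_⟩
  intro h2
  apply hne
  exact (inv_mul_eq_one.1 h2)

/-- **Part III, abstract form.** -/
theorem not_RF [FiniteDimensional K C] [FiniteDimensional K W]
    (hrank : Module.finrank K C = Module.finrank K W)
    {G : Type*} [Group G] (β : I → G) (D : I → C →ₗ[K] W)
    (hsurj : ∀ w : W, ∃ ξ : G →₀ C, delta β D ξ = Finsupp.single 1 w)
    (κ : G →₀ C) (hκ : κ ≠ 0) (hδ : delta β D κ = 0) : ¬ Group.ResiduallyFinite G := by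
  classical
  intro hRF
  obtain ⟨N, hN, hf, hsep⟩ := exists_finite_quotient κ.support
  have := hN
  have := hf
  have : Finite (G ⧸ N) := Subgroup.finite_quotient_of_finiteIndex
  have := Fintype.ofFinite (G ⧸ N)
  set π : G →* G ⧸ N := QuotientGroup.mk' N with hπ
  set δ : ((G ⧸ N) →₀ C) →ₗ[K] ((G ⧸ N) →₀ W) := delta (fun i => π (β i)) D with hδdef
  -- surjectivity
  have hs : Function.Surjective δ := by
    rw [← LinearMap.range_eq_top, eq_top_iff]
    intro f _
    rw [← Finsupp.sum_single f]
    refine Submodule.sum_mem _ fun q _ => ?_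
    obtain ⟨ξ, hξ⟩ := hsurj (f q)
    refine ⟨lt K C q (push K C π ξ), ?_⟩
    rw [hδdef, delta_lt, delta_push, hξ, push_single, lt_single, map_one, mul_one]
  have hfr : Module.finrank K ((G ⧸ N) →₀ C) = Module.finrank K ((G ⧸ N) →₀ W) := by
    rw [(Finsupp.linearEquivFunOnFinite K C (G ⧸ N)).finrank_eq,
      (Finsupp.linearEquivFunOnFinite K W (G ⧸ N)).finrank_eq,
      Module.finrank_pi_fintype, Module.finrank_pi_fintype, hrank]
  have hi : Function.Injective δ :=
    (LinearMap.injective_iff_surjective_of_finrank_eq_finrank hfr).2 hs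
  have h0 : push K C π κ = 0 := by
    apply hi
    rw [map_zero, hδdef, delta_push, hδ, map_zero]
  apply hκ
  ext g
  by_cases hg : g ∈ κ.support
  · have h1 := congrArg (fun f => f (π g)) h0
    have h2 : (push K C π κ) (π g) = κ g := by
      show (Finsupp.mapDomain π κ) (π g) = κ g
      rw [Finsupp.mapDomain, Finsupp.sum_apply, Finsupp.sum, Finset.sum_eq_single g]
      · exact Finsupp.single_eq_same
      · intro b hb hbg
        apply Finsupp.single_eq_of_ne
        intro h
        exact hbg (hsep b hb g hg h.symm)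
      · intro h
        exact absurd hg h
    rw [← h2]
    simpa using h1
  · simpa using hg


/-! ### The form used for gadgets: `K = ZMod 2`, flags are pairs `(z, k)` -/

section gadget

variable {P : Type*} {Z : Type*} [Fintype Z] [DecidableEq Z] {κ : Type*} [Fintype κ]
variable (C' : Submodule (ZMod 2) (P → ZMod 2)) (t : Z × κ → P)



/-- The chain of a labelled vertex family. -/
noncomputable def chain {G V : Type*} [Group G] [Fintype V] (γ : V → G) (ℓ : V → C') :
    G →₀ C' :=
  ∑ v, Finsupp.single (γ v) (ℓ v)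

theorem zmod2_eq_one {x : ZMod 2} (h : x ≠ 0) : x = 1 := by
  revert h
  revert x
  decide



end gadget

end Crest.Agent.R199.AlgIII
end

-- ▼ part R199/NotRF1
section

/-! Part III: the group of a design is not residually finite (helper446).
`hemb`: cells embed (this is `Model.embed`).

For a position `x₀` let `K` be its component, `γ y = gw w` for a word `w` from `x₀` to `y`, and
`chain = ∑_{sheets y of K} single (γ y) (code y)`.  Then `δ chain` is the sum over the nodes `n` of `K` of
`∑_{incoming j} single (γ n) e_{cls j}`, so only the dangling node of `K` (if any) contributes. -/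

set_option autoImplicit false

open Finset

namespace Crest.Agent.R199

open Crest.Agent.R199.AlgIII

namespace NotRF1

variable {S Z C : Type} [Fintype S] [Fintype Z] [AddCommGroup C] [Module (ZMod 2) C]

section words
variable (D : SCData S)

theorem gw_append (w w' : List (S × Bool)) : D.gw (w ++ w') = D.gw w * D.gw w' := by
  unfold SCData.gw
  rw [← FreeGroup.mul_mk, map_mul]

theorem gw_invRev (w : List (S × Bool)) : D.gw (FreeGroup.invRev w) = (D.gw w)⁻¹ := by
  unfold SCData.gw
  rw [← FreeGroup.inv_mk, map_inv]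

theorem gw_closed {x : D.Pos} {w : List (S × Bool)} (h : D.A.read w x = some x) : D.gw w = 1 :=
  PresentedGroup.one_of_mem (rels := D.rels) ⟨x, w, h, rfl⟩

theorem gw_eq_of_read {x y : D.Pos} {w w' : List (S × Bool)} (h : D.A.read w x = some y)
    (h' : D.A.read w' x = some y) : D.gw w = D.gw w' := by
  have h1 : D.A.read (w ++ FreeGroup.invRev w') x = some x :=
    D.A.read_append_some.mpr ⟨y, h, D.A.read_invRev h'⟩
  have h2 := gw_closed D h1
  rw [gw_append, gw_invRev] at h2
  exact mul_inv_eq_one.mp h2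

/-- the developing map of the component of `x₀` (value `1` outside) -/
noncomputable def dev (x₀ y : D.Pos) : D.Grp :=
  open Classical in if h : ∃ w, D.A.read w x₀ = some y then D.gw h.choose else 1

theorem dev_eq {x₀ y : D.Pos} {w : List (S × Bool)} (h : D.A.read w x₀ = some y) :
    dev D x₀ y = D.gw w := by
  classical
  have h' : ∃ w, D.A.read w x₀ = some y := ⟨w, h⟩
  rw [dev, dif_pos h']
  exact gw_eq_of_read D h'.choose_spec h

end words

section chain
variable (D : DesignData1 S Z C)

/-- the component -/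
def K (x₀ y : D.Pos) : Prop := ∃ w, D.A.read w x₀ = some y

theorem K_step {x₀ y z : D.Pos} {a : S × Bool} (h : K D x₀ y) (h' : D.A.st a y = some z) :
    K D x₀ z := by
  obtain ⟨w, hw⟩ := h
  exact ⟨w ++ [a], D.A.read_append_some.mpr ⟨y, hw, by rw [D.A.read_singleton]; exact h'⟩⟩

theorem dev_step {x₀ y z : D.Pos} {a : S × Bool} (h : K D x₀ y) (h' : D.A.st a y = some z) :
    dev D.toSCData x₀ z = dev D.toSCData x₀ y * D.toSCData.gw [a] := by
  obtain ⟨w, hw⟩ := h
  have h2 : D.A.read (w ++ [a]) x₀ = some z :=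
    D.A.read_append_some.mpr ⟨y, hw, by rw [D.A.read_singleton]; exact h'⟩
  rw [dev_eq D.toSCData h2, dev_eq D.toSCData hw, gw_append]

/-- class map -/
noncomputable def Dm [DecidableEq Z] (j : S) : C →ₗ[ZMod 2] (Z → ZMod 2) :=
  (LinearMap.single (ZMod 2) (fun _ : Z => ZMod 2) (D.cls j)) ∘ₗ D.ev j

theorem Dm_apply [DecidableEq Z] (j : S) (c : C) : Dm D j c = Pi.single (D.cls j) (D.ev j c) := rfl

/-- codewords of the component -/
noncomputable def ell (x₀ y : D.Pos) : C :=
  open Classical in if K D x₀ y ∧ D.sh y then D.code y else 0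

theorem ev_ell (x₀ y : D.Pos) (j : S) :
    D.ev j (ell D x₀ y) ≠ 0 ↔ K D x₀ y ∧ (D.A.st (j, true) y).isSome := by
  classical
  rw [D.out_sheet, ell]
  by_cases h : K D x₀ y ∧ D.sh y
  · rw [if_pos h]
    constructor
    · intro h1
      exact ⟨h.1, h.2, zmod2_eq_one h1⟩
    · rintro ⟨-, -, h1⟩
      rw [h1]
      decide
  · rw [if_neg h, map_zero]
    constructor
    · intro h1
      exact absurd rfl h1
    · rintro ⟨h1, h2, -⟩
      exact absurd ⟨h1, h2⟩ h

/-- the chain of a component -/
noncomputable def chn [Fintype D.Pos] (x₀ : D.Pos) : D.toSCData.Grp →₀ C :=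
  ∑ y, Finsupp.single (dev D.toSCData x₀ y) (ell D x₀ y)

/-- the boundary of the chain as a sum over the nodes -/
theorem delta_chn [Fintype D.Pos] [DecidableEq Z] (x₀ : D.Pos) :
    delta (fun j => D.toSCData.gw [(j, true)]) (Dm D) (chn D x₀) =
      ∑ n : D.Pos, ∑ j : S, open Classical in
        (if K D x₀ n ∧ (D.A.st (j, false) n).isSome then
          Finsupp.single (dev D.toSCData x₀ n) (Pi.single (D.cls j) 1 : Z → ZMod 2) else 0) := by
  classical
  rw [chn, map_sum]
  simp only [delta_single, Dm_apply]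
  rw [← Finset.sum_product' (s := univ) (t := univ)
    (f := fun (y : D.Pos) (j : S) => Finsupp.single
      (dev D.toSCData x₀ y * D.toSCData.gw [(j, true)])
      (Pi.single (D.cls j) (D.ev j (ell D x₀ y)) : Z → ZMod 2)),
    ← Finset.sum_product' (s := univ) (t := univ)
    (f := fun (n : D.Pos) (j : S) => if K D x₀ n ∧ (D.A.st (j, false) n).isSome then
          Finsupp.single (dev D.toSCData x₀ n) (Pi.single (D.cls j) 1 : Z → ZMod 2) else 0),
    univ_product_univ, ← sum_filter]
  have h1 : ∑ x : D.Pos × S, Finsupp.single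
      (dev D.toSCData x₀ x.1 * D.toSCData.gw [(x.2, true)])
      (Pi.single (D.cls x.2) (D.ev x.2 (ell D x₀ x.1)) : Z → ZMod 2) =
      ∑ x ∈ (univ : Finset (D.Pos × S)).filter
        (fun x => K D x₀ x.1 ∧ (D.A.st (x.2, true) x.1).isSome),
        Finsupp.single (dev D.toSCData x₀ x.1 * D.toSCData.gw [(x.2, true)])
          (Pi.single (D.cls x.2) 1 : Z → ZMod 2) := by
    rw [sum_filter]
    refine sum_congr rfl fun x _ => ?_
    split_ifs with h
    · rw [zmod2_eq_one ((ev_ell D x₀ x.1 x.2).2 h)]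
    · have h2 : D.ev x.2 (ell D x₀ x.1) = 0 := by
        by_contra h3
        exact h ((ev_ell D x₀ x.1 x.2).1 h3)
      rw [h2]
      simp
  rw [h1]
  refine Finset.sum_bij' (fun x _ => ((D.A.st (x.2, true) x.1).getD x.1, x.2))
    (fun x _ => ((D.A.st (x.2, false) x.1).getD x.1, x.2)) ?_ ?_ ?_ ?_ ?_
  · rintro ⟨y, j⟩ hx
    rw [mem_filter] at hx ⊢
    obtain ⟨-, h2, h3⟩ := hx
    simp only at h2 h3
    obtain ⟨n, hn⟩ := Option.isSome_iff_exists.1 h3
    refine ⟨mem_univ _, ?_⟩
    simp only [hn, Option.getD_some]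
    have h4 := D.A.symm _ _ _ hn
    simp only [Bool.not_true] at h4
    exact ⟨K_step D h2 hn, by rw [h4]; rfl⟩
  · rintro ⟨n, j⟩ hx
    rw [mem_filter] at hx ⊢
    obtain ⟨-, h2, h3⟩ := hx
    simp only at h2 h3
    obtain ⟨y, hy⟩ := Option.isSome_iff_exists.1 h3
    refine ⟨mem_univ _, ?_⟩
    simp only [hy, Option.getD_some]
    have h4 := D.A.symm _ _ _ hy
    simp only [Bool.not_false] at h4
    exact ⟨K_step D h2 hy, by rw [h4]; rfl⟩
  · rintro ⟨y, j⟩ hx
    rw [mem_filter] at hx
    obtain ⟨-, h2, h3⟩ := hx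
    simp only at h2 h3
    obtain ⟨n, hn⟩ := Option.isSome_iff_exists.1 h3
    have h4 := D.A.symm _ _ _ hn
    simp only [Bool.not_true] at h4
    simp only [hn, Option.getD_some, h4]
  · rintro ⟨n, j⟩ hx
    rw [mem_filter] at hx
    obtain ⟨-, h2, h3⟩ := hx
    simp only at h2 h3
    obtain ⟨y, hy⟩ := Option.isSome_iff_exists.1 h3
    have h4 := D.A.symm _ _ _ hy
    simp only [Bool.not_false] at h4
    simp only [hy, Option.getD_some, h4]
  · rintro ⟨y, j⟩ hx
    rw [mem_filter] at hx
    obtain ⟨-, h2, h3⟩ := hx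
    simp only at h2 h3
    obtain ⟨n, hn⟩ := Option.isSome_iff_exists.1 h3
    simp only [hn, Option.getD_some]
    rw [dev_step D h2 hn]

/-- two equal classes cancel -/
theorem double_zero [DecidableEq Z] {G : Type*} (g : G) (z : Z) :
    (Finsupp.single g (Pi.single z 1 : Z → ZMod 2)) + Finsupp.single g (Pi.single z 1) = 0 := by
  rw [← Finsupp.single_add]
  have : (Pi.single z 1 : Z → ZMod 2) + Pi.single z 1 = 0 := by
    rw [← Pi.single_add]
    have h : (1 : ZMod 2) + 1 = 0 := by decide
    rw [h]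
    simp
  rw [this, Finsupp.single_zero]

/-- the contribution of a node without dangling is `0` -/
theorem node_zero [DecidableEq Z] (x₀ n : D.Pos) (hn : K D x₀ n → ∀ z, D.dang z ≠ n) :
    (∑ j : S, open Classical in
        (if K D x₀ n ∧ (D.A.st (j, false) n).isSome then
          Finsupp.single (dev D.toSCData x₀ n) (Pi.single (D.cls j) 1 : Z → ZMod 2) else 0)) = 0 := by
  classical
  by_cases hK : K D x₀ n
  · by_cases hs : D.sh n
    · refine Finset.sum_eq_zero fun j _ => ?_
      rw [if_neg]
      rintro ⟨-, h⟩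
      obtain ⟨y, hy⟩ := Option.isSome_iff_exists.1 h
      have h4 := D.A.symm _ _ _ hy
      simp only [Bool.not_false] at h4
      exact D.out_node j y n h4 hs
    · obtain ⟨j, j', hne, hcls, hj⟩ := D.node_in n hs (hn hK)
      rw [← sum_filter]
      have : (univ : Finset S).filter (fun i => K D x₀ n ∧ (D.A.st (i, false) n).isSome) =
          {j, j'} := by
        ext i
        rw [mem_filter, mem_insert, mem_singleton]
        constructor
        · rintro ⟨-, -, h⟩
          exact (hj i).1 h
        · intro h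
          exact ⟨mem_univ _, hK, (hj i).2 h⟩
      rw [this, sum_pair hne, hcls, double_zero]
  · refine Finset.sum_eq_zero fun j _ => ?_
    rw [if_neg]
    rintro ⟨h, -⟩
    exact hK h

theorem delta_chn_dang [Fintype D.Pos] [DecidableEq Z] (z : Z) :
    delta (fun j => D.toSCData.gw [(j, true)]) (Dm D) (chn D (D.dang z)) =
      Finsupp.single 1 (Pi.single z 1) := by
  classical
  rw [delta_chn, Finset.sum_eq_single (D.dang z)]
  · obtain ⟨j, hj, hj'⟩ := D.dang_in z
    have hK : K D (D.dang z) (D.dang z) := ⟨[], rfl⟩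
    rw [← sum_filter]
    have : (univ : Finset S).filter
        (fun i => K D (D.dang z) (D.dang z) ∧ (D.A.st (i, false) (D.dang z)).isSome) = {j} := by
      ext i
      rw [mem_filter, mem_singleton]
      constructor
      · rintro ⟨-, -, h⟩
        exact (hj' i).1 h
      · intro h
        exact ⟨mem_univ _, hK, (hj' i).2 h⟩
    rw [this, sum_singleton, hj]
    have h1 : dev D.toSCData (D.dang z) (D.dang z) = 1 := by
      have h2 : D.A.read [] (D.dang z) = some (D.dang z) := rfl
      rw [dev_eq D.toSCData h2]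
      exact gw_closed D.toSCData h2
    rw [h1]
  · intro n _ hn
    apply node_zero
    rintro ⟨w, hw⟩ z' rfl
    exact hn (by rw [D.dang_sep z z' w hw])
  · intro h
    exact absurd (mem_univ _) h

theorem delta_chn_closed [Fintype D.Pos] [DecidableEq Z] (xc : D.Pos)
    (h : ∀ w z, D.A.read w xc ≠ some (D.dang z)) :
    delta (fun j => D.toSCData.gw [(j, true)]) (Dm D) (chn D xc) = 0 := by
  classical
  rw [delta_chn]
  refine Finset.sum_eq_zero fun n _ => ?_
  apply node_zero
  rintro ⟨w, hw⟩ z rfl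
  exact h w z hw

end chain

end NotRF1

open NotRF1

theorem not_residuallyFinite_of_design1 {S Z C : Type} [Fintype S] [Fintype Z] [AddCommGroup C]
    [Module (ZMod 2) C] (D : DesignData1 S Z C)
    (hemb : ∀ (w : List (S × Bool)) (x y : D.Pos), D.A.read w x = some y →
      D.toSCData.gw w = 1 → y = x) :
    ¬ Group.ResiduallyFinite D.toSCData.Grp := by
  classical
  have := D.finPos
  have := Fintype.ofFinite D.Pos
  have := D.finC
  obtain ⟨xc, hxs, hxc, hcl⟩ := D.closed
  refine not_RF (K := ZMod 2) (W := Z → ZMod 2) (by rw [D.rank, Module.finrank_pi])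
    (fun j => D.toSCData.gw [(j, true)]) (Dm D) ?_ (chn D xc) ?_ (delta_chn_closed D xc hcl)
  · intro w
    refine ⟨∑ z, w z • chn D (D.dang z), ?_⟩
    simp only [map_sum, map_smul, delta_chn_dang]
    have : w = ∑ z, w z • (Pi.single z 1 : Z → ZMod 2) := by
      ext z
      rw [Finset.sum_apply, Finset.sum_eq_single z]
      · simp
      · intro b _ hb
        simp [Pi.single_eq_of_ne hb.symm]
      · intro h
        exact absurd (mem_univ _) h
    conv_rhs => rw [this, Finsupp.single_finsetSum]
    simp only [Finsupp.smul_single]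
  · intro h0
    have h1 := congrArg (fun f => f 1) h0
    rw [chn] at h1
    simp only [Finsupp.coe_zero, Pi.zero_apply] at h1
    rw [Finsupp.finsetSum_apply, Finset.sum_eq_single xc] at h1
    · have h2 : D.A.read [] xc = some xc := rfl
      rw [dev_eq D.toSCData h2, gw_closed D.toSCData h2, Finsupp.single_eq_same, ell,
        if_pos ⟨⟨[], rfl⟩, hxs⟩] at h1
      exact hxc h1
    · intro y _ hy
      by_cases hK : K D xc y
      · obtain ⟨w, hw⟩ := hK
        apply Finsupp.single_eq_of_ne
        rw [dev_eq D.toSCData hw]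
        intro h
        exact hy (hemb w xc y hw h.symm)
      · rw [ell, if_neg (fun h => hK h.1), Finsupp.single_zero, Finsupp.coe_zero, Pi.zero_apply]
    · intro h
      exact absurd (mem_univ _) h

end Crest.Agent.R199
end

-- ▼ part R199/GadgetAsm
section

/-! Part I (S1 version): assembly of the gadget system from the input data. -/

set_option autoImplicit false
set_option linter.unusedSectionVars false
set_option linter.unusedVariables false

namespace Crest.Agent.R199

open Finset

/-- the correction codeword of the gadget `x`; `M` = flags to be matched, `R` = root flag -/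
lemma exists_corr {P Z : Type} [Fintype P] [Fintype Z] [DecidableEq Z]
    (C : Submodule (ZMod 2) (P → ZMod 2)) (t : Z × Fin 3 → P)
    (dual : ∀ z : Z, ∃ κ ∈ C, ∀ z' : Z, ∑ k : Fin 3, κ (t (z', k)) = if z' = z then 1 else 0)
    (x : Option Z) :
    ∃ κ ∈ C, ∃ M R : Z × Fin 3 → Prop, ∃ _ : DecidablePred M,
      (∀ z', (univ.filter fun k => M (z', k)).card = 0 ∨
        (univ.filter fun k => M (z', k)).card = 2) ∧
      (∀ j, κ (t j) = 1 ↔ (M j ∨ R j)) ∧ (∀ j, M j → ¬ R j) ∧ (x = none → ∀ j, ¬ R j) ∧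
      ∀ z, x = some z → ∃ k0, ∀ j, R j ↔ j = (z, k0) := by
  classical
  rcases x with _ | z
  · refine ⟨0, C.zero_mem, fun _ => False, fun _ => False, fun _ => instDecidableFalse, ?_, ?_, ?_,
      ?_, ?_⟩
    · intro z'; left; simp
    · intro j; simp
    · intro j h; exact h.elim
    · intro _ j h; exact h
    · intro z h; exact absurd h (by simp)
  · obtain ⟨κ, hκ, hs⟩ := dual z
    obtain ⟨k0, hk0, hodd⟩ := ones_odd (fun k => κ (t (z, k))) (by rw [hs z, if_pos rfl])
    refine ⟨κ, hκ, fun j => κ (t j) = 1 ∧ j ≠ (z, k0), fun j => j = (z, k0),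
      fun j => inferInstance, ?_, ?_, ?_, ?_, ?_⟩
    · intro z'
      by_cases hz : z' = z
      · subst hz
        have : (univ.filter fun k => κ (t (z', k)) = 1 ∧ (z', k) ≠ (z', k0)) =
            (univ.filter fun k => κ (t (z', k)) = 1 ∧ k ≠ k0) := by
          apply filter_congr
          intro k _
          simp
        rw [this]
        exact hodd
      · have : (univ.filter fun k => κ (t (z', k)) = 1 ∧ (z', k) ≠ (z, k0)) =
            (univ.filter fun k => κ (t (z', k)) = 1) := by
          apply filter_congr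
          intro k _
          simp [hz]
        rw [this]
        exact ones_even (fun k => κ (t (z', k))) (by rw [hs z', if_neg hz])
    · intro j
      by_cases hj : j = (z, k0)
      · subst hj
        simp [hk0]
      · simp [hj]
    · intro j h; exact h.2
    · intro h; exact absurd h (by simp)
    · intro z' h
      have : z = z' := Option.some_injective _ h
      subst this
      exact ⟨k0, fun j => Iff.rfl⟩

section asm

variable {P Z E S : Type}

/-- flag of the gadget → flag of the matching construction -/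
def toFl (f : Option (E × S) × (Z × Fin 3)) : ((Z × Fin 3) × S) ⊕ (Z × Fin 3) :=
  match f with
  | (some v, j) => Sum.inl (j, v.2)
  | (none, j) => Sum.inr j

/-- the converse -/
def ofFl (t : Z × Fin 3 → P) (b : S → P → E) (a : ((Z × Fin 3) × S) ⊕ (Z × Fin 3)) :
    Option (E × S) × (Z × Fin 3) :=
  match a with
  | Sum.inl h => (some (b h.2 (t h.1), h.2), h.1)
  | Sum.inr j => (none, j)

lemma toFl_ofFl (t : Z × Fin 3 → P) (b : S → P → E) (a : ((Z × Fin 3) × S) ⊕ (Z × Fin 3)) :
    toFl (ofFl t b a) = a := by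
  rcases a with ⟨j, s⟩ | j <;> rfl

lemma idx_toFl (f : Option (E × S) × (Z × Fin 3)) : idx (toFl f) = f.2 := by
  rcases f with ⟨_ | ⟨w, s⟩, j⟩ <;> rfl

lemma ofFl_snd (t : Z × Fin 3 → P) (b : S → P → E) (a : ((Z × Fin 3) × S) ⊕ (Z × Fin 3)) :
    (ofFl t b a).2 = idx a := by
  rcases a with ⟨j, s⟩ | j <;> rfl

lemma ofFl_fst (t : Z × Fin 3 → P) (b : S → P → E) (a : ((Z × Fin 3) × S) ⊕ (Z × Fin 3)) :
    (ofFl t b a).1 = Insert.insV (vtxB t b) a := by
  rcases a with ⟨j, s⟩ | j <;> rfl

/-- flag predicate -/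
def Flg (t : Z × Fin 3 → P) (b : S → P → E) (κ : P → ZMod 2)
    (f : Option (E × S) × (Z × Fin 3)) : Prop :=
  match f with
  | (some v, j) => b v.2 (t j) = v.1
  | (none, j) => κ (t j) = 1

lemma ofFl_toFl {t : Z × Fin 3 → P} {b : S → P → E} {κ : P → ZMod 2}
    {f : Option (E × S) × (Z × Fin 3)} (hf : Flg t b κ f) : ofFl t b (toFl f) = f := by
  rcases f with ⟨_ | ⟨w, s⟩, j⟩
  · rfl
  · simp only [Flg] at hf
    simp only [toFl, ofFl]
    rw [hf]

end asm

theorem gadgetSys_of_input {g : ℕ} (I : GInput (g + 6)) :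
    ∃ (Z C W : Type) (_ : Fintype Z) (_ : Fintype W) (_ : AddCommGroup C)
      (_ : Module (ZMod 2) C), Nonempty (GadgetSys1 Z C W g) := by
  classical
  obtain ⟨P, Z, E, S, fP, fZ, fE, fS, q, C, t, t_inj, b, line_card, line_mem, rank, dual, ident,
    even_S, big, hq, neP, neZ⟩ := I
  have hSpos : 0 < Fintype.card S := by
    have : 1 ≤ (q + 1) ^ (g + 6 + 8) := Nat.one_le_pow _ _ (Nat.succ_pos q)
    omega
  obtain ⟨s0⟩ : Nonempty S := Fintype.card_pos_iff.1 hSpos
  obtain ⟨p0⟩ := neP
  choose κ hκC M R decM hM hκ hMR hnone hsome using exists_corr C t dual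
  have hG := fun x : Option Z => @exists_gadget P Z E S fP fZ fE fS _ _ _ t t_inj (b x) q (g + 6)
    (fun s w => by
      have := line_card x s w
      convert this using 2) hq even_S big (M x) (decM x) (hM x)
  choose τ hinv hbulk hnM hMM hinrM hcls hne hdir hcyc using hG
  choose k0 hk0 using fun z : Z => hsome (some z) z rfl
  let flag : Option Z → Option (E × S) × (Z × Fin 3) → Prop := fun x f => Flg t (b x) (κ x) f
  let μ : Option Z → Option (E × S) × (Z × Fin 3) → Option (E × S) × (Z × Fin 3) :=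
    fun x f => ofFl t (b x) (τ x (toFl f))
  have hret : ∀ x f, flag x f → ofFl t (b x) (toFl f) = f := fun x f hf => ofFl_toFl hf
  -- fixed points
  have hfix : ∀ x f, flag x f → (μ x f = f ↔ τ x (toFl f) = toFl f) := by
    intro x f hf
    constructor
    · intro h
      have := congrArg toFl h
      simp only [μ, toFl_ofFl] at this
      exact this
    · intro h
      simp only [μ, h]
      exact hret x f hf
  have hfix2 : ∀ x f, flag x f → (μ x f = f ↔ ∃ z, x = some z ∧ f = (none, (z, k0 z))) := by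
    intro x f hf
    rw [hfix x f hf]
    rcases f with ⟨_ | ⟨w, s⟩, j⟩
    · simp only [toFl]
      have hfl : κ x (t j) = 1 := hf
      constructor
      · intro h
        have hnMj : ¬ M x j := by
          intro hMj
          obtain ⟨h', hh'⟩ := hMM x j hMj
          rw [hh'] at h
          exact absurd h (by simp)
        have hR : R x j := ((hκ x j).1 hfl).resolve_left hnMj
        rcases x with _ | z
        · exact absurd hR (hnone none rfl j)
        · exact ⟨z, rfl, by rw [(hk0 z j).1 hR]⟩
      · rintro ⟨z, rfl, hz⟩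
        have hj : j = (z, k0 z) := (Prod.ext_iff.1 hz).2
        have hR : R (some z) j := (hk0 z j).2 hj
        exact hnM _ j (fun hMj => hMR _ j hMj hR)
    · simp only [toFl]
      constructor
      · intro h; exact absurd h (hbulk x _)
      · rintro ⟨z, rfl, hz⟩
        exact absurd (Prod.ext_iff.1 hz).1 (by simp)
  have hflag : ∀ x f, flag x f → flag x (μ x f) := by
    intro x f hf
    rcases hτ : τ x (toFl f) with ⟨j, s⟩ | j
    · simp only [flag, μ, hτ, ofFl, Flg]
    · simp only [flag, μ, hτ, ofFl, Flg]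
      rcases f with ⟨_ | ⟨w, s⟩, j0⟩
      · simp only [toFl] at hτ
        have hnMj : ¬ M x j0 := by
          intro hMj
          obtain ⟨h', hh'⟩ := hMM x j0 hMj
          rw [hh'] at hτ
          exact absurd hτ (by simp)
        rw [hnM x j0 hnMj] at hτ
        rw [← Sum.inr_injective hτ]
        exact hf
      · simp only [toFl] at hτ
        exact (hκ x j).2 (Or.inl (hinrM x _ j hτ))
  have hμτ : ∀ x f, toFl (μ x f) = τ x (toFl f) := fun x f => toFl_ofFl _ _ _
  have hμinv : ∀ x f, flag x f → μ x (μ x f) = f := by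
    intro x f hf
    have h1 : μ x (μ x f) = ofFl t (b x) (τ x (toFl (μ x f))) := rfl
    rw [h1, hμτ, hinv x]
    exact hret x f hf
  have hμcls : ∀ x f, (μ x f).2.1 = f.2.1 := by
    intro x f
    simp only [μ, ofFl_snd]
    rw [hcls x, idx_toFl]
  have hμne : ∀ x f, flag x f → μ x f ≠ f → (μ x f).2 ≠ f.2 := by
    intro x f hf hne' heq
    have h1 := hne x (toFl f) (fun h => hne' ((hfix x f hf).2 h))
    apply h1
    rw [idx_toFl, ← ofFl_snd t (b x)]
    exact congrArg Prod.snd heq
  have hclosed : ∀ x, NoClosed (Insert.insV (vtxB t (b x))) (τ x) (g + 6) :=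
    fun x => (hcyc x).noClosed (hinv x)
  -- girth
  have hgirth : ∀ x n, n + 1 < g + 6 → ∀ c : ℕ → Option (E × S) × (Z × Fin 3),
      (∀ i ≤ n, flag x (c i) ∧ μ x (c i) ≠ c i) →
      (∀ i < n, (c (i + 1)).1 = (μ x (c i)).1 ∧ c (i + 1) ≠ μ x (c i)) →
      (μ x (c n)).1 ≠ (c 0).1 := by
    intro x n hn c hc hstep
    have hτne : ∀ i ≤ n, τ x (toFl (c i)) ≠ toFl (c i) := fun i hi h =>
      (hc i hi).2 ((hfix x _ (hc i hi).1).2 h)
    have hV : ∀ i ≤ n, Insert.insV (vtxB t (b x)) (toFl (c i)) = (c i).1 := by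
      intro i hi
      rw [← ofFl_fst, hret x _ (hc i hi).1]
    have h := hclosed x n hn (fun i => toFl (c i)) ?_ (hτne n le_rfl)
    · intro h2
      apply h
      rw [hV 0 (Nat.zero_le n), ← h2, ← ofFl_fst]
    · intro i hi
      refine ⟨hτne i hi.le, ?_, ?_⟩
      · rw [hV (i + 1) hi, (hstep i hi).1, ← ofFl_fst]
      · intro h3
        apply (hstep i hi).2
        rw [← hret x _ (hc (i + 1) hi).1, h3]
  -- the sheets of a reading avoid the correction vertex except once
  have honce : ∀ (x : Option Z) (v : ℕ → Option (E × S)) (a b' : ℕ → Z × Fin 3),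
      (∀ i < 6, a i ≠ b' i ∧ flag x (v i, a i) ∧ flag x (v i, b' i)) →
      (∀ i < 5, μ x (v i, b' i) = (v (i + 1), a (i + 1)) ∧ μ x (v i, b' i) ≠ (v i, b' i)) →
      ∀ i j, i < j → j < 6 → v i = none → v j = none → False := by
    intro x v a b' h1 h2 i j hij hj hvi hvj
    obtain ⟨n, rfl⟩ : ∃ n, j = i + n + 1 := ⟨j - i - 1, by omega⟩
    refine hgirth x n (by omega) (fun l => (v (i + l), b' (i + l))) ?_ ?_ ?_
    · intro l hl
      exact ⟨(h1 (i + l) (by omega)).2.2, (h2 (i + l) (by omega)).2⟩
    · intro l hl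
      have h3 := (h2 (i + l) (by omega)).1
      simp only
      rw [h3]
      refine ⟨rfl, ?_⟩
      intro h4
      exact (h1 (i + l + 1) (by omega)).1 ((Prod.ext_iff.1 h4).2).symm
    · have h3 := (h2 (i + n) (by omega)).1
      simp only [add_zero]
      rw [h3, hvi]
      exact hvj
  -- directions change along bulk edges
  have hdir' : ∀ (x : Option Z) (v v' : E × S) (j j' : Z × Fin 3),
      μ x (some v, j) = (some v', j') → v.2 ≠ v'.2 := by
    intro x v v' j j' h
    have h1 := congrArg toFl h
    rw [hμτ] at h1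
    simp only [toFl] at h1
    exact (hdir x _ _ h1).symm
  refine ⟨Z, C, Option (E × S), fZ, inferInstance, inferInstance, inferInstance, ⟨?_⟩⟩
  refine
    { fl := fun x v => univ.filter fun j => flag x (v, j)
      root := fun z => (none, (z, k0 z))
      μ := μ
      root_flag := ?_
      root_cls := fun z => rfl
      μ_flag := ?_
      μ_invol := ?_
      μ_fix := ?_
      μ_cls := ?_
      μ_ne := ?_
      girth := ?_
      uniq := ?_
      letters := ?_
      ev := fun j => (LinearMap.proj (t j)) ∘ₗ C.subtype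
      finC := inferInstance
      rank := rank
      code := fun x v => match v with
        | some ws => ⟨fun p : P => if b x ws.2 p = ws.1 then (1 : ZMod 2) else 0, by
            have := line_mem x ws.2 ws.1
            convert this using 2⟩
        | none => ⟨κ x, hκC x⟩
      mem_fl := ?_
      closed_ne := ?_ }
  · intro z
    rw [mem_filter]
    exact ⟨mem_univ _, (hκ (some z) _).2 (Or.inr ((hk0 z _).2 rfl))⟩
  · intro x f hf
    rw [mem_filter] at hf ⊢
    exact ⟨mem_univ _, hflag x f hf.2⟩
  · intro x f hf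
    rw [mem_filter] at hf
    exact hμinv x f hf.2
  · intro x f hf
    rw [mem_filter] at hf
    exact hfix2 x f hf.2
  · intro x f hf
    exact hμcls x f
  · intro x f hf hne'
    rw [mem_filter] at hf
    exact hμne x f hf.2 hne'
  · intro x n hn c hc hstep
    exact hgirth x n (by omega) c (fun i hi => ⟨(mem_filter.1 (hc i hi).1).2, (hc i hi).2⟩) hstep
  · intro x y v w a b' h1 h2
    have h1x : ∀ i < 6, a i ≠ b' i ∧ flag x (v i, a i) ∧ flag x (v i, b' i) := fun i hi =>
      ⟨(h1 i hi).1, (mem_filter.1 (h1 i hi).2.1).2, (mem_filter.1 (h1 i hi).2.2.1).2⟩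
    have h1y : ∀ i < 6, a i ≠ b' i ∧ flag y (w i, a i) ∧ flag y (w i, b' i) := fun i hi =>
      ⟨(h1 i hi).1, (mem_filter.1 (h1 i hi).2.2.2.1).2, (mem_filter.1 (h1 i hi).2.2.2.2).2⟩
    have ox := honce x v a b' h1x (fun i hi => ⟨(h2 i hi).1, (h2 i hi).2.1⟩)
    have oy := honce y w a b' h1y (fun i hi => ⟨(h2 i hi).2.2.1, (h2 i hi).2.2.2⟩)
    -- a pair of consecutive bulk sheets in both readings
    obtain ⟨i, hi5, hv0, hv1, hw0, hw1⟩ : ∃ i, i < 5 ∧ v i ≠ none ∧ v (i + 1) ≠ none ∧
        w i ≠ none ∧ w (i + 1) ≠ none := by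
      by_contra hall
      push Not at hall
      have hp : ∀ i, i < 5 → (v i = none ∨ v (i + 1) = none) ∨ (w i = none ∨ w (i + 1) = none) := by
        intro i hi
        by_cases h3 : v i = none
        · exact Or.inl (Or.inl h3)
        · by_cases h4 : v (i + 1) = none
          · exact Or.inl (Or.inr h4)
          · by_cases h5 : w i = none
            · exact Or.inr (Or.inl h5)
            · exact Or.inr (Or.inr (hall i hi h3 h4 h5))
      have pv : ∀ i i', i + 2 ≤ i' → i' < 5 → (v i = none ∨ v (i + 1) = none) →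
          (v i' = none ∨ v (i' + 1) = none) → False := by
        intro i i' hii hi' h3 h4
        rcases h3 with h3 | h3 <;> rcases h4 with h4 | h4
        · exact ox i i' (by omega) (by omega) h3 h4
        · exact ox i (i' + 1) (by omega) (by omega) h3 h4
        · exact ox (i + 1) i' (by omega) (by omega) h3 h4
        · exact ox (i + 1) (i' + 1) (by omega) (by omega) h3 h4
      have pw : ∀ i i', i + 2 ≤ i' → i' < 5 → (w i = none ∨ w (i + 1) = none) →
          (w i' = none ∨ w (i' + 1) = none) → False := by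
        intro i i' hii hi' h3 h4
        rcases h3 with h3 | h3 <;> rcases h4 with h4 | h4
        · exact oy i i' (by omega) (by omega) h3 h4
        · exact oy i (i' + 1) (by omega) (by omega) h3 h4
        · exact oy (i + 1) i' (by omega) (by omega) h3 h4
        · exact oy (i + 1) (i' + 1) (by omega) (by omega) h3 h4
      rcases hp 0 (by omega) with h3 | h3 <;> rcases hp 2 (by omega) with h4 | h4 <;>
        rcases hp 4 (by omega) with h5 | h5
      · exact pv 0 2 (by omega) (by omega) h3 h4
      · exact pv 0 2 (by omega) (by omega) h3 h4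
      · exact pv 0 4 (by omega) (by omega) h3 h5
      · exact pw 2 4 (by omega) (by omega) h4 h5
      · exact pv 2 4 (by omega) (by omega) h4 h5
      · exact pw 0 4 (by omega) (by omega) h3 h5
      · exact pw 0 2 (by omega) (by omega) h3 h4
      · exact pw 0 2 (by omega) (by omega) h3 h4
    obtain ⟨v0, hv0'⟩ := Option.ne_none_iff_exists'.1 hv0
    obtain ⟨v1, hv1'⟩ := Option.ne_none_iff_exists'.1 hv1
    obtain ⟨w0, hw0'⟩ := Option.ne_none_iff_exists'.1 hw0
    obtain ⟨w1, hw1'⟩ := Option.ne_none_iff_exists'.1 hw1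
    have x0 := h1x i (by omega)
    have x1 := h1x (i + 1) (by omega)
    have y0 := h1y i (by omega)
    have y1 := h1y (i + 1) (by omega)
    rw [hv0'] at x0
    rw [hv1'] at x1
    rw [hw0'] at y0
    rw [hw1'] at y1
    have hs : v0.2 ≠ v1.2 := by
      have h3 := (h2 i hi5).1
      rw [hv0', hv1'] at h3
      exact hdir' x v0 v1 _ _ h3
    have e1 : b x v0.2 (t (a i)) = v0.1 := x0.2.1
    have e2 : b x v0.2 (t (b' i)) = v0.1 := x0.2.2
    have e3 : b y w0.2 (t (a i)) = w0.1 := y0.2.1
    have e4 : b y w0.2 (t (b' i)) = w0.1 := y0.2.2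
    have e5 : b x v1.2 (t (a (i + 1))) = v1.1 := x1.2.1
    have e6 : b x v1.2 (t (b' (i + 1))) = v1.1 := x1.2.2
    have e7 : b y w1.2 (t (a (i + 1))) = w1.1 := y1.2.1
    have e8 : b y w1.2 (t (b' (i + 1))) = w1.1 := y1.2.2
    obtain ⟨hxy, hss⟩ := ident x y v0.2 v1.2 w0.2 w1.2 (t (a i)) (t (b' i)) (t (a (i + 1)))
      (t (b' (i + 1))) (fun h => x0.1 (t_inj h)) (fun h => x1.1 (t_inj h)) hs
      (e1.trans e2.symm) (e3.trans e4.symm) (e5.trans e6.symm) (e7.trans e8.symm)
    refine ⟨hxy, ?_⟩
    subst hxy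
    have hvw : v i = w i := by
      rw [hv0', hw0']
      congr 1
      refine Prod.ext ?_ hss
      rw [← e1, ← e3, hss]
    -- go back
    have hback : ∀ j, j ≤ i → v (i - j) = w (i - j) := by
      intro j
      induction j with
      | zero => intro _; simpa using hvw
      | succ j ih =>
        intro hj
        have h3 := ih (by omega)
        obtain ⟨l, hl⟩ : ∃ l, i - j = l + 1 := ⟨i - j - 1, by omega⟩
        have hl' : i - (j + 1) = l := by omega
        rw [hl'] 
        rw [hl] at h3
        have h4 := h2 l (by omega)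
        have f1 : μ x (v (l + 1), a (l + 1)) = (v l, b' l) := by
          rw [← h4.1]
          exact hμinv x _ (h1x l (by omega)).2.2
        have f2 : μ x (w (l + 1), a (l + 1)) = (w l, b' l) := by
          rw [← h4.2.2.1]
          exact hμinv x _ (h1y l (by omega)).2.2
        rw [h3, f2] at f1
        exact ((Prod.ext_iff.1 f1).1).symm
    have := hback i le_rfl
    simpa using this
  · intro j
    refine ⟨none, some (b none s0 (t j), s0), ?_⟩
    rw [mem_filter]
    exact ⟨mem_univ _, rfl⟩
  · intro x v j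
    rw [mem_filter]
    rcases v with _ | ⟨w, s⟩
    · simp only [mem_univ, true_and]
      rfl
    · simp only [mem_univ, true_and, flag, Flg]
      change b x s (t j) = w ↔ (if b x s (t j) = w then (1 : ZMod 2) else 0) = 1
      by_cases h : b x s (t j) = w <;> simp [h]
  · refine ⟨some (b none s0 p0, s0), ?_⟩
    intro h
    have h2 := congrArg (fun c : C => (c : P → ZMod 2) p0) h
    simp at h2

end Crest.Agent.R199
private theorem rz_fb1402b4ba : type_of% @_root_.Crest.Agent.R199.Flg.eq_1 := @_root_.Crest.Agent.R199.Flg.eq_1 -- L98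
private theorem rz_e4e786166f : type_of% @_root_.Crest.Agent.R199.ofFl.eq_1 := @_root_.Crest.Agent.R199.ofFl.eq_1 -- L76
private theorem rz_6887536786 : type_of% @_root_.Crest.Agent.R199.toFl.eq_1 := @_root_.Crest.Agent.R199.toFl.eq_1 -- L70
end

-- ▼ part R199/PRank
section

/-!
# Row 199, Part (I.1): the `p`-rank bound for the net of lines of `F × F^n`

`F` a field with `2 ^ (μ * T)` elements, `n + 1 ≤ 2 ^ μ`.  The `F_2`-span of the indicator
vectors of the lines `{(u, w + u d)}` of `F × (Fin n → F)` has dimension at most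
`(2 ^ ((n + 1) * μ) - 1) ^ T`.
-/

open scoped Classical

namespace R199

section linalg

variable {P : Type*} [Fintype P] {F : Type*} [Field F] [Algebra (ZMod 2) F]

/-- If a family of `F`-valued functions is linearly independent and orthogonal to a set `S` of
`F_2`-valued functions, then `dim span S + card J ≤ card P`. -/
theorem finrank_span_add_card_le {J : Type*} [Fintype J] (S : Set (P → ZMod 2))
    (f : J → P → F) (hf : LinearIndependent F f)
    (h0 : ∀ j, ∀ s ∈ S, ∑ p, f j p * algebraMap (ZMod 2) F (s p) = 0) :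
    Module.finrank (ZMod 2) (Submodule.span (ZMod 2) S) + Fintype.card J ≤ Fintype.card P := by
  classical
  set L := Submodule.span (ZMod 2) S with hL
  let k := Module.finrank (ZMod 2) L
  let b : Module.Basis (Fin k) (ZMod 2) L := Module.finBasis (ZMod 2) L
  obtain ⟨g, hg⟩ := LinearMap.exists_leftInverse_of_injective L.subtype
    (Submodule.ker_subtype L)
  -- dual vectors
  let c : Fin k → P → ZMod 2 := fun i p => b.repr (g (Pi.single p 1)) i
  have hc : ∀ i j : Fin k, ∑ p, c i p * (b j : P → ZMod 2) p = if j = i then 1 else 0 := by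
    intro i j
    have h1 : (b j : P → ZMod 2) = ∑ p, (b j : P → ZMod 2) p • (Pi.single p 1 : P → ZMod 2) := by
      funext x
      simp [Finset.sum_apply, Pi.single_apply]
    have h2 : g (b j : P → ZMod 2) = b j := by
      have := LinearMap.congr_fun hg (b j)
      simpa using this
    have h3 : b.repr (g (b j : P → ZMod 2)) i = if j = i then 1 else 0 := by
      rw [h2]; simp [Finsupp.single_apply]
    rw [← h3]
    conv_rhs => rw [h1]
    simp only [map_sum, map_smul, Finsupp.coe_finsetSum, Finset.sum_apply, Finsupp.smul_apply,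
      smul_eq_mul, c]
    exact Finset.sum_congr rfl fun p _ => mul_comm _ _
  let Φ : (P → F) →ₗ[F] (Fin k → F) :=
    { toFun := fun φ i => ∑ p, φ p * algebraMap (ZMod 2) F ((b i : P → ZMod 2) p)
      map_add' := by
        intro x y; funext i; simp [add_mul, Finset.sum_add_distrib]
      map_smul' := by
        intro a x; funext i; simp [Finset.mul_sum, mul_assoc] }
  have hsurj : Function.Surjective Φ := by
    intro a
    refine ⟨∑ i, a i • (fun p => algebraMap (ZMod 2) F (c i p)), ?_⟩
    funext j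
    rw [map_sum]
    simp only [map_smul, Finset.sum_apply, Pi.smul_apply, smul_eq_mul]
    have h4 : ∀ i, Φ (fun p => algebraMap (ZMod 2) F (c i p)) j = if j = i then 1 else 0 := by
      intro i
      change ∑ p, algebraMap (ZMod 2) F (c i p) * algebraMap (ZMod 2) F ((b j : P → ZMod 2) p) = _
      simp only [← map_mul]
      rw [← map_sum, hc i j]
      split_ifs <;> simp
    simp [h4]
  have hker : Module.finrank F (LinearMap.ker Φ) + k = Fintype.card P := by
    have := LinearMap.finrank_range_add_finrank_ker Φ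
    rw [LinearMap.range_eq_top.2 hsurj, finrank_top] at this
    simp at this
    omega
  -- the family is in the kernel
  have hmem : ∀ j, f j ∈ LinearMap.ker Φ := by
    intro j
    rw [LinearMap.mem_ker]
    funext i
    change ∑ p, f j p * algebraMap (ZMod 2) F ((b i : P → ZMod 2) p) = 0
    have key : ∀ s ∈ Submodule.span (ZMod 2) S,
        ∑ p, f j p * algebraMap (ZMod 2) F (s p) = 0 := by
      intro s hs
      induction hs using Submodule.span_induction with
      | mem x hx => exact h0 j x hx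
      | zero => simp
      | add x y _ _ hx hy => simp [mul_add, Finset.sum_add_distrib, hx, hy]
      | smul a x _ hx =>
        have : ∀ p, f j p * algebraMap (ZMod 2) F ((a • x) p) =
            algebraMap (ZMod 2) F a * (f j p * algebraMap (ZMod 2) F (x p)) := by
          intro p; simp [mul_left_comm]
        rw [Finset.sum_congr rfl fun p _ => this p, ← Finset.mul_sum, hx, mul_zero]
    exact key _ (b i).2
  have hcard : Fintype.card J ≤ Module.finrank F (LinearMap.ker Φ) := by
    have hli : LinearIndependent F (fun j => (⟨f j, hmem j⟩ : LinearMap.ker Φ)) := by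
      apply LinearIndependent.of_comp (LinearMap.ker Φ).subtype
      exact hf
    exact hli.fintype_card_le_finrank
  have hk : k = Module.finrank (ZMod 2) L := rfl
  omega

end linalg

section mono

variable {F : Type} [Field F] [Fintype F] {n : ℕ}

/-- The monomial function with exponent vector `e` on `F × F^n`. -/
def mono (e : Option (Fin n) → ℕ) (p : F × (Fin n → F)) : F :=
  p.1 ^ e none * ∏ i, p.2 i ^ e (some i)

/-- Monomial functions with exponents `< q` are linearly independent. -/
theorem linearIndependent_mono {J : Type*} [Finite J] (e : J → Option (Fin n) → ℕ)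
    (he : Function.Injective e) (hq : ∀ j i, e j i < Fintype.card F) :
    LinearIndependent F (fun j => (mono (e j) : F × (Fin n → F) → F)) := by
  classical
  cases nonempty_fintype J
  rw [Fintype.linearIndependent_iff]
  intro c hc j
  let p : MvPolynomial (Option (Fin n)) F :=
    ∑ j, MvPolynomial.monomial (Finsupp.equivFunOnFinite.symm (e j)) (c j)
  have hp : p = 0 := by
    apply MvPolynomial.eq_zero_of_eval_eq_zero (Option (Fin n)) F p
    · intro v
      have := congrFun hc (v none, fun i => v (some i))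
      simp only [Finset.sum_apply, Pi.smul_apply, smul_eq_mul, Pi.zero_apply, mono] at this
      rw [← this]
      simp only [p, map_sum, MvPolynomial.eval_monomial]
      refine Finset.sum_congr rfl fun j _ => ?_
      congr 1
      rw [Finsupp.prod_fintype _ _ (by intro i; simp)]
      simp [Fintype.prod_option]
    · apply Submodule.sum_mem
      intro j _
      rw [MvPolynomial.mem_restrictDegree]
      intro s hs i
      have hs' := MvPolynomial.support_monomial_subset hs
      rw [Finset.mem_singleton] at hs'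
      subst hs'
      have := hq j i
      simp only [Finsupp.equivFunOnFinite_symm_apply_apply]
      omega
  have h2 : MvPolynomial.coeff (Finsupp.equivFunOnFinite.symm (e j)) p = c j := by
    simp only [p, MvPolynomial.coeff_sum, MvPolynomial.coeff_monomial]
    rw [Finset.sum_eq_single j]
    · simp
    · intro b _ hb
      rw [if_neg]
      intro h
      exact hb (he (Finsupp.equivFunOnFinite.symm.injective h))
    · simp
  rw [← h2, hp]; simp

/-- The sum over `F` of a polynomial of degree `< q - 1` vanishes. -/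
theorem sum_eval_eq_zero (p : Polynomial F) (hp : p.natDegree < Fintype.card F - 1) :
    ∑ u : F, p.eval u = 0 := by
  simp_rw [Polynomial.eval_eq_sum_range]
  rw [Finset.sum_comm]
  apply Finset.sum_eq_zero
  intro i hi
  rw [Finset.mem_range] at hi
  rw [← Finset.mul_sum, FiniteField.sum_pow_lt_card_sub_one F i (by omega), mul_zero]

theorem sum_mono_line_of_small (e : Option (Fin n) → ℕ) (h : ∑ i, e i < Fintype.card F - 1)
    (w d : Fin n → F) : ∑ u : F, mono e (u, w + u • d) = 0 := by
  classical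
  let p : Polynomial F := Polynomial.X ^ e none *
    ∏ i, (Polynomial.C (w i) + Polynomial.C (d i) * Polynomial.X) ^ e (some i)
  have h1 : ∀ u, mono e (u, w + u • d) = p.eval u := by
    intro u
    simp only [mono, p, Polynomial.eval_mul, Polynomial.eval_prod, Polynomial.eval_pow,
      Polynomial.eval_X, Polynomial.eval_add, Polynomial.eval_C, Pi.add_apply, Pi.smul_apply,
      smul_eq_mul]
    congr 1
    refine Finset.prod_congr rfl fun i _ => ?_
    rw [mul_comm u]
  simp_rw [h1]
  apply sum_eval_eq_zero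
  refine lt_of_le_of_lt ?_ h
  refine Polynomial.natDegree_mul_le.trans ?_
  rw [Fintype.sum_option]
  refine Nat.add_le_add (Polynomial.natDegree_X_pow_le _) ?_
  refine (Polynomial.natDegree_prod_le _ _).trans (Finset.sum_le_sum fun i _ => ?_)
  refine Polynomial.natDegree_pow_le.trans ?_
  have : (Polynomial.C (w i) + Polynomial.C (d i) * Polynomial.X).natDegree ≤ 1 := by
    compute_degree
  calc _ ≤ e (some i) * 1 := Nat.mul_le_mul_left _ this
    _ = _ := mul_one _

omit [Fintype F] in
theorem charP_two_of_card [Fintype F] {m : ℕ} (hF : Fintype.card F = 2 ^ m) : CharP F 2 := by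
  obtain ⟨p, hp⟩ := CharP.exists F
  have := hp
  obtain ⟨m', hpp, hm⟩ := FiniteField.card F p
  have h2 : p ∣ 2 ^ m := by
    rw [← hF, hm]; exact dvd_pow_self p m'.pos.ne'
  have h3 : p ∣ 2 := hpp.dvd_of_dvd_pow h2
  have h4 : p = 2 := (Nat.prime_dvd_prime_iff_eq hpp Nat.prime_two).1 h3
  rw [← h4]; exact hp

theorem sum_mono_line (μ T b : ℕ) (hb : b < T) (hF : Fintype.card F = 2 ^ (μ * T))
    (hn : n + 1 ≤ 2 ^ μ) (e : Option (Fin n) → ℕ) (he : ∀ i, e i < 2 ^ (μ * T))
    (hz : ∀ i, e i / 2 ^ (μ * b) % 2 ^ μ = 0) (w d : Fin n → F) :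
    ∑ u : F, mono e (u, w + u • d) = 0 := by
  classical
  have hμ : 0 < μ := by
    rcases Nat.eq_zero_or_pos μ with h | h
    · subst h
      have := Fintype.one_lt_card (α := F)
      simp at hF; omega
    · exact h
  have hchar : CharP F 2 := charP_two_of_card hF
  have : Fact (Nat.Prime 2) := ⟨Nat.prime_two⟩
  obtain ⟨s', hs'⟩ : ∃ s', T = b + 1 + s' := ⟨T - (b + 1), by omega⟩
  set s := μ * s' with hs
  have hq1 : 2 ^ (μ * (b + 1)) * 2 ^ s = 2 ^ (μ * T) := by
    rw [← pow_add]; congr 1; rw [hs, hs']; ring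
  have hq2 : 2 ^ (μ * b) * 2 ^ μ = 2 ^ (μ * (b + 1)) := by
    rw [← pow_add]; congr 1
  let e' : Option (Fin n) → ℕ := fun i => e i / 2 ^ (μ * (b + 1)) + (e i % 2 ^ (μ * b)) * 2 ^ s
  have hpow : ∀ (x : F) (i), x ^ (e i * 2 ^ s) = x ^ e' i := by
    intro x i
    have h5 : e i = e i / 2 ^ (μ * (b + 1)) * 2 ^ (μ * (b + 1)) + e i % 2 ^ (μ * b) := by
      have h6 := Nat.div_add_mod' (e i) (2 ^ (μ * (b + 1)))
      have h7 : e i % 2 ^ (μ * (b + 1)) = e i % 2 ^ (μ * b) := by
        rw [← hq2, Nat.mod_mul, hz i]; simp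
      rw [h7] at h6
      exact h6.symm
    have h8 : e i * 2 ^ s = Fintype.card F * (e i / 2 ^ (μ * (b + 1))) +
        (e i % 2 ^ (μ * b)) * 2 ^ s := by
      conv_lhs => rw [h5]
      rw [add_mul, mul_assoc, hq1, hF, mul_comm (2 ^ (μ * T))]
    rw [h8, pow_add, pow_mul, FiniteField.pow_card, ← pow_add]
  have hpow' : ∀ p : F × (Fin n → F), mono e p ^ 2 ^ s = mono e' p := by
    intro p
    simp only [mono]
    rw [mul_pow, ← Finset.prod_pow, ← pow_mul, hpow]
    congr 1
    refine Finset.prod_congr rfl fun i _ => ?_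
    rw [← pow_mul, hpow]
  have hfrob : (∑ u : F, mono e (u, w + u • d)) ^ 2 ^ s = ∑ u : F, mono e' (u, w + u • d) := by
    rw [sum_pow_char_pow 2 s]
    exact Finset.sum_congr rfl fun u _ => hpow' _
  have hsmall : ∑ i, e' i < Fintype.card F - 1 := by
    have hb' : ∀ i, e' i + 1 ≤ 2 ^ (μ * b) * 2 ^ s := by
      intro i
      have hA : e i / 2 ^ (μ * (b + 1)) < 2 ^ s := by
        rw [Nat.div_lt_iff_lt_mul (by positivity), mul_comm, hq1]; exact he i
      have hB : e i % 2 ^ (μ * b) + 1 ≤ 2 ^ (μ * b) := Nat.mod_lt _ (by positivity)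
      calc e' i + 1 = (e i / 2 ^ (μ * (b + 1)) + 1) + (e i % 2 ^ (μ * b)) * 2 ^ s := by
            simp only [e']; ring
        _ ≤ 2 ^ s + (e i % 2 ^ (μ * b)) * 2 ^ s := Nat.add_le_add_right hA _
        _ = (e i % 2 ^ (μ * b) + 1) * 2 ^ s := by ring
        _ ≤ _ := Nat.mul_le_mul_right _ hB
    have hsum : ∑ i, (e' i + 1) ≤ (n + 1) * (2 ^ (μ * b) * 2 ^ s) := by
      calc _ ≤ ∑ _i : Option (Fin n), 2 ^ (μ * b) * 2 ^ s := Finset.sum_le_sum fun i _ => hb' i
        _ = _ := by simp
    have hsum2 : ∑ i, (e' i + 1) = ∑ i, e' i + (n + 1) := by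
      rw [Finset.sum_add_distrib]; simp
    have hN : 2 ^ μ * (2 ^ (μ * b) * 2 ^ s) = Fintype.card F := by
      rw [hF, ← hq1, ← hq2]; ring
    set N := 2 ^ (μ * b) * 2 ^ s
    have hN1 : 1 ≤ N := Nat.succ_le_of_lt (by positivity)
    have h2μ : 2 ≤ 2 ^ μ := by
      calc 2 = 2 ^ 1 := rfl
        _ ≤ 2 ^ μ := Nat.pow_le_pow_right (by norm_num) hμ
    obtain ⟨N', hN'⟩ : ∃ N', N = N' + 1 := ⟨N - 1, by omega⟩
    have h9 : (n + 1) * N' ≤ 2 ^ μ * N' := Nat.mul_le_mul_right _ hn
    have h10 : (n + 1) * N = (n + 1) * N' + (n + 1) := by rw [hN']; ring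
    have h11 : 2 ^ μ * N = 2 ^ μ * N' + 2 ^ μ := by rw [hN']; ring
    omega
  have h0 := sum_mono_line_of_small e' hsmall w d
  rw [← hfrob] at h0
  exact pow_eq_zero_iff (by positivity) |>.1 h0

end mono

section final

variable {F : Type} [Field F] [Fintype F] {n : ℕ}

/-- Indicator vector of the line `{(u, w + u d)}` of `F × F^n`. -/
noncomputable def lineVec (w d : Fin n → F) : F × (Fin n → F) → ZMod 2 :=
  fun p => if p.2 = w + p.1 • d then 1 else 0

theorem sum_mul_lineVec [Algebra (ZMod 2) F] (f : F × (Fin n → F) → F) (w d : Fin n → F) :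
    ∑ p, f p * algebraMap (ZMod 2) F (lineVec w d p) = ∑ u, f (u, w + u • d) := by
  rw [Fintype.sum_prod_type]
  refine Finset.sum_congr rfl fun u _ => ?_
  rw [Finset.sum_eq_single (w + u • d)]
  · simp [lineVec]
  · intro y _ hy
    simp [lineVec, hy]
  · simp

/-- The number of exponent families having no common zero block. -/
theorem card_bad (n M T : ℕ) [NeZero M] :
    Fintype.card {e : Option (Fin n) → Fin T → Fin M // ∀ b, ¬ ∀ i, e i b = 0} =
      (M ^ (n + 1) - 1) ^ T := by
  classical
  have e1 : {e : Option (Fin n) → Fin T → Fin M // ∀ b, ¬ ∀ i, e i b = 0} ≃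
      (Fin T → {g : Option (Fin n) → Fin M // ¬ g = 0}) :=
    { toFun := fun e b => ⟨fun i => e.1 i b, fun h => e.2 b (fun i => congrFun h i)⟩
      invFun := fun f => ⟨fun i b => (f b).1 i, fun b h => (f b).2 (funext h)⟩
      left_inv := fun e => rfl
      right_inv := fun f => rfl }
  rw [Fintype.card_congr e1, Fintype.card_fun, Fintype.card_subtype_compl]
  simp

theorem finrank_lineSpan_le (μ T : ℕ) (hF : Fintype.card F = 2 ^ (μ * T))
    (hn : n + 1 ≤ 2 ^ μ) :
    Module.finrank (ZMod 2) (Submodule.span (ZMod 2)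
      (Set.range fun wd : (Fin n → F) × (Fin n → F) => lineVec wd.1 wd.2)) ≤
      (2 ^ ((n + 1) * μ) - 1) ^ T := by
  classical
  have hchar : CharP F 2 := charP_two_of_card hF
  let _ : Algebra (ZMod 2) F := ZMod.algebra F 2
  set M := 2 ^ μ with hM
  have : NeZero M := ⟨by positivity⟩
  have hMT : M ^ T = 2 ^ (μ * T) := by rw [hM, ← pow_mul]
  let G : (Option (Fin n) → Fin T → Fin M) → Option (Fin n) → ℕ :=
    fun e i => (finFunctionFinEquiv (e i) : ℕ)
  have hG : Function.Injective G := by
    intro a b hab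
    funext i
    exact finFunctionFinEquiv.injective (Fin.ext (congrFun hab i))
  have hGblock : ∀ e i (b : Fin T), G e i / M ^ (b : ℕ) % M = e i b := by
    intro e i b
    have := finFunctionFinEquiv_symm_apply_val (finFunctionFinEquiv (e i)) b
    rw [Equiv.symm_apply_apply] at this
    exact this.symm
  let J := {e : Option (Fin n) → Fin T → Fin M // ¬ ∀ b, ¬ ∀ i, e i b = 0}
  have h1 := finrank_span_add_card_le (J := J) (F := F)
    (Set.range fun wd : (Fin n → F) × (Fin n → F) => lineVec wd.1 wd.2)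
    (fun j => (mono (G j.1) : F × (Fin n → F) → F))
    (linearIndependent_mono _ (hG.comp Subtype.val_injective) (by
      intro j i
      rw [hF, ← hMT]
      exact Fin.is_lt _)) (by
      rintro ⟨e, he⟩ _ ⟨⟨w, d⟩, rfl⟩
      rw [sum_mul_lineVec]
      push Not at he
      obtain ⟨b, hb⟩ := he
      refine sum_mono_line μ T b b.2 hF hn _ (fun i => ?_) (fun i => ?_) w d
      · rw [← hMT]; exact Fin.is_lt _
      · have h2 := hGblock e i b
        rw [hb i] at h2
        rw [pow_mul]
        simpa using h2)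
  have h2 : Fintype.card J = Fintype.card (Option (Fin n) → Fin T → Fin M) -
      (M ^ (n + 1) - 1) ^ T := by
    rw [← card_bad n M T]
    exact Fintype.card_subtype_compl _
  have h3 : (M ^ (n + 1) - 1) ^ T ≤ Fintype.card (Option (Fin n) → Fin T → Fin M) := by
    rw [← card_bad n M T]
    exact Fintype.card_subtype_le _
  have h4 : Fintype.card (Option (Fin n) → Fin T → Fin M) = Fintype.card (F × (Fin n → F)) := by
    simp [hF, hMT, pow_succ, mul_comm]
  have h5 : 2 ^ ((n + 1) * μ) = M ^ (n + 1) := by rw [hM, ← pow_mul, mul_comm]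
  rw [h5]
  omega

/-- `(N - 1) ^ T` is eventually at most `N ^ T / k`. -/
theorem exists_pow_small (N k : ℕ) (hN : 1 ≤ N) : ∃ T0, ∀ T ≥ T0, k * (N - 1) ^ T ≤ N ^ T := by
  have hN' : (0 : ℝ) < N := by exact_mod_cast hN
  have h1 : ((N - 1 : ℕ) : ℝ) / N < 1 := by
    rw [div_lt_one hN']
    exact_mod_cast (by omega : N - 1 < N)
  have h0 : (0 : ℝ) ≤ ((N - 1 : ℕ) : ℝ) / N := by positivity
  have h2 := tendsto_pow_atTop_nhds_zero_of_lt_one h0 h1
  have h3 := h2.const_mul (k : ℝ)
  rw [mul_zero] at h3
  have h4 := h3.eventually (gt_mem_nhds (show (0 : ℝ) < 1 by norm_num))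
  obtain ⟨T0, hT0⟩ := Filter.eventually_atTop.1 h4
  refine ⟨T0, fun T hT => ?_⟩
  have h5 := hT0 T hT
  rw [div_pow, ← mul_div_assoc, div_lt_one (by positivity)] at h5
  exact_mod_cast h5.le

/-- The `p`-rank drop: for fixed `n` and `k`, there are arbitrarily large `t` such that over every
field with `2 ^ t` elements the lines of `F × F^n` span a space of dimension at most
`card (F × F^n) / k`. -/
theorem exists_small_rank (n k μ : ℕ) (hμ : n + 1 ≤ 2 ^ μ) : ∃ T0, ∀ T ≥ T0,
    ∀ (F : Type) [Field F] [Fintype F], Fintype.card F = 2 ^ (μ * T) →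
      k * Module.finrank (ZMod 2) (Submodule.span (ZMod 2)
        (Set.range fun wd : (Fin n → F) × (Fin n → F) => lineVec wd.1 wd.2)) ≤
      Fintype.card (F × (Fin n → F)) := by
  obtain ⟨T0, hT0⟩ := exists_pow_small (2 ^ ((n + 1) * μ)) k Nat.one_le_two_pow
  refine ⟨T0, fun T hT F _ _ hF => ?_⟩
  refine (Nat.mul_le_mul_left k (finrank_lineSpan_le μ T hF hμ)).trans ((hT0 T hT).trans ?_)
  apply le_of_eq
  simp only [Fintype.card_prod, Fintype.card_fun, Fintype.card_fin, hF]
  rw [← pow_mul, ← pow_mul, ← pow_add]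
  congr 1
  ring

end final

end R199
end

-- ▼ part R199/TriplesB
section

/-!
Row 199 (S0303), part I.2: enlarging a small binary code by unit vectors and choosing disjoint triples of
coordinates such that the triple sums are coordinates on the code.
-/

set_option autoImplicit false

namespace Crest.Agent.R199.TB

open Finset Module

/-- A subspace of `P → K` can be enlarged by unit vectors to any prescribed dimension. -/
theorem exists_enlarge {K P : Type*} [Field K] [Fintype P] [DecidableEq P]
    (C0 : Submodule K (P → K)) (r : ℕ) (h1 : finrank K C0 ≤ r) (h2 : r ≤ Fintype.card P) :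
    ∃ A : Finset P,
      finrank K ↥(C0 ⊔ Submodule.span K ((fun j : P => (Pi.single j 1 : P → K)) '' (A : Set P))) = r := by
  classical
  let Cof : Finset P → Submodule K (P → K) := fun A =>
    C0 ⊔ Submodule.span K ((fun j : P => (Pi.single j 1 : P → K)) '' (A : Set P))
  have hex : ∃ A : Finset P, finrank K (Cof A) ≤ r := by
    refine ⟨∅, ?_⟩
    have : Cof ∅ = C0 := by
      simp only [Cof, Finset.coe_empty, Set.image_empty, Submodule.span_empty, sup_bot_eq]
    rw [this]
    exact h1
  obtain ⟨A, hA, hmax⟩ := (Finset.univ.filter (fun A : Finset P => finrank K (Cof A) ≤ r)).exists_max_image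
    (fun A => A.card) ⟨hex.choose, by simpa using hex.choose_spec⟩
  have hA' : finrank K (Cof A) ≤ r := by simpa using hA
  refine ⟨A, ?_⟩
  change finrank K (Cof A) = r
  by_contra hne
  have hlt : finrank K (Cof A) < r := lt_of_le_of_ne hA' hne
  have hnt : Cof A ≠ ⊤ := by
    intro htop
    rw [htop, finrank_top, Module.finrank_fintype_fun_eq_card] at hlt
    omega
  have hj : ∃ j : P, (Pi.single j 1 : P → K) ∉ Cof A := by
    by_contra hcon
    push Not at hcon
    apply hnt
    rw [eq_top_iff]
    intro f _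
    have : f = ∑ j, f j • (Pi.single j 1 : P → K) := by
      funext k
      simp [Finset.sum_apply, Pi.single_apply]
    rw [this]
    exact Submodule.sum_mem _ (fun j _ => Submodule.smul_mem _ _ (hcon j))
  obtain ⟨j, hj⟩ := hj
  have hjA : j ∉ A := by
    intro hjA
    apply hj
    exact Submodule.mem_sup_right (Submodule.subset_span ⟨j, hjA, rfl⟩)
  have hins : Cof (insert j A) = Cof A ⊔ Submodule.span K {(Pi.single j 1 : P → K)} := by
    simp only [Cof]
    rw [Finset.coe_insert, Set.image_insert_eq, Submodule.span_insert]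
    rw [sup_comm (Submodule.span K {(Pi.single j 1 : P → K)}), sup_assoc]
  have hle : finrank K (Cof (insert j A)) ≤ r := by
    rw [hins]
    have h3 := Submodule.finrank_add_le_finrank_add_finrank (Cof A)
      (Submodule.span K {(Pi.single j 1 : P → K)})
    have h4 : finrank K (Submodule.span K {(Pi.single j 1 : P → K)}) ≤ 1 := by
      have := finrank_span_le_card (R := K) ({(Pi.single j 1 : P → K)} : Set (P → K))
      simpa using this
    omega
  have h5 := hmax (insert j A) (by simpa using hle)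
  rw [Finset.card_insert_of_notMem hjA] at h5
  omega

/-- information set -/
theorem exists_infoset {K P : Type*} [Field K] [Fintype P] [DecidableEq P]
    (C : Submodule K (P → K)) :
    ∃ B : Finset P, B.card = finrank K C ∧ ∀ f ∈ C, (∀ b ∈ B, f b = 0) → f = 0 := by
  classical
  have hex : ∃ B : Finset P, ∀ f ∈ C, (∀ b ∈ B, f b = 0) → f = 0 :=
    ⟨Finset.univ, fun f _ hf => funext (fun b => hf b (Finset.mem_univ b))⟩
  obtain ⟨B, hB, hmin⟩ := (Finset.univ.filter
    (fun B : Finset P => ∀ f ∈ C, (∀ b ∈ B, f b = 0) → f = 0)).exists_min_image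
    (fun B => B.card) ⟨hex.choose, by simpa using hex.choose_spec⟩
  have hB' : ∀ f ∈ C, (∀ b ∈ B, f b = 0) → f = 0 := by
    have := (Finset.mem_filter.mp hB).2
    exact this
  refine ⟨B, ?_, hB'⟩
  apply le_antisymm
  · -- linearly independent family
    have hf : ∀ b : B, ∃ f : C, (∀ b' ∈ B, b' ≠ b.1 → (f : P → K) b' = 0) ∧ (f : P → K) b.1 ≠ 0 := by
      intro b
      by_contra hcon
      push Not at hcon
      have hmem : B.erase b.1 ∈ (Finset.univ.filter
          (fun B : Finset P => ∀ f ∈ C, (∀ b ∈ B, f b = 0) → f = 0)) := by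
        rw [Finset.mem_filter]
        refine ⟨Finset.mem_univ _, ?_⟩
        intro f hf hz
        have h1 := hcon ⟨f, hf⟩ (fun b' hb' hne => hz b' (Finset.mem_erase.mpr ⟨hne, hb'⟩))
        refine hB' f hf (fun b' hb' => ?_)
        by_cases hbb : b' = b.1
        · rw [hbb]; exact h1
        · exact hz b' (Finset.mem_erase.mpr ⟨hbb, hb'⟩)
      have h2 := hmin _ hmem
      have h3 := Finset.card_erase_lt_of_mem b.2
      omega
    choose F hF0 hF1 using hf
    have hli : LinearIndependent K F := by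
      rw [Fintype.linearIndependent_iff]
      intro g hg b
      have h1 : ((∑ i, g i • F i : C) : P → K) b.1 = 0 := by
        rw [hg]; rfl
      rw [Submodule.coe_sum, Finset.sum_apply, Finset.sum_eq_single b] at h1
      · simp only [Submodule.coe_smul, Pi.smul_apply, smul_eq_mul] at h1
        rcases mul_eq_zero.mp h1 with h | h
        · exact h
        · exact absurd h (hF1 b)
      · intro i _ hib
        have := hF0 i b.1 b.2 (fun h => hib (Subtype.ext h.symm))
        simp [this]
      · intro h; exact absurd (Finset.mem_univ _) h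
    have := hli.fintype_card_le_finrank
    rwa [Fintype.card_coe] at this
  · -- injectivity
    let Φ : C →ₗ[K] (B → K) :=
      { toFun := fun f b => (f : P → K) b.1
        map_add' := fun f g => rfl
        map_smul' := fun c f => rfl }
    have hinj : Function.Injective Φ := by
      rw [injective_iff_map_eq_zero]
      intro f hf
      apply Subtype.ext
      refine hB' f f.2 (fun b hb => ?_)
      exact congrFun hf ⟨b, hb⟩
    have := LinearMap.finrank_le_finrank_of_injective hinj
    rwa [Module.finrank_fintype_fun_eq_card, Fintype.card_coe] at this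

/-- the greedy step -/
theorem greedy_triples {P : Type*} [Fintype P] [DecidableEq P]
    (C : Submodule (ZMod 2) (P → ZMod 2)) (hC : 3 * finrank (ZMod 2) C + 1 ≤ Fintype.card P) :
    ∀ m ≤ finrank (ZMod 2) C, ∃ (t : Fin m → Fin 3 → P) (B : Finset P),
      (∀ z z' k k', t z k = t z' k' → z = z' ∧ k = k') ∧ (∀ z k, t z k ∉ B) ∧
      m + B.card = finrank (ZMod 2) C ∧
      ∀ f ∈ C, (∀ z, ∑ k, f (t z k) = 0) → (∀ b ∈ B, f b = 0) → f = 0 := by
  classical
  intro m
  induction m with
  | zero =>
    intro _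
    obtain ⟨B, hB, hB'⟩ := exists_infoset C
    exact ⟨fun z => z.elim0, B, fun z => z.elim0, fun z => z.elim0, by omega,
      fun f hf _ hb => hB' f hf hb⟩
  | succ m ih =>
    intro hm
    obtain ⟨t, B, hinj, hdisj, hcard, hker⟩ := ih (by omega)
    have hBne : B.Nonempty := by
      rw [← Finset.card_pos]; omega
    obtain ⟨b, hb⟩ := hBne
    -- the functional killing everything but `b`
    let Φ : C →ₗ[ZMod 2] (Fin m → ZMod 2) × (↥(B.erase b) → ZMod 2) :=
      { toFun := fun f => (fun z => ∑ k, (f : P → ZMod 2) (t z k), fun b' => (f : P → ZMod 2) b'.1)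
        map_add' := by
          intro f g
          ext x
          · simp [Finset.sum_add_distrib]
          · simp
        map_smul' := by
          intro c f
          ext x
          · simp [Finset.mul_sum]
          · simp }
    have hlt : finrank (ZMod 2) ((Fin m → ZMod 2) × (↥(B.erase b) → ZMod 2))
        < finrank (ZMod 2) C := by
      rw [Module.finrank_prod, Module.finrank_fintype_fun_eq_card,
        Module.finrank_fintype_fun_eq_card, Fintype.card_fin, Fintype.card_coe,
        Finset.card_erase_of_mem hb]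
      have := Finset.card_pos.mpr ⟨b, hb⟩
      omega
    obtain ⟨f0, hf0k, hf0⟩ := (Submodule.ne_bot_iff _).mp (LinearMap.ker_ne_bot_of_finrank_lt (f := Φ) hlt)
    have hk := LinearMap.mem_ker.mp hf0k
    have hs0 : ∀ z, ∑ k, (f0 : P → ZMod 2) (t z k) = 0 := fun z => congrFun (congrArg Prod.fst hk) z
    have hb0 : ∀ b' ∈ B, b' ≠ b → (f0 : P → ZMod 2) b' = 0 := fun b' hb' hne =>
      congrFun (congrArg Prod.snd hk) ⟨b', Finset.mem_erase.mpr ⟨hne, hb'⟩⟩
    have hfb : (f0 : P → ZMod 2) b = 1 := by
      have h01 : ∀ x : ZMod 2, x ≠ 0 → x = 1 := by decide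
      apply h01
      intro hz
      apply hf0
      apply Subtype.ext
      refine hker f0 f0.2 hs0 (fun b' hb' => ?_)
      by_cases hbb : b' = b
      · rw [hbb]; exact hz
      · exact hb0 b' hb' hbb
    -- unused points
    set U : Finset P := Finset.univ \ (B ∪ (Finset.univ.image (fun x : Fin m × Fin 3 => t x.1 x.2)))
      with hU
    have hUcard : 3 ≤ U.card := by
      have h1 : U.card = Fintype.card P
          - (B ∪ (Finset.univ.image (fun x : Fin m × Fin 3 => t x.1 x.2))).card := by
        rw [hU, Finset.card_sdiff_of_subset (Finset.subset_univ _), Finset.card_univ]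
      have h2 := Finset.card_union_le B (Finset.univ.image (fun x : Fin m × Fin 3 => t x.1 x.2))
      have h3 : (Finset.univ.image (fun x : Fin m × Fin 3 => t x.1 x.2)).card ≤ m * 3 := by
        refine Finset.card_image_le.trans ?_
        simp
      omega
    have hmaps : ∀ u ∈ U, (f0 : P → ZMod 2) u ∈ (Finset.univ : Finset (ZMod 2)) :=
      fun u _ => Finset.mem_univ _
    have hcard2 : (Finset.univ : Finset (ZMod 2)).card < U.card := by
      rw [Finset.card_univ, ZMod.card]; omega
    obtain ⟨u, huU, v, hvU, huv, hfuv⟩ :=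
      Finset.exists_ne_map_eq_of_card_lt_of_maps_to hcard2 hmaps
    have hu1 : u ∉ B ∧ ∀ z k, t z k ≠ u := by
      rw [hU, Finset.mem_sdiff, Finset.mem_union, not_or] at huU
      refine ⟨huU.2.1, fun z k h => huU.2.2 ?_⟩
      rw [Finset.mem_image]
      exact ⟨(z, k), Finset.mem_univ _, h⟩
    have hv1 : v ∉ B ∧ ∀ z k, t z k ≠ v := by
      rw [hU, Finset.mem_sdiff, Finset.mem_union, not_or] at hvU
      refine ⟨hvU.2.1, fun z k h => hvU.2.2 ?_⟩
      rw [Finset.mem_image]
      exact ⟨(z, k), Finset.mem_univ _, h⟩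
    have hub : u ≠ b := fun h => hu1.1 (h ▸ hb)
    have hvb : v ≠ b := fun h => hv1.1 (h ▸ hb)
    let w : Fin 3 → P := ![b, u, v]
    have hw0 : w 0 = b := rfl
    have hw1 : w 1 = u := rfl
    have hw2 : w 2 = v := rfl
    have hwinj : Function.Injective w := by
      intro k k' h
      fin_cases k <;> fin_cases k' <;> simp [w] at h ⊢ <;>
        first
        | exact absurd h (Ne.symm hub)
        | exact absurd h (Ne.symm hvb)
        | exact absurd h hub
        | exact absurd h hvb
        | exact absurd h huv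
        | exact absurd h.symm huv
    have hwt : ∀ z k k', t z k ≠ w k' := by
      intro z k k'
      fin_cases k'
      · intro h
        have h' : t z k = b := h
        exact hdisj z k (h' ▸ hb)
      · exact hu1.2 z k
      · exact hv1.2 z k
    refine ⟨Fin.snoc t w, B.erase b, ?_, ?_, ?_, ?_⟩
    · intro z z' k k' h
      induction z using Fin.lastCases with
      | last =>
        induction z' using Fin.lastCases with
        | last =>
          simp only [Fin.snoc_last] at h
          exact ⟨rfl, hwinj h⟩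
        | cast z' =>
          simp only [Fin.snoc_last, Fin.snoc_castSucc] at h
          exact absurd h.symm (hwt z' k' k)
      | cast z =>
        induction z' using Fin.lastCases with
        | last =>
          simp only [Fin.snoc_last, Fin.snoc_castSucc] at h
          exact absurd h (hwt z k k')
        | cast z' =>
          simp only [Fin.snoc_castSucc] at h
          obtain ⟨h1, h2⟩ := hinj z z' k k' h
          exact ⟨by rw [h1], h2⟩
    · intro z k
      induction z using Fin.lastCases with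
      | last =>
        simp only [Fin.snoc_last]
        rw [Finset.mem_erase, not_and]
        fin_cases k
        · intro h; exact absurd rfl h
        · intro _; exact hu1.1
        · intro _; exact hv1.1
      | cast z =>
        simp only [Fin.snoc_castSucc]
        intro h
        exact hdisj z k (Finset.mem_of_mem_erase h)
    · rw [Finset.card_erase_of_mem hb]
      have := Finset.card_pos.mpr ⟨b, hb⟩
      omega
    · intro f hf hs hbz
      have hs' : ∀ z, ∑ k, f (t z k) = 0 := by
        intro z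
        have := hs z.castSucc
        simpa only [Fin.snoc_castSucc] using this
      have hlast : f b + f u + f v = 0 := by
        have := hs (Fin.last m)
        simp only [Fin.snoc_last] at this
        rwa [Fin.sum_univ_three, hw0, hw1, hw2] at this
      -- f = f b • f0
      have hdiff : f - f b • (f0 : P → ZMod 2) = 0 := by
        refine hker _ (Submodule.sub_mem _ hf (Submodule.smul_mem _ _ f0.2)) ?_ ?_
        · intro z
          simp only [Pi.sub_apply, Pi.smul_apply, smul_eq_mul, Finset.sum_sub_distrib,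
            ← Finset.mul_sum, hs' z, hs0 z]
          simp
        · intro b' hb'
          by_cases hbb : b' = b
          · rw [hbb]
            simp [hfb]
          · simp [hb0 b' hb' hbb, hbz b' (Finset.mem_erase.mpr ⟨hbb, hb'⟩)]
      have hfeq : f = f b • (f0 : P → ZMod 2) := sub_eq_zero.mp hdiff
      have hu : f u = f b * (f0 : P → ZMod 2) u := by
        conv_lhs => rw [hfeq]
        simp
      have hv : f v = f b * (f0 : P → ZMod 2) u := by
        conv_lhs => rw [hfeq]
        simp [hfuv]
      have hb00 : f b = 0 := by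
        rw [hu, hv, add_assoc, CharTwo.add_self_eq_zero, add_zero] at hlast
        exact hlast
      rw [hfeq, hb00, zero_smul]

/-- I.2: enlarge a binary code `C0` with `3 dim C0 + 1 ≤ |P|` by unit vectors to a code of dimension `r`,
`3 r + 1 ≤ |P| ≤ 3 r + 3`, on which the sums over `r` disjoint triples of coordinates are coordinates. -/
theorem exists_triples {P : Type*} [Fintype P] [DecidableEq P]
    (C0 : Submodule (ZMod 2) (P → ZMod 2)) (h : 3 * finrank (ZMod 2) C0 + 1 ≤ Fintype.card P) :
    ∃ (r : ℕ) (A : Finset P) (t : Fin r → Fin 3 → P),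
      3 * r + 1 ≤ Fintype.card P ∧ Fintype.card P ≤ 3 * r + 3 ∧
      (∀ z z' k k', t z k = t z' k' → z = z' ∧ k = k') ∧
      finrank (ZMod 2) ↥(C0 ⊔ Submodule.span (ZMod 2)
        ((fun j : P => (Pi.single j 1 : P → ZMod 2)) '' (A : Set P))) = r ∧
      ∀ c : Fin r → ZMod 2, ∃! f : P → ZMod 2,
        f ∈ C0 ⊔ Submodule.span (ZMod 2)
          ((fun j : P => (Pi.single j 1 : P → ZMod 2)) '' (A : Set P)) ∧
        ∀ z, ∑ k, f (t z k) = c z := by
  classical
  set r : ℕ := (Fintype.card P - 1) / 3 with hr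
  have h1 : 3 * r + 1 ≤ Fintype.card P := by omega
  have h2 : Fintype.card P ≤ 3 * r + 3 := by omega
  have h3 : finrank (ZMod 2) C0 ≤ r := by omega
  obtain ⟨A, hA⟩ := exists_enlarge C0 r h3 (by omega)
  set C := C0 ⊔ Submodule.span (ZMod 2)
    ((fun j : P => (Pi.single j 1 : P → ZMod 2)) '' (A : Set P)) with hC
  obtain ⟨t, B, hinj, _, hcard, hker⟩ := greedy_triples C (by rw [hA]; exact h1) r (by rw [hA])
  have hB : B = ∅ := by
    rw [← Finset.card_eq_zero]; omega
  refine ⟨r, A, t, h1, h2, hinj, hA, ?_⟩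
  let D : C →ₗ[ZMod 2] (Fin r → ZMod 2) :=
    { toFun := fun f z => ∑ k, (f : P → ZMod 2) (t z k)
      map_add' := by
        intro f g
        ext x
        simp [Finset.sum_add_distrib]
      map_smul' := by
        intro c f
        ext x
        simp [Finset.mul_sum] }
  have hDinj : Function.Injective D := by
    rw [injective_iff_map_eq_zero]
    intro f hf
    apply Subtype.ext
    refine hker f f.2 (fun z => congrFun hf z) ?_
    intro b hb
    rw [hB] at hb
    exact absurd hb (Finset.notMem_empty b)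
  have hDsurj : Function.Surjective D := by
    rw [← LinearMap.injective_iff_surjective_of_finrank_eq_finrank]
    · exact hDinj
    · rw [hA, Module.finrank_fintype_fun_eq_card, Fintype.card_fin]
  intro c
  obtain ⟨f, hf⟩ := hDsurj c
  refine ⟨f, ⟨f.2, fun z => congrFun hf z⟩, ?_⟩
  rintro g ⟨hg, hg2⟩
  have : (⟨g, hg⟩ : C) = f := by
    apply hDinj
    rw [hf]
    funext z
    exact hg2 z
  exact congrArg Subtype.val this

end Crest.Agent.R199.TB
end

-- ▼ part R199/ParamsB
section

/-! Part I: parameters and instantiation of the input data. -/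

set_option autoImplicit false

namespace Crest.Agent.R199

open Finset

/-- Two points determine the direction. -/
lemma dir_unique {F : Type} [Field F] {n : ℕ} {p₁ p₂ : F × (Fin n → F)} (hp : p₁ ≠ p₂)
    {d d' : Fin n → F} (h1 : p₁.2 - p₁.1 • d = p₂.2 - p₂.1 • d)
    (h2 : p₁.2 - p₁.1 • d' = p₂.2 - p₂.1 • d') : d = d' := by
  have hne : p₁.1 ≠ p₂.1 := by
    intro he
    apply hp
    refine Prod.ext he ?_
    rw [he] at h1
    exact sub_left_injective h1
  have e1 : (p₁.1 - p₂.1) • d = p₁.2 - p₂.2 := by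
    rw [sub_smul]
    have : p₁.2 = p₂.2 - p₂.1 • d + p₁.1 • d := by rw [← h1]; abel
    rw [this]; abel
  have e2 : (p₁.1 - p₂.1) • d' = p₁.2 - p₂.2 := by
    rw [sub_smul]
    have : p₁.2 = p₂.2 - p₂.1 • d' + p₁.1 • d' := by rw [← h2]; abel
    rw [this]; abel
  exact smul_right_injective _ (sub_ne_zero.2 hne) (e1.trans e2.symm)

theorem exists_gInput (g : ℕ) : Nonempty (GInput g) := by
  classical
  obtain ⟨c, hc⟩ : ∃ c, c = 2 * g + 30 := ⟨_, rfl⟩
  obtain ⟨n, hn⟩ : ∃ n, n = 3 * c := ⟨_, rfl⟩
  have hμ : n + 1 ≤ 2 ^ (n + 1) := Nat.lt_two_pow_self.le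
  obtain ⟨μ, hμ'⟩ : ∃ μ, μ = n + 1 := ⟨_, rfl⟩
  rw [← hμ'] at hμ
  obtain ⟨T0, hT0⟩ := _root_.R199.exists_small_rank n 4 μ (by rw [hμ']; rw [hμ'] at hμ; exact hμ)
  obtain ⟨e, he⟩ : ∃ e, e = μ * (T0 + 1) := ⟨_, rfl⟩
  have he0 : e ≠ 0 := by
    rw [he, hμ']; positivity
  have hc0 : c ≠ 0 := by omega
  let F := GaloisField 2 e
  let K := GaloisField 2 (e * c)
  have _ : Fintype F := Fintype.ofFinite F
  have _ : Fintype K := Fintype.ofFinite K
  have hF : Fintype.card F = 2 ^ e := by
    rw [Fintype.card_eq_nat_card]; exact GaloisField.card 2 e he0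
  have hK : Fintype.card K = 2 ^ (e * c) := by
    rw [Fintype.card_eq_nat_card]; exact GaloisField.card 2 (e * c) (Nat.mul_ne_zero he0 hc0)
  obtain ⟨q, hq⟩ : ∃ q, q = 2 ^ e := ⟨_, rfl⟩
  have hKq : Fintype.card K = q ^ c := by rw [hK, hq, ← pow_mul]
  rw [← hq] at hF
  have hq2 : 2 ≤ q := by
    rw [hq]
    calc 2 = 2 ^ 1 := rfl
      _ ≤ 2 ^ e := Nat.pow_le_pow_right (by norm_num) (Nat.one_le_iff_ne_zero.2 he0)
  have hrank := hT0 (T0 + 1) (Nat.le_succ _) F (by rw [hF, hq, he])
  have hP : Fintype.card (F × (Fin n → F)) = q ^ (n + 1) := by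
    rw [Fintype.card_prod, Fintype.card_fun, Fintype.card_fin, hF, pow_succ]; ring
  have hE : Fintype.card (Fin n → F) = Fintype.card K ^ 3 := by
    rw [Fintype.card_fun, Fintype.card_fin, hF, hKq, ← pow_mul, hn]; ring
  have hP4 : 4 ≤ q ^ (n + 1) := by
    calc 4 = 2 ^ 2 := rfl
      _ ≤ q ^ 2 := Nat.pow_le_pow_left hq2 2
      _ ≤ q ^ (n + 1) := Nat.pow_le_pow_right (by omega) (by omega)
  obtain ⟨r, A, t, h1, h2, hinj, hfin, hdual⟩ := TB.exists_triples
    (Submodule.span (ZMod 2)
        (Set.range fun wd : (Fin n → F) × (Fin n → F) => _root_.R199.lineVec wd.1 wd.2)) (by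
      rw [hP] at hrank ⊢
      omega)
  rw [hP] at h1 h2
  have hX : Fintype.card (Option (Fin r)) ≤ Fintype.card K ^ 4 := by
    rw [Fintype.card_option, Fintype.card_fin, hKq, ← pow_mul]
    calc r + 1 ≤ q ^ (n + 1) := by omega
      _ ≤ q ^ (c * 4) := Nat.pow_le_pow_right (by omega) (by omega)
  obtain ⟨δ, hδ, hδ2⟩ := exists_dirs K (Option (Fin r)) (Fin n → F) hE hX
  refine ⟨{
    P := F × (Fin n → F)
    Z := Fin r
    E := Fin n → F
    S := K
    fP := inferInstance
    fZ := inferInstance
    fE := inferInstance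
    fS := inferInstance
    q := q
    C := _
    t := fun zk => t zk.1 zk.2
    t_inj := ?_
    b := fun x s p => p.2 - p.1 • δ x s
    line_card := ?_
    line_mem := ?_
    rank := by rw [hfin, Fintype.card_fin]
    dual := ?_
    ident := ?_
    even_S := ?_
    big := ?_
    one_le_q := by omega
    nonempty_P := ⟨(0, 0)⟩
    nonempty_Z := ⟨⟨0, by omega⟩⟩ }⟩
  · rintro ⟨z, k⟩ ⟨z', k'⟩ h
    obtain ⟨rfl, rfl⟩ := hinj z z' k k' h
    rfl
  · intro x s w
    rw [← hF, ← card_univ (α := F)]
    refine card_le_card_of_injOn Prod.fst (fun p _ => mem_coe.2 (mem_univ _)) ?_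
    intro p hp p' hp' h
    have e1 : p.2 - p.1 • δ x s = w := by simpa using hp
    have e2 : p'.2 - p'.1 • δ x s = w := by simpa using hp'
    refine Prod.ext h ?_
    rw [← e2, h] at e1
    exact sub_left_injective e1
  · intro x s w
    apply Submodule.mem_sup_left
    apply Submodule.subset_span
    refine ⟨(w, δ x s), ?_⟩
    funext p
    simp only [_root_.R199.lineVec]
    have : p.2 = w + p.1 • δ x s ↔ p.2 - p.1 • δ x s = w := sub_eq_iff_eq_add.symm
    by_cases h : p.2 - p.1 • δ x s = w
    · rw [if_pos h, if_pos (this.2 h)]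
    · rw [if_neg h, if_neg (fun h' => h (this.1 h'))]
  · intro z
    obtain ⟨f, ⟨hf, hfs⟩, -⟩ := hdual (Pi.single z 1)
    refine ⟨f, hf, fun z' => ?_⟩
    rw [hfs z', Pi.single_apply]
    split_ifs <;> rfl
  · intro x y s₁ s₂ s₁' s₂' p₁ p₂ r₁ r₂ hp hr hs a1 a2 a3 a4
    have e1 := dir_unique hp a1 a2
    have e2 := dir_unique hr a3 a4
    obtain ⟨e3, e4, -⟩ := hδ2 x y s₁ s₂ s₁' s₂' hs e1 e2
    exact ⟨e3, e4⟩
  · have hec : e * c ≠ 0 := Nat.mul_ne_zero he0 hc0
    rw [hK]
    exact (Nat.even_pow.2 ⟨even_two, hec⟩)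
  · rw [hKq]
    have h3 : q + 1 ≤ q ^ 2 := by nlinarith
    have h4 : 100 ≤ q ^ 7 := le_trans (by norm_num) (Nat.pow_le_pow_left hq2 7)
    calc 100 * (q + 1) ^ (g + 8) ≤ q ^ 7 * (q ^ 2) ^ (g + 8) :=
          Nat.mul_le_mul h4 (Nat.pow_le_pow_left h3 _)
      _ = q ^ (7 + 2 * (g + 8)) := by rw [← pow_mul, ← pow_add]
      _ ≤ q ^ c := Nat.pow_le_pow_right (by omega) (by omega)

end Crest.Agent.R199
end

-- ▼ part R199/DesignExists1
section

/-! Part I: existence of the gadget system, S1 version. -/

set_option autoImplicit false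

namespace Crest.Agent.R199

theorem exists_gadgetSys1 (g : ℕ) : ∃ (Z C W : Type) (_ : Fintype Z) (_ : Fintype W)
    (_ : AddCommGroup C) (_ : Module (ZMod 2) C), Nonempty (GadgetSys1 Z C W g) := by
  obtain ⟨I⟩ := exists_gInput (g + 6)
  exact gadgetSys_of_input I

end Crest.Agent.R199
end

-- ▼ part R199/Main

/-! Row 199, final assembly. -/

set_option autoImplicit false

namespace Crest.Agent.R199

theorem main : ∃ (G : Type) (_ : Group G),
      (∀ g : G, IsOfFinOrder g → g = 1) ∧ Crest.GroupTheory.IsHyperbolicGroup G ∧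
        ¬ Group.ResiduallyFinite G := by
  obtain ⟨Z, C, W, iZ, iW, iC, iM, ⟨Γ⟩⟩ := exists_gadgetSys1 150
  obtain ⟨D⟩ := design_of_gadgets1 Γ
  obtain ⟨M⟩ := exists_model D.toSCData
  exact ⟨D.toSCData.Grp, inferInstance, fun g hg => torsionFree D.toSCData M g hg,
    hyperbolic D.toSCData M, not_residuallyFinite_of_design1 D M.embed⟩

end Crest.Agent.R199
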